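import Mathlib

/-!
# Odd elements of a symmetric group normalising no elementary abelian 2-subgroup
-/

open Finset Equiv

namespace Vale.Agent.P240

open Fin.NatCast

variable {β : Type*}

/-- `k` normalises `P`. -/
def Normalises (k : Perm β) (P : Subgroup (Perm β)) : Prop := ∀ x, x ∈ P ↔ k * x * k⁻¹ ∈ P

/-- Data for one component: an even `c`, a set `T` of commuting even elements of exponent `q`
centralising `c`, such that no nontrivial elementary abelian 2-subgroup is normalised by all. -/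
def FibreData (q : ℕ) (c : Perm β) (T : Set (Perm β)) [Fintype β] [DecidableEq β] : Prop :=
  Perm.sign c = 1 ∧ (∀ t ∈ T, Perm.sign t = 1 ∧ t ^ q = 1 ∧ Commute c t) ∧
    (∀ t ∈ T, ∀ t' ∈ T, Commute t t') ∧
    ∀ P : Subgroup (Perm β), (∀ x ∈ P, x ^ 2 = 1) → Normalises c P →
      (∀ t ∈ T, Normalises t P) → P = ⊥

/-- Data transported along an equivalence. -/
lemma FibreData.transport {γ : Type*} [Fintype β] [DecidableEq β] [Fintype γ] [DecidableEq γ]
    {q : ℕ} {c : Perm β} {T : Set (Perm β)} (h : FibreData q c T) (e : β ≃ γ) :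
    FibreData q (e.permCongrHom c) (e.permCongrHom '' T) := by
  obtain ⟨h1, h2, h3, h4⟩ := h
  refine ⟨(Perm.sign_permCongr e c).trans h1, ?_, ?_, fun P hP hc hT => ?_⟩
  · rintro _ ⟨t, ht, rfl⟩
    exact ⟨(Perm.sign_permCongr e t).trans (h2 t ht).1, by rw [← map_pow, (h2 t ht).2.1, map_one],
      (h2 t ht).2.2.map e.permCongrHom⟩
  · rintro _ ⟨t, ht, rfl⟩ _ ⟨t', ht', rfl⟩
    exact (h3 t ht t' ht').map e.permCongrHom
  · have hnorm : ∀ k, Normalises (e.permCongrHom k) P →
        Normalises k (P.comap e.permCongrHom.toMonoidHom) := fun k hk x => by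
      simp only [Subgroup.mem_comap, MulEquiv.coe_toMonoidHom, map_mul, map_inv]
      exact hk _
    have hbot := h4 (P.comap e.permCongrHom.toMonoidHom)
      (fun x hx => e.permCongrHom.injective (by rw [map_pow, map_one]; exact hP _ hx)) (hnorm c hc)
      fun t ht => hnorm t (hT _ ⟨t, ht, rfl⟩)
    refine (Subgroup.eq_bot_iff_forall _).mpr fun y hy => ?_
    have h5 := (Subgroup.eq_bot_iff_forall _).mp hbot (e.permCongrHom.symm y) (by
      rw [Subgroup.mem_comap, MulEquiv.coe_toMonoidHom, MulEquiv.apply_symm_apply]; exact hy)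
    exact e.permCongrHom.symm.injective (h5.trans (map_one _).symm)

variable {P : Subgroup (Perm β)} (hP : ∀ x ∈ P, x ^ 2 = 1)

include hP in
lemma apply_apply {x : Perm β} (hx : x ∈ P) (a : β) : x (x a) = a := by
  have := Equiv.congr_fun (hP x hx) a
  simpa [pow_two] using this

include hP in
lemma comm {x y : Perm β} (hx : x ∈ P) (hy : y ∈ P) (a : β) : x (y a) = y (x a) := by
  have h := apply_apply hP (P.mul_mem hx hy)
  simp only [Perm.mul_apply] at h
  have h1 := congrArg y (congrArg x (h a))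
  rwa [apply_apply hP hx, apply_apply hP hy] at h1

include hP in
/-- If a 3-cycle normalises `P` and some `x ∈ P` takes one of its points `a` outside, then `x`
exchanges the other two. -/
lemma swap_others {t x : Perm β} {a b c : β} (ht : Normalises t P) (hab : t a = b) (hbc : t b = c)
    (hca : t c = a) (hne : a ≠ b ∧ b ≠ c ∧ c ≠ a)
    (hout : ∀ u, u ≠ a → u ≠ b → u ≠ c → t u = u) (hx : x ∈ P)
    (hd : x a ≠ a ∧ x a ≠ b ∧ x a ≠ c) : x b = c := by
  have hx1 : t * x * t⁻¹ ∈ P := (ht x).mp hx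
  have htb : t⁻¹ b = a := by rw [← hab]; simp
  have htd : t (x a) = x a := hout _ hd.1 hd.2.1 hd.2.2
  have h1b : (t * x * t⁻¹) b = x a := by
    simp only [Perm.mul_apply, htb, htd]
  have hcom := comm hP hx hx1 b
  rw [h1b, apply_apply hP hx] at hcom
  by_contra hne'
  have hb_a : x b ≠ a := fun h => hd.2.1 (by rw [← h]; exact apply_apply hP hx b)
  rcases eq_or_ne (x b) b with h | h
  · rw [h, h1b] at hcom
    exact hd.1 hcom.symm
  · have hfix : t⁻¹ (x b) = x b := by
      conv_lhs => rw [← hout _ hb_a h hne']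
      simp
    simp only [Perm.mul_apply, hfix, apply_apply hP hx, hbc] at hcom
    exact hne.2.2 hcom.symm

include hP in
/-- A 3-cycle normalising `P` leaves at most one point outside it in the orbit of `a`. -/
lemma outside_unique {t x x' : Perm β} {a b c : β} (ht : Normalises t P) (hab : t a = b)
    (hbc : t b = c) (hca : t c = a) (hne : a ≠ b ∧ b ≠ c ∧ c ≠ a)
    (hout : ∀ u, u ≠ a → u ≠ b → u ≠ c → t u = u) (hx : x ∈ P) (hx' : x' ∈ P)
    (hd : x a ≠ a ∧ x a ≠ b ∧ x a ≠ c) (hd' : x' a ≠ a ∧ x' a ≠ b ∧ x' a ≠ c) : x a = x' a := by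
  have h1 := swap_others hP ht hab hbc hca hne hout hx hd
  have h2 := swap_others hP ht hab hbc hca hne hout hx' hd'
  have hz : x * x' ∈ P := P.mul_mem hx hx'
  have hzb : (x * x') b = b := by rw [Perm.mul_apply, h2, ← h1, apply_apply hP hx]
  have hx1 : t * x * t⁻¹ ∈ P := (ht x).mp hx
  have htb : t⁻¹ b = a := by rw [← hab]; simp
  have h1b : (t * x * t⁻¹) b = x a := by
    simp only [Perm.mul_apply, htb, hout _ hd.1 hd.2.1 hd.2.2]
  have hza : (x * x') (x a) = x a := by
    rw [← h1b, comm hP hz hx1, hzb]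
  have hzz : (x * x') a = a := by
    have h3 := comm hP hz hx (x a)
    rwa [apply_apply hP hx, hza, apply_apply hP hx] at h3
  rw [Perm.mul_apply] at hzz
  exact (apply_apply hP hx (x' a)).symm.trans (by rw [hzz]) |>.symm

include hP in
/-- A 3-cycle normalising `P`, whose outside points are all moved by normalisers fixing it, has
all its points fixed by `P`. -/
lemma fixed_of_triple {t : Perm β} (p : Fin 3 → β) (ht : Normalises t P)
    (htp : ∀ j, t (p j) = p (j + 1)) (hp : Function.Injective p)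
    (hout : ∀ u, (∀ j, u ≠ p j) → t u = u)
    (hmove : ∀ u, (∀ j, u ≠ p j) → ∃ k, Normalises k P ∧ (∀ j, k (p j) = p j) ∧ k u ≠ u)
    {x : Perm β} (hx : x ∈ P) (j : Fin 3) : x (p j) = p j := by
  have cov : ∀ j l : Fin 3, l = j ∨ l = j + 1 ∨ l = j + 1 + 1 := by decide
  have hcyc : ∀ j : Fin 3, j + 1 + 1 + 1 = j ∧ j ≠ j + 1 ∧ j + 1 ≠ j + 1 + 1 ∧ j + 1 + 1 ≠ j := by
    decide
  have hout' : ∀ j u, u ≠ p j → u ≠ p (j + 1) → u ≠ p (j + 1 + 1) → t u = u := fun j u h0 h1 h2 =>
    hout u fun l => by rcases cov j l with rfl | rfl | rfl <;> assumption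
  have hinside : ∀ j, ∀ y ∈ P, ∃ l, y (p j) = p l := by
    intro j y hy
    by_contra hno
    push Not at hno
    obtain ⟨k, hk, hkp, hku⟩ := hmove _ hno
    have hy' : k * y * k⁻¹ ∈ P := (hk y).mp hy
    have hval : (k * y * k⁻¹) (p j) = k (y (p j)) := by
      simp only [Perm.mul_apply]
      congr 2
      conv_lhs => rw [← hkp j]
      simp
    obtain ⟨e1, e2, e3, e4⟩ := hcyc j
    have hout3 : ∀ l, k (y (p j)) ≠ p l := fun l h =>
      hno l (k.injective (h.trans (hkp l).symm))
    have := outside_unique hP ht (htp j) (htp _) (by rw [htp, e1]) ⟨fun h => e2 (hp h),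
      fun h => e3 (hp h), fun h => e4 (hp h)⟩ (hout' j) hy hy' ⟨hno _, hno _, hno _⟩
      (by rw [hval]; exact ⟨hout3 _, hout3 _, hout3 _⟩)
    rw [hval] at this
    exact hku this.symm
  by_contra hne
  obtain ⟨l, hl⟩ := hinside j x hx
  have hlj : l ≠ j := fun h => hne (h ▸ hl)
  -- a third point of the triple
  obtain ⟨m, hm⟩ : ∃ m : Fin 3, m ≠ j ∧ m ≠ l :=
    (show ∀ j l : Fin 3, ∃ m, m ≠ j ∧ m ≠ l by decide) j l
  obtain ⟨o, ho⟩ := hinside m x hx
  have hom : o = m := by
    have ha : o ≠ j := fun h => hm.2 (hp (by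
      have := apply_apply hP hx (p m); rw [ho, h, hl] at this; exact this.symm))
    have hb : o ≠ l := fun h => hm.1 (hp (x.injective (by rw [ho, h, hl])))
    exact (show ∀ o m j l : Fin 3, o ≠ j → o ≠ l → m ≠ j ∧ m ≠ l → l ≠ j → o = m by decide)
      o m j l ha hb hm hlj
  subst hom
  -- conjugate by `t` and use commutativity
  have hx1 : t * x * t⁻¹ ∈ P := (ht x).mp hx
  have hinv : ∀ i : Fin 3, t⁻¹ (p (i + 1)) = p i := fun i => by rw [← htp]; simp
  have hsub : ∀ i : Fin 3, i + 2 + 1 = i := by decide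
  have hpred : ∀ i : Fin 3, t⁻¹ (p i) = p (i + 2) := fun i => by
    conv_lhs => rw [← hsub i]
    exact hinv _
  have hback : x (p l) = p j := by rw [← hl]; exact apply_apply hP hx _
  let σ : Fin 3 → Fin 3 := fun i => if i = j then l else if i = l then j else i
  have hσ : ∀ i, x (p i) = p (σ i) := fun i => by
    simp only [σ]
    split_ifs with h1 h2
    · rw [h1, hl]
    · rw [h2, hback]
    · obtain rfl : i = o := (show ∀ i o j l : Fin 3, ¬i = j → ¬i = l → o ≠ j ∧ o ≠ l → l ≠ j → i = o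
        by decide) i o j l h1 h2 hm hlj
      exact ho
  have hτ : ∀ i, (t * x * t⁻¹) (p i) = p (σ (i + 2) + 1) := fun i => by
    rw [Perm.mul_apply, Perm.mul_apply, hpred, hσ, htp]
  have hc : σ (σ (j + 2) + 1) = σ (σ j + 2) + 1 := hp (by
    rw [← hσ, ← hτ, comm hP hx hx1, hσ, hτ])
  exact (show ∀ j l : Fin 3, l ≠ j →
      let s : Fin 3 → Fin 3 := fun i => if i = j then l else if i = l then j else i
      s (s (j + 2) + 1) ≠ s (s j + 2) + 1 by decide) j l hlj hc

variable [Fintype β]

include hP in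
/-- If every point outside a fixed set lies in one orbit of a normaliser and there are oddly many
of them, `P` is trivial. -/
lemma eq_bot_of_odd (S : Finset β) (hS : Odd #S) (k : Perm β) (hk : Normalises k P)
    (hfix : ∀ x ∈ P, ∀ u ∉ S, x u = u) (hkS : ∀ u, u ∈ S ↔ k u ∈ S)
    (htrans : ∀ u ∈ S, ∀ v ∈ S, ∃ i : ℕ, (k ^ i) u = v) : P = ⊥ := by
  classical
  have hPS : ∀ x ∈ P, ∀ u ∈ S, x u ∈ S := fun x hx u hu => by
    by_contra h
    have := hfix x hx _ h
    rw [apply_apply hP hx] at this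
    exact h (this ▸ hu)
  let _ : MulAction P S :=
    { smul := fun x u => ⟨(x : Perm β) u, hPS x x.2 u u.2⟩
      one_smul := fun u => rfl
      mul_smul := fun x y u => rfl }
  have h2 : IsPGroup 2 P := fun x => ⟨1, Subtype.ext (by simpa using hP x x.2)⟩
  have : Fact (Nat.Prime 2) := ⟨Nat.prime_two⟩
  obtain ⟨⟨u, hu⟩, hu0⟩ : ∃ u : S, u ∈ MulAction.fixedPoints P S := by
    by_contra h
    push Not at h
    have : IsEmpty (MulAction.fixedPoints P S) := ⟨fun u => h u.1 u.2⟩
    have h' := h2.card_modEq_card_fixedPoints S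
    simp [Nat.ModEq, Nat.odd_iff.mp hS] at h'
  have hpow : ∀ i : ℕ, ∀ x ∈ P, x ((k ^ i) u) = (k ^ i) u := by
    intro i
    induction i with
    | zero => exact fun x hx => congrArg Subtype.val (hu0 ⟨x, hx⟩)
    | succ i ih =>
      intro x hx
      have hy : k⁻¹ * x * k ∈ P := (hk _).mpr (by simpa [mul_assoc] using hx)
      have h3 := congrArg k (ih _ hy)
      simp only [Perm.mul_apply, Perm.inv_def, Equiv.apply_symm_apply] at h3
      rw [pow_succ', Perm.mul_apply, h3]
  refine (Subgroup.eq_bot_iff_forall _).mpr fun x hx => Equiv.ext fun v => ?_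
  by_cases hv : v ∈ S
  · obtain ⟨i, rfl⟩ := htrans u hu v hv
    exact hpow i x hx
  · exact hfix x hx v hv

lemma exists_finRotate_pow {m : ℕ} (u v : Fin m) : ∃ i : ℕ, (finRotate m ^ i) u = v := by
  cases m with
  | zero => exact u.elim0
  | succ m =>
    refine ⟨(v - u : Fin (m + 1)).val, ?_⟩
    have h : ∀ i : ℕ, (finRotate (m + 1) ^ i) u = u + (i : Fin (m + 1)) := fun i => by
      induction i with
      | zero => simp
      | succ i ih =>
        rw [pow_succ', Perm.mul_apply, ih, finRotate_succ_apply, Nat.cast_succ, add_assoc]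
    rw [h, Fin.cast_val_eq_self, add_sub_cancel]

/-- An `m`-cycle for odd `m`. -/
theorem fibreData_cycle {q m : ℕ} (hm : Odd m) (T : Set (Perm (Fin m)))
    (hT : ∀ t ∈ T, t = finRotate m ∧ m = q) : FibreData q (finRotate m) T := by
  have hs : Perm.sign (finRotate m) = 1 := by
    rw [sign_finRotate, (Nat.Odd.sub_odd hm odd_one).neg_one_pow]
  refine ⟨hs, fun t ht => ?_, fun t ht t' ht' => ?_, fun P hP hc _ => ?_⟩
  · obtain ⟨rfl, rfl⟩ := hT t ht
    refine ⟨hs, ?_, Commute.refl _⟩
    cases m with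
    | zero => simp
    | succ m =>
      ext u : 1
      have h : ∀ i : ℕ, (finRotate (m + 1) ^ i) u = u + (i : Fin (m + 1)) := fun i => by
        induction i with
        | zero => simp
        | succ i ih =>
          rw [pow_succ', Perm.mul_apply, ih, finRotate_succ_apply, Nat.cast_succ, add_assoc]
      rw [h, Fin.natCast_self, add_zero, Perm.one_apply]
  · rw [(hT t ht).1, (hT t' ht').1]
  · exact eq_bot_of_odd hP univ (by simpa using hm) _ hc (fun x _ u hu => absurd (mem_univ u) hu)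
      (by simp) fun u _ v _ => exists_finRotate_pow u v

/-- The rotation of the `i`-th triple. -/
def rot {k L : ℕ} (i : Fin k) : Perm ((Σ _ : Fin k, Fin 3) ⊕ Fin L) :=
  Perm.sumCongr (Perm.sigmaCongrRightHom (fun _ : Fin k => Fin 3) (Pi.mulSingle i (finRotate 3))) 1

lemma rot_inl {k L : ℕ} (i l : Fin k) (j : Fin 3) :
    rot (L := L) i (.inl ⟨l, j⟩) = .inl ⟨l, if l = i then j + 1 else j⟩ := by
  rcases eq_or_ne l i with rfl | h
  · simp [rot, Perm.sigmaCongrRightHom, finRotate_succ_apply]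
  · simp [rot, Perm.sigmaCongrRightHom, Pi.mulSingle_eq_of_ne h, h]

/-- Triples and one odd cycle. -/
theorem fibreData_triples {k L : ℕ} (hL : Odd L) (hL1 : 1 < L) :
    FibreData 3 (Perm.sumCongr (1 : Perm (Σ _ : Fin k, Fin 3)) (finRotate L))
      (Set.range (rot (L := L) (k := k))) := by
  classical
  refine ⟨?_, ?_, ?_, fun P hP hc hT => ?_⟩
  · rw [Perm.sign_sumCongr, map_one, one_mul, sign_finRotate,
      (Nat.Odd.sub_odd hL odd_one).neg_one_pow]
  · rintro _ ⟨i, rfl⟩
    have hpow : rot (L := L) i ^ 3 = 1 := by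
      refine Equiv.ext fun u => ?_
      rcases u with ⟨l, j⟩ | u
      · simp only [pow_succ, pow_zero, one_mul, Perm.mul_apply, rot_inl, Perm.one_apply]
        split_ifs
        · congr 2; revert j; decide
        · rfl
      · simp [pow_succ, rot]
    refine ⟨?_, hpow, ?_⟩
    · have h := congrArg Perm.sign hpow
      rw [map_pow, map_one] at h
      rcases Int.units_eq_one_or (Perm.sign (rot (L := L) i)) with h1 | h1
      · exact h1
      · rw [h1] at h; exact absurd h (by decide)
    · refine Equiv.ext fun u => ?_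
      rcases u with u | u <;> simp [Perm.mul_apply, rot]
  · rintro _ ⟨i, rfl⟩ _ ⟨i', rfl⟩
    refine Equiv.ext fun u => ?_
    rcases u with ⟨l, j⟩ | u
    · simp only [Perm.mul_apply, rot_inl]
      split_ifs <;> rfl
    · simp [Perm.mul_apply, rot]
  · have hfix : ∀ x ∈ P, ∀ i j, x (.inl ⟨i, j⟩) = .inl ⟨i, j⟩ := by
      intro x hx i j
      refine fixed_of_triple hP (t := rot i)
        (fun j => (.inl ⟨i, j⟩ : (Σ _ : Fin k, Fin 3) ⊕ Fin L)) (hT _ ⟨i, rfl⟩)
        (fun j => by simp [rot_inl]) (fun a b h => by simpa using h) (fun u hu => ?_)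
        (fun u hu => ?_) hx j
      · rcases u with ⟨l, m⟩ | u
        · have hli : l ≠ i := fun h => hu m (by rw [h])
          simp [rot_inl, hli]
        · simp [rot]
      · rcases u with ⟨l, m⟩ | u
        · have hli : l ≠ i := fun h => hu m (by rw [h])
          refine ⟨rot l, hT _ ⟨l, rfl⟩, fun j => by simp [rot_inl, Ne.symm hli], ?_⟩
          simp [rot_inl]
        · refine ⟨_, hc, fun j => by simp, ?_⟩
          obtain ⟨L, rfl⟩ : ∃ L', L = L' + 2 := ⟨L - 2, by omega⟩
          simp [finRotate_succ_apply]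
    refine eq_bot_of_odd hP ((univ : Finset (Fin L)).map Function.Embedding.inr)
      (by simpa using hL) _ hc (fun x hx u hu => ?_) (fun u => ?_) ?_
    · rcases u with ⟨i, j⟩ | u
      · exact hfix x hx i j
      · simp at hu
    · rcases u with u | u <;> simp
    · intro u hu v hv
      simp only [mem_map, mem_univ, true_and] at hu hv
      obtain ⟨u, rfl⟩ := hu
      obtain ⟨v, rfl⟩ := hv
      obtain ⟨i, hi⟩ := exists_finRotate_pow u v
      refine ⟨i, ?_⟩
      suffices h : ∀ i : ℕ, (Perm.sumCongr (1 : Perm (Σ _ : Fin k, Fin 3)) (finRotate L) ^ i)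
          (Sum.inr u) = Sum.inr ((finRotate L ^ i) u) by
        exact (h i).trans (congrArg Sum.inr hi)
      intro i
      induction i with
      | zero => rfl
      | succ i ih => rw [pow_succ', Perm.mul_apply, ih, pow_succ', Perm.mul_apply]; rfl

/-- The data used for each size: an `n`-cycle, or triples and an odd cycle. -/
theorem exists_fibreData {m : ℕ} (hm : m = 3 ∨ 5 ≤ m) :
    ∃ (c : Perm (Fin m)) (T : Set (Perm (Fin m))), FibreData 3 c T ∧
      (m = 5 ∨ m = 7 ∨ ∃ t ∈ T, t ≠ 1) := by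
  have build : ∀ k L, 0 < k → 3 * k + L = m → Odd L → 1 < L →
      ∃ (c : Perm (Fin m)) (T : Set (Perm (Fin m))), FibreData 3 c T ∧
        (m = 5 ∨ m = 7 ∨ ∃ t ∈ T, t ≠ 1) := by
    intro k L hk hsum hL hL1
    let e : ((Σ _ : Fin k, Fin 3) ⊕ Fin L) ≃ Fin m :=
      Fintype.equivFinOfCardEq (by simp; omega)
    refine ⟨_, _, (fibreData_triples hL hL1).transport e, Or.inr (Or.inr
      ⟨_, ⟨_, ⟨⟨0, hk⟩, rfl⟩, rfl⟩, fun h => ?_⟩)⟩
    have h1 : rot (L := L) (⟨0, hk⟩ : Fin k) = 1 := e.permCongrHom.injective (h.trans (map_one _).symm)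
    have h2 := Equiv.congr_fun h1 (.inl ⟨⟨0, hk⟩, 0⟩)
    simp [rot_inl] at h2
  rcases Nat.even_or_odd m with he | ho
  · exact build 1 (m - 3) one_pos (by omega) (Nat.Even.sub_odd (by omega) he (by decide))
      (by rcases he with ⟨r, hr⟩; omega)
  · rcases (show m = 3 ∨ m = 5 ∨ m = 7 ∨ 9 ≤ m by rcases ho with ⟨r, hr⟩; omega) with
      rfl | rfl | rfl | h9
    · exact ⟨_, {finRotate 3}, fibreData_cycle (by decide) _ (fun t ht => ⟨ht, rfl⟩),
        Or.inr (Or.inr ⟨_, rfl, by decide⟩)⟩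
    · exact ⟨_, ∅, fibreData_cycle (by decide) _ (by simp), Or.inl rfl⟩
    · exact ⟨_, ∅, fibreData_cycle (by decide) _ (by simp), Or.inr (Or.inl rfl)⟩
    · exact build 2 (m - 6) two_pos (by omega) (by rcases ho with ⟨r, hr⟩; exact ⟨r - 3, by omega⟩)
        (by omega)

end Vale.Agent.P240
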