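import Vale.Agent.P240.Criterion
import Vale.Agent.P240.Fibre

/-!
# Groups whose components are alternating groups, at the prime 2
-/

open Finset Equiv

namespace Vale.Agent.P240

/-- The nontrivial elementary abelian `p`-subgroups. -/
abbrev ElemAbelian (p : ℕ) (G : Type*) [Group G] : Type _ :=
  {E : Subgroup G // E ≠ ⊥ ∧ (∀ x ∈ E, x ^ p = 1) ∧ ∀ x ∈ E, ∀ y ∈ E, x * y = y * x}

/-- Conjugation on the poset. -/
def conjEA (p : ℕ) (G : Type*) [Group G] : G →* Perm (ElemAbelian p G) :=
  haveI key : ∀ (g : G) (E : ElemAbelian p G),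
      E.1.map (MulAut.conj g).toMonoidHom ≠ ⊥ ∧
      (∀ x ∈ E.1.map (MulAut.conj g).toMonoidHom, x ^ p = 1) ∧
      ∀ x ∈ E.1.map (MulAut.conj g).toMonoidHom, ∀ y ∈ E.1.map (MulAut.conj g).toMonoidHom,
        x * y = y * x := fun g E => by
    refine ⟨fun h => E.2.1 ((Subgroup.map_eq_bot_iff_of_injective _
      (MulEquiv.injective (MulAut.conj g))).mp h), ?_, ?_⟩
    · rintro _ ⟨x, hx, rfl⟩
      rw [← map_pow, E.2.2.1 x hx, map_one]
    · rintro _ ⟨x, hx, rfl⟩ _ ⟨y, hy, rfl⟩
      rw [← map_mul, E.2.2.2 x hx y hy, map_mul]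
  { toFun := fun g =>
      { toFun := fun E => ⟨_, key g E⟩
        invFun := fun E => ⟨_, key g⁻¹ E⟩
        left_inv := fun E => Subtype.ext (by
          simp only [Subgroup.map_map]
          conv_rhs => rw [← Subgroup.map_id E.1]
          congr 1; ext x; simp [mul_assoc])
        right_inv := fun E => Subtype.ext (by
          simp only [Subgroup.map_map]
          conv_rhs => rw [← Subgroup.map_id E.1]
          congr 1; ext x; simp [mul_assoc]) }
    map_one' := Equiv.ext fun E => Subtype.ext (by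
      show E.1.map _ = E.1
      conv_rhs => rw [← Subgroup.map_id E.1]
      congr 1; ext x; simp)
    map_mul' := fun a b => Equiv.ext fun E => Subtype.ext (by
      show E.1.map _ = (E.1.map _).map _
      rw [Subgroup.map_map]
      congr 1; ext x; simp [mul_assoc]) }

/-- A nontrivial normal `p`-subgroup gives an invariant point of the poset. -/
lemma normal_eq_bot {p : ℕ} {G : Type*} [Group G] [Finite G] {N : Subgroup G} (hN : N.Normal)
    (hp : IsPGroup p N) (hpp : p.Prime)
    (h : ∀ E : ElemAbelian p G, ¬ ∀ g x, x ∈ E.1 ↔ g * x * g⁻¹ ∈ E.1) : N = ⊥ := by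
  by_contra hne
  have : Fact p.Prime := ⟨hpp⟩
  let E : Subgroup G :=
    { carrier := {x | x ∈ N ∧ (∀ y ∈ N, x * y = y * x) ∧ x ^ p = 1}
      one_mem' := ⟨N.one_mem, fun y _ => by simp, one_pow p⟩
      mul_mem' := fun {a b} ha hb => ⟨N.mul_mem ha.1 hb.1, fun y hy => by
        rw [mul_assoc, hb.2.1 y hy, ← mul_assoc, ha.2.1 y hy, mul_assoc], by
        rw [(show Commute a b from ha.2.1 b hb.1).mul_pow, ha.2.2, hb.2.2, one_mul]⟩
      inv_mem' := fun {a} ha => ⟨N.inv_mem ha.1, fun y hy =>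
        ((show Commute a y from ha.2.1 y hy).inv_left).eq, by rw [inv_pow, ha.2.2, inv_one]⟩ }
  have hE : E ≠ ⊥ := by
    have : Nontrivial N := (Subgroup.nontrivial_iff_ne_bot N).mpr hne
    have hz : Nontrivial (Subgroup.center N) := hp.center_nontrivial
    have : p ∣ Nat.card (Subgroup.center N) := by
      obtain ⟨k, hk, hcard⟩ := (hp.to_subgroup _).nontrivial_iff_card.mp hz
      rw [hcard]; exact dvd_pow_self _ hk.ne'
    obtain ⟨z, hz⟩ := exists_prime_orderOf_dvd_card' p this
    refine fun hb => ?_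
    have hz1 : z ^ p = 1 := by rw [← hz]; exact pow_orderOf_eq_one z
    have hmem : ((z : N) : G) ∈ E := ⟨(z : N).2, fun y hy => by
      have := Subgroup.mem_center_iff.mp z.2 ⟨y, hy⟩
      exact (congrArg Subtype.val this).symm, by
      simpa using congrArg (fun t : Subgroup.center N => ((t : N) : G)) hz1⟩
    have h1 := (Subgroup.eq_bot_iff_forall _).mp hb _ hmem
    have : z = 1 := Subtype.ext (Subtype.ext h1)
    rw [this, orderOf_one] at hz
    exact hpp.ne_one hz.symm
  refine h ⟨E, hE, fun x hx => hx.2.2, fun x hx y hy => hx.2.1 y hy.1⟩ fun g x => ?_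
  constructor
  · rintro ⟨h1, h2, h3⟩
    refine ⟨hN.conj_mem x h1 g, fun y hy => ?_, by rw [conj_pow, h3]; simp⟩
    have hy' : g⁻¹ * y * g ∈ N := by simpa using hN.conj_mem y hy g⁻¹
    calc g * x * g⁻¹ * y = g * (x * (g⁻¹ * y * g)) * g⁻¹ := by group
      _ = y * (g * x * g⁻¹) := by rw [h2 _ hy']; group
  · rintro ⟨h1, h2, h3⟩
    refine ⟨by simpa [mul_assoc] using hN.conj_mem _ h1 g⁻¹, fun y hy => ?_, ?_⟩
    · have := h2 _ (hN.conj_mem y hy g)
      have h4 : g * (x * y) * g⁻¹ = g * (y * x) * g⁻¹ := by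
        calc g * (x * y) * g⁻¹ = g * x * g⁻¹ * (g * y * g⁻¹) := by group
          _ = g * y * g⁻¹ * (g * x * g⁻¹) := this
          _ = g * (y * x) * g⁻¹ := by group
      simpa using h4
    · rw [conj_pow] at h3; simpa using h3

/-- The criterion for subgroups: a hyperelementary `H` normalising no nontrivial elementary
abelian `p`-subgroup. -/
theorem hasHomology_of_subgroup {p : ℕ} {G : Type*} [Group G] [Finite G] {H : Type*} [Group H]
    (ι : H →* G) (c : H) (hnorm : ∀ h : H, h⁻¹ * c * h ∈ Subgroup.zpowers c) {q : ℕ}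
    (hq : q.Prime) (hquot : ∀ h : H, ∃ j, h ^ q ^ j ∈ Subgroup.zpowers c)
    (hfree : ∀ E : ElemAbelian p G, ¬ ∀ h x, x ∈ E.1 ↔ ι h * x * (ι h)⁻¹ ∈ E.1) :
    (∀ N : Subgroup G, N.Normal → IsPGroup p N → p.Prime → N = ⊥) ∧
      HasHomology (ElemAbelian p G) := by
  refine ⟨fun N hN hp hpp => normal_eq_bot hN hp hpp fun E hE => hfree E fun h x => hE (ι h) x, ?_⟩
  refine hasHomology_of_action ((conjEA p G).comp ι)
    (fun h a b => Subgroup.map_le_map_iff_of_injective (MulEquiv.injective (MulAut.conj (ι h))))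
    c hnorm hq hquot fun E => ?_
  by_contra hall
  push Not at hall
  refine hfree E fun h x => ?_
  have h1 : E.1.map (MulAut.conj (ι h)).toMonoidHom = E.1 := congrArg Subtype.val (hall h)
  conv_rhs => rw [← h1]
  exact (Subgroup.mem_map_iff_mem (MulEquiv.injective (MulAut.conj (ι h)))).symm

variable {I : Type*}

/-- The permutations preserving each fibre are products of permutations of the fibres. -/
lemma exists_sigmaCongrRight {n : I → ℕ} (y : Perm (Σ i, Fin (n i))) (hy : ∀ a, (y a).1 = a.1) :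
    ∃ z : ∀ i, Perm (Fin (n i)), Perm.sigmaCongrRightHom _ z = y := by
  have hy' : ∀ i (j : Fin (n i)), ∃ l : Fin (n i), y ⟨i, j⟩ = ⟨i, l⟩ := by
    intro i j
    rcases hyv : y ⟨i, j⟩ with ⟨i', l⟩
    have := hy ⟨i, j⟩
    rw [hyv] at this
    subst this
    exact ⟨l, rfl⟩
  choose f hf using hy'
  have hinj : ∀ i, Function.Injective (f i) := fun i a b h => by
    have := y.injective ((hf i a).trans ((congrArg _ h).trans (hf i b).symm))
    simpa using this
  refine ⟨fun i => Equiv.ofBijective (f i) ⟨hinj i, Finite.surjective_of_injective (hinj i)⟩, ?_⟩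
  refine Equiv.ext fun ⟨i, j⟩ => ?_
  simp [Perm.sigmaCongrRightHom, hf]
  rfl

variable [Fintype I] {n : I → ℕ} {G : Subgroup (Perm (Σ i, Fin (n i)))}

/-- The core of the argument: data on every fibre, and separation of the fibres. -/
theorem hasHomology_of_data [DecidableEq I]
    (hblock : ∀ g ∈ G, ∀ a b : Σ i, Fin (n i), a.1 = b.1 ↔ (g a).1 = (g b).1)
    (halt : ∀ z : ∀ i, Perm (Fin (n i)), (∀ i, Perm.sign (z i) = 1) →
      Perm.sigmaCongrRightHom _ z ∈ G)
    {q : ℕ} (hq : q.Prime) (c : ∀ i, Perm (Fin (n i))) (T : ∀ i, Set (Perm (Fin (n i))))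
    (hdata : ∀ i, FibreData q (c i) (T i))
    (hsep : ∀ i, (∃ t ∈ T i, t ≠ 1) ∨ ∀ j, n j = n i → j = i) :
    (∀ N : Subgroup G, N.Normal → IsPGroup 2 N → N = ⊥) ∧ HasHomology (ElemAbelian 2 G) := by
  classical
  set ρ := Perm.sigmaCongrRightHom fun i => Fin (n i)
  set S : Set (∀ i, Perm (Fin (n i))) := insert c {z | ∃ i, ∃ t ∈ T i, z = Pi.mulSingle i t}
  have hSc : ∀ a ∈ S, ∀ b ∈ S, Commute a b := by
    have hcs : ∀ i, ∀ t ∈ T i, Commute c (Pi.mulSingle i t) := fun i t ht => Commute.symm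
      (funext fun j => by
        rcases eq_or_ne j i with rfl | h
        · simpa using ((hdata j).2.1 t ht).2.2.symm.eq
        · simp [Pi.mulSingle_eq_of_ne h])
    rintro a (rfl | ⟨i, t, ht, rfl⟩) b (rfl | ⟨j, t', ht', rfl⟩)
    · exact Commute.refl _
    · exact hcs j t' ht'
    · exact (hcs i t ht).symm
    · refine funext fun l => ?_
      rcases eq_or_ne l i with rfl | hi
      · rcases eq_or_ne l j with rfl | hj
        · simpa using ((hdata l).2.2.1 t ht t' ht').eq
        · simp [Pi.mulSingle_eq_of_ne hj]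
      · simp [Pi.mulSingle_eq_of_ne hi]
  set H := Subgroup.closure S
  have hcH : c ∈ H := Subgroup.subset_closure (Set.mem_insert _ _)
  have hcomm : ∀ a ∈ H, ∀ b ∈ H, Commute a b := by
    intro a ha b hb
    induction ha using Subgroup.closure_induction with
    | mem x hx =>
      induction hb using Subgroup.closure_induction with
      | mem y hy => exact hSc x hx y hy
      | one => exact Commute.one_right _
      | mul y z _ _ h1 h2 => exact h1.mul_right h2
      | inv y _ h1 => exact h1.inv_right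
    | one => exact Commute.one_left _
    | mul y z _ _ h1 h2 => exact h1.mul_left h2
    | inv y _ h1 => exact h1.inv_left
  have hsign : ∀ a ∈ H, ∀ i, Perm.sign (a i) = 1 := by
    intro a ha
    induction ha using Subgroup.closure_induction with
    | mem x hx =>
      rcases hx with rfl | ⟨i, t, ht, rfl⟩
      · exact fun i => (hdata i).1
      · intro j
        rcases eq_or_ne j i with rfl | h
        · simpa using ((hdata j).2.1 t ht).1
        · simp [Pi.mulSingle_eq_of_ne h]
    | one => simp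
    | mul y z _ _ h1 h2 => intro i; simp [h1 i, h2 i]
    | inv y _ h1 => intro i; simp [h1 i]
  have hpow : ∀ a ∈ H, a ^ q ∈ Subgroup.zpowers c := by
    intro a ha
    induction ha using Subgroup.closure_induction with
    | mem x hx =>
      rcases hx with rfl | ⟨i, t, ht, rfl⟩
      · exact pow_mem (Subgroup.mem_zpowers _) _
      · rw [← Pi.mulSingle_pow, ((hdata i).2.1 t ht).2.1, Pi.mulSingle_one]
        exact one_mem _
    | one => rw [one_pow]; exact one_mem _
    | mul y z hy hz h1 h2 => rw [(hcomm y hy z hz).mul_pow]; exact mul_mem h1 h2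
    | inv y _ h1 => rw [inv_pow]; exact inv_mem h1
  let ι : H →* G := (ρ.comp H.subtype).codRestrict G fun a => halt _ (hsign a a.2)
  suffices hmain : (∀ N : Subgroup G, N.Normal → IsPGroup 2 N → (2 : ℕ).Prime → N = ⊥) ∧
      HasHomology (ElemAbelian 2 G) from
    ⟨fun N hN hp => hmain.1 N hN hp Nat.prime_two, hmain.2⟩
  refine hasHomology_of_subgroup ι (⟨c, hcH⟩ : H) (fun h => ?_) hq (fun h => ⟨1, ?_⟩) fun E hE => ?_
  · have : h⁻¹ * ⟨c, hcH⟩ * h = (⟨c, hcH⟩ : H) := Subtype.ext (by
      simp only [Subgroup.coe_mul, Subgroup.coe_inv]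
      rw [mul_assoc, (hcomm c hcH h h.2).eq, inv_mul_cancel_left])
    rw [this]; exact Subgroup.mem_zpowers _
  · obtain ⟨k, hk⟩ := hpow h h.2
    refine ⟨k, Subtype.ext ?_⟩
    simpa using hk
  -- `E` meets the product of the fibre groups trivially
  set E' := E.1.map G.subtype
  have hE'sq : ∀ x ∈ E', x ^ 2 = 1 := by
    rintro _ ⟨x, hx, rfl⟩
    rw [← map_pow, E.2.2.1 x hx, map_one]
  have hE'n : ∀ a ∈ H, ∀ x, x ∈ E' ↔ ρ a * x * (ρ a)⁻¹ ∈ E' := by
    intro a ha x
    have haG : ρ a ∈ G := halt _ (hsign a ha)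
    constructor
    · rintro ⟨x, hx, rfl⟩
      exact ⟨_, (hE ⟨a, ha⟩ x).mp hx, rfl⟩
    · rintro ⟨y, hy, hye⟩
      have hxG : x ∈ G := by
        have : x = (ρ a)⁻¹ * y * ρ a := by
          rw [show (y : Perm (Σ i, Fin (n i))) = ρ a * x * (ρ a)⁻¹ from hye]; group
        rw [this]; exact mul_mem (mul_mem (inv_mem haG) y.2) haG
      refine ⟨⟨x, hxG⟩, (hE ⟨a, ha⟩ _).mpr ?_, rfl⟩
      have : (ι ⟨a, ha⟩ * ⟨x, hxG⟩ * (ι ⟨a, ha⟩)⁻¹ : G) = y := Subtype.ext hye.symm
      rw [this]; exact hy
  have hbase : ∀ z : ∀ i, Perm (Fin (n i)), ρ z ∈ E' → z = 1 := by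
    intro z hz
    funext i
    let P : Subgroup (Perm (Fin (n i))) := (E'.comap ρ).map (Pi.evalMonoidHom _ i)
    have hnormP : ∀ a ∈ H, Normalises (a i) P := by
      intro a ha y
      constructor
      · rintro ⟨x, hx, rfl⟩
        exact ⟨a * x * a⁻¹, by
          rw [SetLike.mem_coe, Subgroup.mem_comap, map_mul, map_mul, map_inv]
          exact (hE'n a ha _).mp hx, by simp⟩
      · rintro ⟨x, hx, hxy⟩
        refine ⟨a⁻¹ * x * a, ?_, ?_⟩
        · rw [SetLike.mem_coe, Subgroup.mem_comap, map_mul, map_mul, map_inv]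
          refine (hE'n a ha _).mpr ?_
          simpa [mul_assoc] using hx
        · change x i = a i * y * (a i)⁻¹ at hxy
          simp [hxy, mul_assoc]
    have hbot : P = ⊥ := (hdata i).2.2.2 P (by
        rintro _ ⟨x, hx, rfl⟩
        have h1 : x ^ 2 = 1 := Perm.sigmaCongrRightHom_injective (by
          rw [map_pow, map_one]; exact hE'sq _ hx)
        rw [← map_pow, h1, map_one])
      (hnormP c hcH) fun t ht => by
        simpa using hnormP (Pi.mulSingle i t) (Subgroup.subset_closure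
          (Set.mem_insert_of_mem _ ⟨i, t, ht, rfl⟩))
    exact (Subgroup.eq_bot_iff_forall _).mp hbot _ ⟨z, hz, rfl⟩
  -- `E` centralises the image of `H`
  have hfib : ∀ g ∈ G, ∀ a : ∀ i, Perm (Fin (n i)), ∀ u, ((g * ρ a * g⁻¹) u).1 = u.1 := by
    intro g hg a u
    have h1 : (ρ a (g⁻¹ u)).1 = (g⁻¹ u).1 := rfl
    have h2 := (hblock g hg _ _).mp h1
    simpa using h2
  have hcentral : ∀ x ∈ E', ∀ a ∈ H, x * ρ a = ρ a * x := by
    intro x hx a ha
    have hxG : x ∈ G := by obtain ⟨x, -, rfl⟩ := hx; exact x.2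
    have hyE : x * (ρ a * x⁻¹ * (ρ a)⁻¹) ∈ E' :=
      mul_mem hx ((hE'n a ha _).mp (inv_mem hx))
    obtain ⟨z, hz⟩ := exists_sigmaCongrRight (x * (ρ a * x⁻¹ * (ρ a)⁻¹)) fun u => by
      have h2 := hfib x hxG a ((ρ a)⁻¹ u)
      have h3 : ((ρ a)⁻¹ u).1 = u.1 := rfl
      simp only [Perm.mul_apply] at h2 ⊢
      rw [h2, h3]
    have h4 := hbase z (by rw [hz]; exact hyE)
    rw [h4, map_one] at hz
    have h5 : x * ρ a * x⁻¹ = ρ a := by
      rw [← mul_inv_eq_one]; simpa [mul_assoc] using hz.symm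
    calc x * ρ a = x * ρ a * x⁻¹ * x := by group
      _ = ρ a * x := by rw [h5]
  -- so it fixes every fibre
  refine E.2.1 ((Subgroup.eq_bot_iff_forall _).mpr fun x hx => ?_)
  have hx' : (x : Perm (Σ i, Fin (n i))) ∈ E' := ⟨x, hx, rfl⟩
  have hpres : ∀ u, ((x : Perm (Σ i, Fin (n i))) u).1 = u.1 := by
    rintro ⟨i, j⟩
    rcases hsep i with ⟨t, ht, ht1⟩ | huniq
    · obtain ⟨l, hl⟩ : ∃ l, t l ≠ l := by
        by_contra h
        push Not at h
        exact ht1 (Equiv.ext h)
      set a := (x : Perm (Σ i, Fin (n i))) ⟨i, l⟩ with ha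
      have hmove : ρ (Pi.mulSingle i t) a ≠ a := by
        intro h
        have h1 := Equiv.congr_fun (hcentral _ hx' _ (Subgroup.subset_closure
          (Set.mem_insert_of_mem _ ⟨i, t, ht, rfl⟩))) ⟨i, l⟩
        simp only [Perm.mul_apply, ← ha] at h1
        rw [h] at h1
        have h2 := (x : Perm (Σ i, Fin (n i))).injective h1
        simp [ρ, Perm.sigmaCongrRightHom] at h2
        exact hl h2
      have hai : a.1 = i := by
        by_contra h
        exact hmove (by simp [ρ, Perm.sigmaCongrRightHom, Pi.mulSingle_eq_of_ne h])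
      have h3 := (hblock _ x.2 ⟨i, j⟩ ⟨i, l⟩).mp rfl
      rw [h3]; exact hai
    · have key : ∀ g ∈ G, ∀ i j, n i ≤ n (g ⟨i, j⟩).1 := by
        intro g hg i j
        have hc : ∀ l : Fin (n i), ∃ l', g ⟨i, l⟩ = ⟨(g ⟨i, j⟩).1, l'⟩ := by
          intro l
          have := (hblock g hg ⟨i, l⟩ ⟨i, j⟩).mp rfl
          rcases hg' : g ⟨i, l⟩ with ⟨i', l'⟩
          rw [hg'] at this
          change i' = _ at this
          subst this
          exact ⟨l', rfl⟩
        choose f hf using hc
        simpa using Fintype.card_le_of_injective f fun a b h => by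
          simpa using g.injective ((hf a).trans ((congrArg _ h).trans (hf b).symm))
      rcases hb : (x : Perm (Σ i, Fin (n i))) ⟨i, j⟩ with ⟨i', l⟩
      have h1 := key _ x.2 i j
      have h2 := key _ (inv_mem x.2) i' l
      rw [hb] at h1
      rw [← hb] at h2
      simp at h2
      exact huniq i' (le_antisymm h2 h1)
  obtain ⟨z, hz⟩ := exists_sigmaCongrRight _ hpres
  have := hbase z (by rw [hz]; exact hx')
  rw [this, map_one] at hz
  exact Subtype.ext hz.symm

/-- **Alternating components.** -/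
theorem hasHomology_alternating
    (hblock : ∀ g ∈ G, ∀ a b : Σ i, Fin (n i), a.1 = b.1 ↔ (g a).1 = (g b).1)
    (halt : ∀ z : ∀ i, Perm (Fin (n i)), (∀ i, Perm.sign (z i) = 1) →
      Perm.sigmaCongrRight z ∈ G)
    (hn : ∀ i, n i = 3 ∨ 5 ≤ n i)
    (hrep : (∀ i j, n i = n j → n i = 5 ∨ n i = 7 → i = j) ∨ ∀ i j, n i = n j) :
    (∀ N : Subgroup G, N.Normal → IsPGroup 2 N → N = ⊥) ∧ HasHomology (ElemAbelian 2 G) := by
  classical
  by_cases h57 : ∀ i j, n i = n j → n i = 5 ∨ n i = 7 → i = j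
  · choose c T hd hT using fun i => exists_fibreData (hn i)
    refine hasHomology_of_data hblock halt Nat.prime_three c T hd fun i => ?_
    rcases hT i with h | h | h
    · exact Or.inr fun j hj => h57 j i hj (Or.inl (hj ▸ h))
    · exact Or.inr fun j hj => h57 j i hj (Or.inr (hj ▸ h))
    · exact Or.inl h
  · obtain hall := hrep.resolve_left h57
    push Not at h57
    obtain ⟨i₀, -, -, h0, -⟩ := h57
    have hm : ∀ i, n i = 5 ∨ n i = 7 := fun i => by rw [hall i i₀]; exact h0
    obtain ⟨q, hq, hqn⟩ : ∃ q : ℕ, q.Prime ∧ ∀ i, n i = q := by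
      rcases h0 with h | h
      · exact ⟨5, by norm_num, fun i => (hall i i₀).trans h⟩
      · exact ⟨7, by norm_num, fun i => (hall i i₀).trans h⟩
    refine hasHomology_of_data hblock halt hq (fun i => finRotate (n i))
      (fun i => {finRotate (n i)}) (fun i => ?_) fun i => Or.inl ⟨_, rfl, ?_⟩
    · exact fibreData_cycle (by rcases hm i with h | h <;> rw [h] <;> decide) _
        fun t ht => ⟨ht, hqn i⟩
    · intro h
      have h2 : (finRotate (n i)).support = univ := support_finRotate_of_le (by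
        rcases hm i with h | h <;> omega)
      rw [h, Perm.support_one] at h2
      have h3 := congrArg Finset.card h2
      rw [card_empty, card_univ, Fintype.card_fin] at h3
      rcases hm i with h | h <;> omega

end Vale.Agent.P240
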