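import Vale.Agent.P240.Root

/-!
# Involutive commutators with quadratic elements
-/

open Finset Matrix

namespace Vale.Agent.P240

variable {F : Type*} [Field F] {ι : Type*} [Fintype ι] [DecidableEq ι]

/-- Conjugating a quadratic element to a multiple of itself means commuting with it. -/
lemma commute_of_conj_quadratic {B B' N : Matrix ι ι F} (hB : B' * B = 1) (hN : N * N = 0) {l : F}
    (h : B * (1 + N) * B' = l • (1 + N)) : B * N = N * B := by
  rcases eq_or_ne N 0 with rfl | hne
  · simp
  have hB' : B * B' = 1 := mul_eq_one_comm.mp hB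
  have hconj : B * N * B' = (l - 1) • (1 : Matrix ι ι F) + l • N := by
    rw [mul_add, add_mul, mul_one, hB', smul_add] at h
    rw [sub_smul, one_smul, sub_add_eq_add_sub, eq_sub_iff_add_eq', h]
  have hsq : (B * N * B') * (B * N * B') = 0 := by
    have : (B * N * B') * (B * N * B') = B * (N * (B' * B) * N) * B' := by simp only [mul_assoc]
    rw [this, hB, mul_one, hN, mul_zero, zero_mul]
  have h1 := congrArg (fun X => N * X) hsq
  rw [hconj] at h1
  simp only [add_mul, mul_add, smul_mul, mul_smul_comm, smul_smul, mul_one, one_mul, hN, smul_zero,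
    add_zero, mul_zero] at h1
  have hl : l = 1 :=
    sub_eq_zero.mp (mul_self_eq_zero.mp ((smul_eq_zero.mp h1).resolve_right hne))
  rw [hl, sub_self, zero_smul, zero_add, one_smul] at hconj
  calc B * N = B * N * (B' * B) := by rw [hB, mul_one]
    _ = N * B := by rw [← mul_assoc, hconj]

/-- If `(1 + S)(1 - S')` is an involution then `S' = S`. -/
lemma eq_of_square_one {S S' : Matrix ι ι F} (hS : S * S = 0) (hS' : S' * S' = 0)
    (h2 : (2 : F) ≠ 0) (hsq : (1 + S) * (1 - S') * ((1 + S) * (1 - S')) = 1) : S' = S := by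
  have half : ∀ {X : Matrix ι ι F}, X + X = 0 → X = 0 := fun {X} h => by
    have h' : (2 : F) • X = 0 := by rw [two_smul]; exact h
    exact (smul_eq_zero.mp h').resolve_left h2
  have hinv : (1 + S) * (1 - S') * ((1 + S') * (1 - S)) = 1 := by
    have : (1 + S) * (1 - S') * ((1 + S') * (1 - S)) =
        1 - (1 + S) * (S' * S') * (1 - S) - S * S := by noncomm_ring
    rw [this, hS, hS']; simp
  have heq : (1 + S) * (1 - S') = (1 + S') * (1 - S) := by
    have h := congrArg (fun X => X * ((1 + S') * (1 - S))) hsq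
    rwa [mul_assoc, hinv, mul_one, one_mul] at h
  -- `S S' S = 2 S S'` and `S S' S = - 2 S' S`
  have hmain : S + S - S' - S' - S * S' + S' * S = 0 := by
    have e : S + S - S' - S' - S * S' + S' * S = (1 + S) * (1 - S') - (1 + S') * (1 - S) := by
      noncomm_ring
    rw [e, heq, sub_self]
  have hK : S * S' * S = S * S' + S * S' := by
    have h := congrArg (fun X => S * X) hmain
    have e : S * (S + S - S' - S' - S * S' + S' * S) =
        S * S + S * S - (S * S' + S * S') - S * S * S' + S * S' * S := by noncomm_ring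
    simp only [e, hS, mul_zero, zero_mul, add_zero, sub_zero, zero_sub, neg_add_eq_zero] at h
    exact h.symm
  have hK0 : S * S' * S = 0 := by
    have h := congrArg (fun X => X * S) hK
    simp only [add_mul, mul_assoc, hS, mul_zero] at h
    rw [mul_assoc]
    exact half h.symm
  have hSS : S * S' = 0 := half (by rw [← hK, hK0])
  have hS'S : S' * S = 0 := by
    have h := congrArg (fun X => X * S) hmain
    have e : (S + S - S' - S' - S * S' + S' * S) * S =
        S * S + S * S - (S' * S + S' * S) - S * S' * S + S' * (S * S) := by noncomm_ring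
    simp only [e, hS, hK0, zero_mul, mul_zero, add_zero, sub_zero, zero_sub, neg_eq_zero] at h
    exact half h
  rw [hSS, hS'S, sub_zero, add_zero] at hmain
  have h : S - S' = 0 := half (by rw [← hmain]; abel)
  exact (sub_eq_zero.mp h).symm

/-- For a quadratic element of small rank, an involutive commutator (modulo scalars) means
commuting. -/
lemma semilinear_commute (h2 : (2 : F) ≠ 0) {A Ai N N₁ : Matrix ι ι F} (hA : Ai * A = 1)
    (hN : N * N = 0) (hN₁ : N₁ * N₁ = 0) {k : ℕ} {Y Y₁ : Matrix (Fin k) ι F}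
    (X X₁ : Matrix ι (Fin k) F) (hY : N = X * Y) (hY₁ : N₁ = X₁ * Y₁)
    (hk : 2 * k < Fintype.card ι)
    (hsq : ∃ m : F, (1 + N) * (1 - A * N₁ * Ai) * ((1 + N) * (1 - A * N₁ * Ai)) = m • 1) :
    A * N₁ = N * A := by
  obtain ⟨m, hm⟩ := hsq
  set S' := A * N₁ * Ai with hS'
  have hS'2 : S' * S' = 0 := by
    have : S' * S' = A * (N₁ * (Ai * A) * N₁) * Ai := by simp only [hS', mul_assoc]
    rw [this, hA, mul_one, hN₁, mul_zero, zero_mul]
  let f : (ι → F) →ₗ[F] (Fin k → F) × (Fin k → F) := Y.mulVecLin.prod (Y₁ * Ai).mulVecLin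
  have hker : LinearMap.ker f ≠ ⊥ := LinearMap.ker_ne_bot_of_finrank_lt (by simp; omega)
  obtain ⟨z, hz, hz0⟩ := Submodule.exists_mem_ne_zero_of_ne_bot hker
  have hz1 : Y *ᵥ z = 0 := congrArg Prod.fst (LinearMap.mem_ker.mp hz)
  have hz2 : (Y₁ * Ai) *ᵥ z = 0 := congrArg Prod.snd (LinearMap.mem_ker.mp hz)
  have hzN : N *ᵥ z = 0 := by rw [hY, ← mulVec_mulVec, hz1, mulVec_zero]
  have hzS : S' *ᵥ z = 0 := by
    rw [hS', hY₁, show A * (X₁ * Y₁) * Ai = A * X₁ * (Y₁ * Ai) by simp only [Matrix.mul_assoc],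
      ← mulVec_mulVec, hz2, mulVec_zero]
  have hMz : ((1 + N) * (1 - S')) *ᵥ z = z := by
    rw [← mulVec_mulVec, sub_mulVec, one_mulVec, hzS, sub_zero, add_mulVec, one_mulVec, hzN,
      add_zero]
  have h1 : ((1 + N) * (1 - S')) *ᵥ (((1 + N) * (1 - S')) *ᵥ z) = m • z := by
    rw [mulVec_mulVec, hm, smul_mulVec, one_mulVec]
  rw [hMz, hMz] at h1
  have hm1 : m = 1 := by
    have : (m - 1) • z = 0 := by rw [sub_smul, one_smul, ← h1, sub_self]
    exact sub_eq_zero.mp ((smul_eq_zero.mp this).resolve_right hz0)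
  rw [hm1, one_smul] at hm
  have h : S' = N := eq_of_square_one hN hS'2 h2 hm
  calc A * N₁ = A * N₁ * (Ai * A) := by rw [hA, mul_one]
    _ = N * A := by rw [← mul_assoc, ← hS', h]

end Vale.Agent.P240
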