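import Vale.Agent.P240.Components
import Vale.Agent.P240.Quadratic

/-!
# The local condition on one component given by matrices
-/

open Finset Matrix

namespace Vale.Agent.P240

/-- The local condition of `hasHomology_of_components` at one component. -/
def LocalProp (p : ℕ) {G : Type*} [Group G] (L : Subgroup G) (c : L) (Q : Subgroup L) : Prop :=
  ∀ E : Subgroup G, (∀ x ∈ E, x ^ p = 1) → (∀ x ∈ E, ∀ y ∈ E, x * y = y * x) →
    (∀ x ∈ E, ∀ y, y ∈ L ↔ x * y * x⁻¹ ∈ L) →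
    (∀ k : L, (k = c ∨ k ∈ Q) → ∀ x ∈ E, ∃ e ∈ E, ∀ y ∈ L,
      (k : G) * x * (k : G)⁻¹ * y * ((k : G) * x * (k : G)⁻¹)⁻¹ = e * y * e⁻¹) →
    ∀ x ∈ E, ∀ y ∈ L, x * y = y * x

variable {G : Type*} [Group G] {S : Type*} [Group S] {φ : S →* G}
variable {F : Type*} [Field F] {ι : Type*} [Fintype ι] [DecidableEq ι] {ν : S →* Matrix ι ι F}

/-- Equal images mean proportional matrices. -/
lemma eq_smul_of_map_eq (hker : ∀ s ∈ φ.ker, ∃ l : F, ν s = l • 1) {v y : S} (h : φ v = φ y) :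
    ∃ l : F, ν v = l • ν y := by
  obtain ⟨l, hl⟩ := hker (v * y⁻¹) (by rw [MonoidHom.mem_ker, map_mul, map_inv, h, mul_inv_cancel])
  refine ⟨l, ?_⟩
  calc ν v = ν (v * y⁻¹) * ν y := by rw [← map_mul, inv_mul_cancel_right]
    _ = l • ν y := by rw [hl, smul_mul, one_mul]

/-- An element centralising the image commutes with every quadratic element. -/
lemma commute_of_centralises (hker : ∀ s ∈ φ.ker, ∃ l : F, ν s = l • 1) {B : S}
    (hB : ∀ y, φ B * φ y * (φ B)⁻¹ = φ y) {u : S} {N : Matrix ι ι F} (hu : ν u = 1 + N)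
    (hN : N * N = 0) : ν B * N = N * ν B := by
  obtain ⟨l, hl⟩ := eq_smul_of_map_eq hker (v := B * u * B⁻¹) (y := u)
    (by rw [map_mul, map_mul, map_inv, hB])
  rw [map_mul, map_mul, hu] at hl
  exact commute_of_conj_quadratic (by rw [← map_mul, inv_mul_cancel, map_one]) hN hl

/-- The commutator of `x` with an element of `Q` is an involution on the component. -/
lemma commutator_square {p : ℕ} (hp : p = 2) {E : Subgroup G} (hsq : ∀ x ∈ E, x ^ p = 1)
    (hnorm : ∀ x ∈ E, ∀ y, y ∈ φ.range ↔ x * y * x⁻¹ ∈ φ.range) {t t' : S} {x e : G}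
    (hx : x ∈ E) (he : e ∈ E)
    (heq : ∀ y ∈ φ.range, φ t * x * (φ t)⁻¹ * y * (φ t * x * (φ t)⁻¹)⁻¹ = e * y * e⁻¹)
    (hxt : x * φ t⁻¹ * x⁻¹ = φ t') :
    ∀ y, φ (t * t' * (t * t')) * φ y * (φ (t * t' * (t * t')))⁻¹ = φ y := by
  subst hp
  have hxx : x * x = 1 := by rw [← sq]; exact hsq x hx
  have hxi : x⁻¹ = x := inv_eq_of_mul_eq_one_right hxx
  have hee : (e * x) * (e * x) = 1 := by rw [← sq]; exact hsq _ (mul_mem he hx)
  have hact : ∀ y, (e * x) * φ y * (e * x)⁻¹ = φ (t * t') * φ y * (φ (t * t'))⁻¹ := by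
    intro y
    have h1 := heq (x * φ y * x⁻¹) ((hnorm x hx _).mp ⟨y, rfl⟩)
    have h3 : φ t * x * (φ t)⁻¹ * x = φ (t * t') := by
      rw [map_mul, ← hxt, map_inv, hxi]
      simp only [mul_assoc]
    calc (e * x) * φ y * (e * x)⁻¹ = e * (x * φ y * x⁻¹) * e⁻¹ := by group
      _ = φ t * x * (φ t)⁻¹ * (x * φ y * x⁻¹) * (φ t * x * (φ t)⁻¹)⁻¹ := h1.symm
      _ = φ t * x * (φ t)⁻¹ * x * φ y * (φ t * x * (φ t)⁻¹ * x)⁻¹ := by group
      _ = φ (t * t') * φ y * (φ (t * t'))⁻¹ := by rw [h3]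
  intro y
  have h1 := hact (t * t' * y * (t * t')⁻¹)
  rw [map_mul φ (t * t' * y), map_mul φ (t * t'), map_inv] at h1
  rw [← hact y] at h1
  have h4 : (e * x) * ((e * x) * φ y * (e * x)⁻¹) * (e * x)⁻¹ = φ y := by
    calc _ = (e * x) * (e * x) * φ y * ((e * x) * (e * x))⁻¹ := by group
      _ = φ y := by rw [hee]; group
  rw [h4, hact y] at h1
  rw [map_mul φ (t * t') (t * t')]
  calc _ = φ (t * t') * (φ (t * t') * φ y * (φ (t * t'))⁻¹) * (φ (t * t'))⁻¹ := by group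
    _ = φ y := h1.symm

/-- The square of a centralising semilinear involution commutes with quadratic elements. -/
lemma sq_commute (hker : ∀ s ∈ φ.ker, ∃ l : F, ν s = l • 1) {x : G} (hxx : x * x = 1)
    {A Ai : Matrix ι ι F} (hA : Ai * A = 1)
    (himg : ∀ y, ∃ y', ν y' = A * ν y * Ai ∧ x * φ y * x⁻¹ = φ y') {u : S} {N : Matrix ι ι F}
    (hu : ν u = 1 + N) (hN : N * N = 0) : A * A * N = N * (A * A) := by
  obtain ⟨v, hv, hxv⟩ := himg u
  obtain ⟨w, hw, hxw⟩ := himg v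
  obtain ⟨l, hl⟩ := eq_smul_of_map_eq hker (v := w) (y := u) (by
    rw [← hxw, ← hxv]
    calc _ = x * x * φ u * (x * x)⁻¹ := by group
      _ = _ := by rw [hxx]; group)
  refine commute_of_conj_quadratic (B' := Ai * Ai) ?_ hN (l := l) ?_
  · rw [mul_assoc Ai, ← mul_assoc Ai A, hA, one_mul, hA]
  · rw [← hu, ← hl, hw, hv]
    simp only [mul_assoc]

end Vale.Agent.P240
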