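import Vale.Agent.P240.Fibre
import Vale.Agent.P240.Local

/-!
# Alternating components
-/

open Finset Equiv

namespace Vale.Agent.P240

variable {β : Type*}

lemma Normalises.mul {P : Subgroup (Perm β)} {a b : Perm β} (ha : Normalises a P)
    (hb : Normalises b P) : Normalises (a * b) P := fun x => by
  rw [hb x, ha]; simp [mul_assoc]

lemma Normalises.inv {P : Subgroup (Perm β)} {a : Perm β} (ha : Normalises a P) :
    Normalises a⁻¹ P := fun x => by
  rw [ha (a⁻¹ * x * a⁻¹⁻¹)]; simp [mul_assoc]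

lemma Normalises.pow {P : Subgroup (Perm β)} {a : Perm β} (ha : Normalises a P) :
    ∀ k : ℕ, Normalises (a ^ k) P
  | 0 => fun x => by simp
  | k + 1 => by rw [pow_succ]; exact (ha.pow k).mul ha

lemma finRotate_pow_self (m : ℕ) : finRotate m ^ m = 1 := by
  cases m with
  | zero => simp
  | succ m =>
    have h : orderOf (finRotate (m + 1)) ∣ m + 1 := by
      rcases m with _ | m
      · exact orderOf_dvd_of_pow_eq_one (Equiv.ext fun _ => Fin.ext (by omega))
      · rw [isCycle_finRotate.orderOf, support_finRotate, card_univ, Fintype.card_fin]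
    exact orderOf_dvd_iff_pow_eq_one.mp h

/-- A single even element normalising no elementary abelian 2-subgroup. -/
theorem exists_cyclicData {m : ℕ} (hm : 5 ≤ m) (q : ℕ) :
    ∃ c : Perm (Fin m), FibreData q c ∅ := by
  rcases Nat.even_or_odd m with he | ho
  swap
  · exact ⟨_, fibreData_cycle ho ∅ (by simp)⟩
  by_cases h3 : 3 ∣ m
  · -- a cycle with one fixed point
    obtain ⟨L, hL⟩ : ∃ L, m = L + 1 := ⟨m - 1, by omega⟩
    have hLodd : Odd L := by rcases he with ⟨k, hk⟩; exact ⟨k - 1, by omega⟩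
    let e : Option (Fin L) ≃ Fin m := Fintype.equivFinOfCardEq (by simp; omega)
    have key : FibreData q (Equiv.optionCongr (finRotate L)) (∅ : Set (Perm (Option (Fin L)))) := by
      classical
      refine ⟨?_, by simp, by simp, fun P hP hc _ => ?_⟩
      · rw [Equiv.optionCongr_sign, sign_finRotate, (Nat.Odd.sub_odd hLodd odd_one).neg_one_pow]
      have hpow : ∀ (i : ℕ) (u : Fin L), (Equiv.optionCongr (finRotate L) ^ i) (some u) =
          some ((finRotate L ^ i) u) := fun i u => by
        induction i with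
        | zero => rfl
        | succ i ih => rw [pow_succ', Perm.mul_apply, ih, pow_succ', Perm.mul_apply]; rfl
      by_cases hfix : ∀ x ∈ P, x none = none
      · refine eq_bot_of_odd hP ((univ : Finset (Fin L)).map Function.Embedding.some)
          (by simpa using hLodd) _ hc (fun x hx u hu => ?_) (fun u => ?_) ?_
        · rcases u with _ | u
          · exact hfix x hx
          · simp at hu
        · rcases u with _ | u <;> simp
        · intro u hu v hv
          simp only [mem_map, mem_univ, true_and] at hu hv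
          obtain ⟨u, rfl⟩ := hu
          obtain ⟨v, rfl⟩ := hv
          obtain ⟨i, hi⟩ := exists_finRotate_pow u v
          exact ⟨i, (hpow i u).trans (congrArg some hi)⟩
      · exfalso
        push Not at hfix
        obtain ⟨x, hx, hxn⟩ := hfix
        obtain ⟨u, hu⟩ := Option.ne_none_iff_exists'.mp hxn
        have hall : ∀ v, ∃ y ∈ P, y none = v := by
          rintro (_ | v)
          · exact ⟨1, P.one_mem, rfl⟩
          · obtain ⟨i, hi⟩ := exists_finRotate_pow u v
            refine ⟨_, (hc.pow i x).mp hx, ?_⟩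
            have hn : ∀ i : ℕ, (Equiv.optionCongr (finRotate L) ^ i) none = none := fun i => by
              induction i with
              | zero => rfl
              | succ i ih => rw [pow_succ', Perm.mul_apply, ih]; rfl
            have hinv : (Equiv.optionCongr (finRotate L) ^ i)⁻¹ none = none := by
              conv_lhs => rw [← hn i]
              simp
            rw [Perm.mul_apply, Perm.mul_apply, hinv, hu, hpow, hi]
        have hbij : Function.Bijective (fun y : P => (y : Perm (Option (Fin L))) none) := by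
          refine ⟨fun y y' h => Subtype.ext (Equiv.ext fun v => ?_), fun v => ?_⟩
          · obtain ⟨w, hw, rfl⟩ := hall v
            rw [comm hP y.2 hw, comm hP y'.2 hw, show (y : Perm (Option (Fin L))) none =
              (y' : Perm (Option (Fin L))) none from h]
          · obtain ⟨y, hy, hyv⟩ := hall v
            exact ⟨⟨y, hy⟩, hyv⟩
        have hcard := Nat.card_congr (Equiv.ofBijective _ hbij)
        have h2 : IsPGroup 2 P := fun y => ⟨1, Subtype.ext (by simpa using hP y y.2)⟩
        have : Fact (Nat.Prime 2) := ⟨Nat.prime_two⟩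
        obtain ⟨k, hk⟩ := IsPGroup.iff_card.mp h2
        rw [hk, Nat.card_eq_fintype_card (α := Option (Fin L)), Fintype.card_option,
          Fintype.card_fin, ← hL] at hcard
        have h32 : 3 ∣ 2 := Nat.Prime.dvd_of_dvd_pow Nat.prime_three (hcard ▸ h3)
        omega
    have h := key.transport e
    rw [Set.image_empty] at h
    exact ⟨_, h⟩
  · -- a triple and a coprime cycle
    obtain ⟨L, hL⟩ : ∃ L, m = 3 + L := ⟨m - 3, by omega⟩
    have hLodd : Odd L := by rcases he with ⟨k, hk⟩; exact ⟨k - 2, by omega⟩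
    have hL1 : 1 < L := by omega
    let e : ((Σ _ : Fin 1, Fin 3) ⊕ Fin L) ≃ Fin m := Fintype.equivFinOfCardEq (by simp; omega)
    obtain ⟨hs, hT, -, hgood⟩ := fibreData_triples (k := 1) hLodd hL1
    set c' := Perm.sumCongr (1 : Perm (Σ _ : Fin 1, Fin 3)) (finRotate L)
    set t := rot (L := L) (0 : Fin 1)
    obtain ⟨hts, ht3, hct⟩ := hT t ⟨0, rfl⟩
    have hcL : c' ^ L = 1 := by
      have : c' = Perm.sumCongrHom _ _ (1, finRotate L) := rfl
      rw [this, ← map_pow, Prod.pow_mk, one_pow, finRotate_pow_self]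
      exact map_one _
    have key : FibreData q (c' * t) (∅ : Set (Perm ((Σ _ : Fin 1, Fin 3) ⊕ Fin L))) := by
      refine ⟨by rw [map_mul, hs, hts, one_mul], by simp, by simp, fun P hP hc _ => ?_⟩
      have hmod : L * L % 3 = 1 := by
        have : L % 3 ≠ 0 := fun h => h3 ⟨1 + L / 3, by omega⟩
        rw [Nat.mul_mod]
        rcases (show L % 3 = 1 ∨ L % 3 = 2 by omega) with h | h <;> rw [h]
      have hpow : (c' * t) ^ (L * L) = t := by
        rw [hct.mul_pow, pow_mul, hcL, one_pow, one_mul, ← Nat.div_add_mod (L * L) 3, pow_add,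
          pow_mul, ht3, one_pow, one_mul, hmod, pow_one]
      have htP : Normalises t P := hpow ▸ hc.pow _
      have hcP : Normalises c' P := by
        have h := hc.mul htP.inv
        rwa [mul_inv_cancel_right] at h
      exact hgood P hP hcP (by rintro _ ⟨i, rfl⟩; rwa [Subsingleton.elim i 0])
    have h := key.transport e
    rw [Set.image_empty] at h
    exact ⟨_, h⟩

variable {n : ℕ}

/-- Only the identity commutes with all even permutations. -/
lemma eq_one_of_commute_even (hn : 4 ≤ n) {p : Perm (Fin n)}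
    (h : ∀ y : Perm (Fin n), Perm.sign y = 1 → p * y = y * p) : p = 1 := by
  classical
  refine Equiv.ext fun a => ?_
  by_contra hb
  simp only [Perm.one_apply] at hb
  obtain ⟨c, hc, d, hd, hcd⟩ : ∃ c ∈ (univ \ {a, p a} : Finset (Fin n)),
      ∃ d ∈ (univ \ {a, p a} : Finset (Fin n)), c ≠ d := by
    refine Finset.one_lt_card.mp ?_
    have := card_le_two (a := a) (b := p a)
    have := le_card_sdiff {a, p a} (univ : Finset (Fin n))
    rw [card_univ, Fintype.card_fin] at *
    omega
  simp only [mem_sdiff, mem_univ, true_and, mem_insert, mem_singleton, not_or] at hc hd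
  have hs : Perm.sign (swap (p a) c * swap c d) = 1 := by
    rw [map_mul, Perm.sign_swap (Ne.symm hc.2), Perm.sign_swap hcd]; decide
  have h1 := Equiv.congr_fun (h _ hs) a
  simp only [Perm.mul_apply, swap_apply_of_ne_of_ne (Ne.symm hc.1) (Ne.symm hd.1),
    swap_apply_of_ne_of_ne (Ne.symm hb) (Ne.symm hc.1),
    swap_apply_of_ne_of_ne (Ne.symm hc.2) (Ne.symm hd.2), swap_apply_left] at h1
  exact hc.2 h1.symm

variable {G : Type*} [Group G] [Finite G]

/-- Data on one alternating component. -/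
theorem exists_alternating_local' (hn : 5 ≤ n) {q : ℕ} (φ : alternatingGroup (Fin n) →* G)
    (hinj : Function.Injective φ)
    (haut : ∀ g, g * g = 1 → (∀ y, y ∈ φ.range ↔ g * y * g⁻¹ ∈ φ.range) →
      ∃ π : Perm (Fin n), ∀ y : alternatingGroup (Fin n), ∃ y' : alternatingGroup (Fin n),
        (y' : Perm (Fin n)) = π * y * π⁻¹ ∧ g * φ y * g⁻¹ = φ y')
    {c : Perm (Fin n)} {T : Set (Perm (Fin n))} (hd : FibreData q c T) :
    ∃ (c' : φ.range) (Q : Subgroup φ.range), IsPGroup q Q ∧ (∀ t ∈ Q, Commute c' t) ∧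
      LocalProp 2 φ.range c' Q ∧ ((∃ t ∈ T, t ≠ 1) → Q ≠ ⊥) ∧
      (∀ N : ℕ, c ^ N = 1 → c' ^ N = 1) ∧ (c ≠ 1 → c' ≠ 1) := by
  classical
  obtain ⟨hcs, hT, hTT, hgood⟩ := hd
  let K := Subgroup.closure {y : alternatingGroup (Fin n) | (y : Perm (Fin n)) ∈ T}
  let c₀ : alternatingGroup (Fin n) := ⟨c, Perm.mem_alternatingGroup.mpr hcs⟩
  have hTK : ∀ t (ht : t ∈ T),
      (⟨t, Perm.mem_alternatingGroup.mpr (hT t ht).1⟩ : alternatingGroup (Fin n)) ∈ K := fun t ht =>
    Subgroup.subset_closure ht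
  have hcomm : ∀ a ∈ K, ∀ b ∈ K, Commute a b := by
    intro a ha b hb
    induction ha using Subgroup.closure_induction with
    | mem x hx =>
      induction hb using Subgroup.closure_induction with
      | mem y hy => exact Subtype.ext (hTT _ hx _ hy).eq
      | one => exact Commute.one_right _
      | mul y z _ _ h1 h2 => exact h1.mul_right h2
      | inv y _ h1 => exact h1.inv_right
    | one => exact Commute.one_left _
    | mul y z _ _ h1 h2 => exact h1.mul_left h2
    | inv y _ h1 => exact h1.inv_left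
  have hK : ∀ a ∈ K, a ^ q = 1 ∧ Commute c₀ a := by
    intro a ha
    induction ha using Subgroup.closure_induction with
    | mem x hx =>
      exact ⟨Subtype.ext (by rw [SubmonoidClass.coe_pow]; exact (hT _ hx).2.1),
        Subtype.ext (hT _ hx).2.2.eq⟩
    | one => exact ⟨one_pow _, Commute.one_right _⟩
    | mul y z hy hz h1 h2 =>
      exact ⟨by rw [(hcomm y hy z hz).mul_pow, h1.1, h2.1, one_mul], h1.2.mul_right h2.2⟩
    | inv y _ h1 => exact ⟨by rw [inv_pow, h1.1, inv_one], h1.2.inv_right⟩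
  refine ⟨φ.rangeRestrict c₀, K.map φ.rangeRestrict,
    IsPGroup.map (fun a => ⟨1, Subtype.ext (by
      rw [pow_one, SubmonoidClass.coe_pow]; exact (hK a a.2).1)⟩) _, ?_, ?_, ?_,
    fun N hN => ?_, fun hc h => hc ?_⟩
  · rintro _ ⟨a, ha, rfl⟩
    exact (hK a ha).2.map _
  case refine_4 =>
    rw [← map_pow, show c₀ ^ N = 1 from Subtype.ext hN, map_one]
  case refine_5 =>
    have h' : φ c₀ = 1 := congrArg Subtype.val h
    exact congrArg Subtype.val ((map_eq_one_iff φ hinj).mp h')
  rotate_left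
  · rintro ⟨t, ht, ht1⟩ hbot
    have h := (Subgroup.eq_bot_iff_forall _).mp hbot _ ⟨_, hTK t ht, rfl⟩
    have h2 : (⟨t, Perm.mem_alternatingGroup.mpr (hT t ht).1⟩ : alternatingGroup (Fin n)) = 1 :=
      hinj ((congrArg Subtype.val h).trans (map_one φ).symm)
    exact ht1 (congrArg Subtype.val h2)
  intro E hsq _ hnorm hk x hx z hz
  let Rel : G → Perm (Fin n) → Prop := fun g π => ∀ y : alternatingGroup (Fin n),
    ∃ y' : alternatingGroup (Fin n), (y' : Perm (Fin n)) = π * y * π⁻¹ ∧ g * φ y * g⁻¹ = φ y'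
  have hone : Rel 1 1 := fun y => ⟨y, by simp, by simp⟩
  have hmul : ∀ {g g' π π'}, Rel g π → Rel g' π' → Rel (g * g') (π * π') := by
    intro g g' π π' h h' y
    obtain ⟨u, hu, hu'⟩ := h' y
    obtain ⟨v, hv, hv'⟩ := h u
    refine ⟨v, by rw [hv, hu]; group, ?_⟩
    rw [← hv', ← hu']; group
  have hself : ∀ a : alternatingGroup (Fin n), Rel (φ a) (a : Perm (Fin n)) := fun a y =>
    ⟨a * y * a⁻¹, by simp, by simp⟩
  have huniq : ∀ {g π π'}, Rel g π → Rel g π' → π = π' := by
    intro g π π' h h'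
    have h1 : π'⁻¹ * π = 1 := eq_one_of_commute_even (by omega) fun y hy => by
      obtain ⟨u, hu, hu'⟩ := h ⟨y, Perm.mem_alternatingGroup.mpr hy⟩
      obtain ⟨v, hv, hv'⟩ := h' ⟨y, Perm.mem_alternatingGroup.mpr hy⟩
      have huv : (u : Perm (Fin n)) = v := congrArg Subtype.val (hinj (hu'.symm.trans hv'))
      rw [hu, hv] at huv
      calc π'⁻¹ * π * y = π'⁻¹ * (π * y * π⁻¹) * π := by group
        _ = y * (π'⁻¹ * π) := by rw [huv]; group
    exact (inv_mul_eq_one.mp h1).symm
  have hRelsq : ∀ g ∈ E, ∀ π, Rel g π → π ^ 2 = 1 := by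
    intro g hg π h
    have h' := hmul h h
    rw [← sq g, hsq g hg, ← sq π] at h'
    exact huniq h' hone
  let P : Subgroup (Perm (Fin n)) :=
    { carrier := {π | ∃ g ∈ E, Rel g π}
      one_mem' := ⟨1, E.one_mem, hone⟩
      mul_mem' := fun ⟨g, hg, h⟩ ⟨g', hg', h'⟩ => ⟨g * g', E.mul_mem hg hg', hmul h h'⟩
      inv_mem' := fun {π} ⟨g, hg, h⟩ => ⟨g, hg, by
        rwa [inv_eq_of_mul_eq_one_right (show π * π = 1 by rw [← sq]; exact hRelsq g hg π h)]⟩ }
  have hto : ∀ k : alternatingGroup (Fin n), (k = c₀ ∨ k ∈ K) →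
      ∀ π ∈ P, (k : Perm (Fin n)) * π * (k : Perm (Fin n))⁻¹ ∈ P := by
    rintro k hkk π ⟨g, hg, h⟩
    obtain ⟨e, he, heq⟩ := hk (φ.rangeRestrict k) (by
      rcases hkk with rfl | hkk
      · exact Or.inl rfl
      · exact Or.inr ⟨k, hkk, rfl⟩) g hg
    refine ⟨e, he, fun y => ?_⟩
    obtain ⟨y', hy', hy''⟩ := hmul (hmul (hself k) h) (hself k⁻¹) y
    refine ⟨y', by simpa using hy', ?_⟩
    rw [← heq _ ⟨y, rfl⟩, ← hy'']
    simp
  have hnormP : ∀ k : alternatingGroup (Fin n), (k = c₀ ∨ k ∈ K) →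
      Normalises (k : Perm (Fin n)) P := by
    intro k hkk π
    refine ⟨hto k hkk π, fun h => ?_⟩
    let f : P → P := fun p => ⟨_, hto k hkk p.1 p.2⟩
    have hf : Function.Injective f := fun a b hab => Subtype.ext (by
      simpa [f] using congrArg Subtype.val hab)
    obtain ⟨⟨p, hp⟩, hpeq⟩ := Finite.surjective_of_injective hf ⟨_, h⟩
    have : p = π := by simpa [f] using congrArg Subtype.val hpeq
    exact this ▸ hp
  have hPsq : ∀ π ∈ P, π ^ 2 = 1 := by
    intro π hπP
    obtain ⟨g, hg, h⟩ := hπP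
    exact hRelsq g hg π h
  have hbot : P = ⊥ := hgood P hPsq (hnormP c₀ (Or.inl rfl))
    fun t ht => hnormP _ (Or.inr (hTK t ht))
  obtain ⟨π, hπ⟩ := haut x (by rw [← sq]; exact hsq x hx) (hnorm x hx)
  have hπ1 : π = 1 := (Subgroup.eq_bot_iff_forall _).mp hbot π ⟨x, hx, hπ⟩
  obtain ⟨y, rfl⟩ := hz
  obtain ⟨y', hy', hxy⟩ := hπ y
  have : y' = y := Subtype.ext (by rw [hy', hπ1]; simp)
  rw [this] at hxy
  calc x * φ y = x * φ y * x⁻¹ * x := by group
    _ = φ y * x := by rw [hxy]

/-- Data on one alternating component. -/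
theorem exists_alternating_local (hn : 5 ≤ n) {q : ℕ} (φ : alternatingGroup (Fin n) →* G)
    (hinj : Function.Injective φ)
    (haut : ∀ g, g * g = 1 → (∀ y, y ∈ φ.range ↔ g * y * g⁻¹ ∈ φ.range) →
      ∃ π : Perm (Fin n), ∀ y : alternatingGroup (Fin n), ∃ y' : alternatingGroup (Fin n),
        (y' : Perm (Fin n)) = π * y * π⁻¹ ∧ g * φ y * g⁻¹ = φ y')
    {c : Perm (Fin n)} {T : Set (Perm (Fin n))} (hd : FibreData q c T) :
    ∃ (c' : φ.range) (Q : Subgroup φ.range), IsPGroup q Q ∧ (∀ t ∈ Q, Commute c' t) ∧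
      LocalProp 2 φ.range c' Q ∧ ((∃ t ∈ T, t ≠ 1) → Q ≠ ⊥) := by
  obtain ⟨c', Q, h1, h2, h3, h4, -⟩ := exists_alternating_local' hn φ hinj haut hd
  exact ⟨c', Q, h1, h2, h3, h4⟩

end Vale.Agent.P240
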