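import Vale.Agent.P240.ModBoundary

/-!
# Smith theory for order complexes, in the form of an Euler characteristic of differential spaces
-/

open Finset Module

namespace Vale.Agent.P240

section Differential

variable {k V : Type*} [Field k] [AddCommGroup V] [Module k V] [FiniteDimensional k V]
  (d : V →ₗ[k] V)

/-- The dimension of the homology of `d` on an invariant subspace `W`. -/
noncomputable def homDim (W : Submodule k V) : ℤ :=
  finrank k W - 2 * finrank k (W.map d)

/-- Rank and nullity on a subspace. -/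
lemma finrank_map_add (f : V →ₗ[k] V) (W : Submodule k V) :
    finrank k (W.map f) + finrank k (W ⊓ LinearMap.ker f : Submodule k V) = finrank k W := by
  have h := LinearMap.finrank_range_add_finrank_ker (f.domRestrict W)
  rw [LinearMap.range_domRestrict] at h
  rw [← h, add_right_inj]
  refine (LinearEquiv.finrank_eq ?_).symm
  rw [LinearMap.ker_domRestrict]
  exact (Submodule.equivMapOfInjective _ W.injective_subtype _).trans
    (LinearEquiv.ofEq _ _ (Submodule.map_comap_subtype W (LinearMap.ker f)))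

variable (hd : ∀ x, d (d x) = 0)
include hd

lemma map_eq_inf_ker {W : Submodule k V} (hW : W.map d ≤ W) (h0 : homDim d W = 0) :
    W.map d = W ⊓ LinearMap.ker d := by
  refine Submodule.eq_of_le_of_finrank_eq ?_ ?_
  · refine le_inf hW ?_
    rintro _ ⟨x, -, rfl⟩
    exact hd x
  · have := finrank_map_add d W
    rw [homDim] at h0
    omega

/-- An exact space gives equal homology of kernel and image of an endomorphism. -/
lemma homDim_inf_ker_eq {W : Submodule k V} (hW : W.map d ≤ W) (h0 : homDim d W = 0)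
    (f : V →ₗ[k] V) (hf : ∀ x ∈ W, d (f x) = f (d x)) :
    homDim d (W ⊓ LinearMap.ker f) = homDim d (W.map f) := by
  have e1 := finrank_map_add f W
  have e2 := finrank_map_add f (W.map d)
  have e3 := finrank_map_add d (W ⊓ LinearMap.ker f)
  have hfd : (W.map d).map f = (W.map f).map d := by
    ext z
    constructor
    · rintro ⟨_, ⟨x, hx, rfl⟩, rfl⟩
      exact ⟨f x, ⟨x, hx, rfl⟩, hf x hx⟩
    · rintro ⟨_, ⟨x, hx, rfl⟩, rfl⟩
      exact ⟨d x, ⟨x, hx, rfl⟩, (hf x hx).symm⟩
  have hset : W.map d ⊓ LinearMap.ker f = W ⊓ LinearMap.ker f ⊓ LinearMap.ker d := by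
    rw [map_eq_inf_ker d hd hW h0, inf_right_comm]
  rw [hfd, hset] at e2
  simp only [homDim] at h0 ⊢
  omega

omit hd in
lemma homDim_sup {A B : Submodule k V} (hA : A.map d ≤ A) (hB : B.map d ≤ B) (hAB : Disjoint A B) :
    homDim d (A ⊔ B) = homDim d A + homDim d B := by
  have h1 := Submodule.finrank_sup_add_finrank_inf_eq A B
  have h2 := Submodule.finrank_sup_add_finrank_inf_eq (A.map d) (B.map d)
  rw [hAB.eq_bot, finrank_bot] at h1
  rw [(hAB.mono hA hB).eq_bot, finrank_bot, ← Submodule.map_sup] at h2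
  simp only [homDim]
  omega

end Differential

section SmithTheory

variable {α : Type*} [PartialOrder α] (q : ℕ) [hq : Fact q.Prime]

/-- Chains inside a set of vertices. -/
noncomputable def chainsIn (S : Set α) : Submodule (ZMod q) (Chain α →₀ ZMod q) :=
  Finsupp.supported (ZMod q) (ZMod q) {σ : Chain α | (σ.1 : Set α) ⊆ S}

/-- The order complex on `S` is acyclic modulo `q`. -/
def IsAcyclicOn (S : Set α) : Prop := homDim (modBoundary q α) (chainsIn q S) = 0

lemma map_chainsIn_le (S : Set α) : (chainsIn q S).map (modBoundary q α) ≤ chainsIn q S := by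
  classical
  rw [chainsIn, Finsupp.supported_eq_span_single, Submodule.map_span, Submodule.span_le]
  rintro _ ⟨_, ⟨σ, hσ, rfl⟩, rfl⟩
  rw [modBoundary_single]
  refine Submodule.sum_mem _ fun v _ => Submodule.smul_mem _ _ (Submodule.subset_span ⟨_, ?_, rfl⟩)
  simp only [Set.mem_setOf_eq, Chain.remove, coe_erase]
  show ((σ.1.erase v : Finset α) : Set α) ⊆ S
  rw [coe_erase]
  exact Set.sdiff_subset.trans hσ

variable (g : Equiv.Perm α) (hg : ∀ a b, g a ≤ g b ↔ a ≤ b)

/-- The chain map of an automorphism of the poset. -/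
noncomputable def moveMap : (Chain α →₀ ZMod q) →ₗ[ZMod q] (Chain α →₀ ZMod q) :=
  Finsupp.lmapDomain (ZMod q) (ZMod q) fun σ => σ.move g hg

lemma moveMap_single (σ : Chain α) (b : ZMod q) :
    moveMap q g hg (Finsupp.single σ b) = Finsupp.single (σ.move g hg) b :=
  Finsupp.mapDomain_single

lemma modBoundary_moveMap (x : Chain α →₀ ZMod q) :
    modBoundary q α (moveMap q g hg x) = moveMap q g hg (modBoundary q α x) := by
  classical
  suffices modBoundary q α ∘ₗ moveMap q g hg = moveMap q g hg ∘ₗ modBoundary q α from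
    LinearMap.congr_fun this x
  refine Finsupp.lhom_ext fun σ b => ?_
  rw [← Finsupp.smul_single_one, map_smul, map_smul]
  congr 1
  simp only [LinearMap.comp_apply, modBoundary_single, map_sum, map_smul, moveMap_single]
  rw [show (σ.move g hg).1 = σ.1.map g.toEmbedding from rfl, sum_map]
  refine sum_congr rfl fun v hv => ?_
  have hs : (σ.move g hg).modSign q (g v) = σ.modSign q v := by
    simp only [Chain.modSign, Chain.move, filter_map, card_map]
    congr 2
    refine filter_congr fun u _ => ?_
    simp only [Function.comp_apply, Equiv.coe_toEmbedding, lt_iff_le_not_ge, hg]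
  have hr : (σ.move g hg).remove (g v) = (σ.remove v).move g hg :=
    Subtype.ext (by simp [Chain.remove, Chain.move, map_erase])
  simp only [Equiv.coe_toEmbedding, hs, hr]

lemma mem_move_iff (σ : Chain α) (a : α) : g a ∈ (σ.move g hg).1 ↔ a ∈ σ.1 := by
  simp [Chain.move]

lemma move_injective : Function.Injective fun σ : Chain α => σ.move g hg := fun σ τ h => by
  refine Subtype.ext (Finset.ext fun a => ?_)
  rw [← mem_move_iff g hg, ← mem_move_iff g hg τ]
  exact iff_of_eq (congrArg (fun s : Chain α => g a ∈ s.1) h)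

lemma iterate_moveMap_single (n : ℕ) (σ : Chain α) (b : ZMod q) :
    (moveMap q g hg ^ n) (Finsupp.single σ b) =
      Finsupp.single ((fun s : Chain α => s.move g hg)^[n] σ) b := by
  induction n with
  | zero => rfl
  | succ n ih =>
    rw [pow_succ', Module.End.mul_apply, ih, moveMap_single, Function.iterate_succ_apply']

/-- `(1 - X)^(q-1)` is the sum of the first `q` powers of `X`. -/
lemma one_sub_pow_sub_one {R : Type*} [Ring R] [Algebra (ZMod q) R] (a : R) :
    (1 - a) ^ (q - 1) = ∑ i ∈ range q, a ^ i := by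
  have h : (1 - Polynomial.X : Polynomial (ZMod q)) ^ (q - 1) =
      ∑ i ∈ range q, Polynomial.X ^ i := by
    have hne : (1 - Polynomial.X : Polynomial (ZMod q)) ≠ 0 := fun h => by
      have h1 := congrArg (fun P => Polynomial.coeff P 1) h
      simp [Polynomial.coeff_one] at h1
    refine mul_left_cancel₀ hne ?_
    rw [← pow_succ', Nat.sub_add_cancel hq.out.one_le, mul_neg_geom_sum, sub_pow_char, one_pow]
  have h' := congrArg (Polynomial.aeval a) h
  simpa using h'

variable [Finite α]

include hg in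
/-- **One step of Smith theory.** An automorphism whose `q`-th power fixes `S` pointwise keeps
acyclicity when passing to its fixed points. -/
theorem isAcyclicOn_fixed {S : Set α} (hS : IsAcyclicOn q S) (hSg : ∀ a ∈ S, g a ∈ S)
    (hgq : ∀ a ∈ S, g^[q] a = a) : IsAcyclicOn q (S ∩ {a | g a = a}) := by
  classical
  set d := modBoundary q α
  set G := moveMap q g hg
  set T : Module.End (ZMod q) (Chain α →₀ ZMod q) := 1 - G
  set W := chainsIn q S
  set F := chainsIn q (S ∩ {a | g a = a})
  have hd : ∀ x, d (d x) = 0 := modBoundary_modBoundary_apply q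
  have hW : W.map d ≤ W := map_chainsIn_le q S
  have hq1 : 1 ≤ q - 1 := Nat.le_sub_one_of_lt hq.out.one_lt
  have hsucc' : T * T ^ (q - 1) = T ^ q :=
    (pow_succ' T (q - 1)).symm.trans (congrArg (T ^ ·) (Nat.sub_add_cancel hq.out.one_le))
  have hsucc : T ^ (q - 1) * T = T ^ q :=
    (pow_succ T (q - 1)).symm.trans (congrArg (T ^ ·) (Nat.sub_add_cancel hq.out.one_le))
  have hsucc2 : T ^ (q - 1 - 1) * T = T ^ (q - 1) :=
    (pow_succ T (q - 1 - 1)).symm.trans (congrArg (T ^ ·) (Nat.sub_add_cancel hq1))
  have hsucc2' : T * T ^ (q - 1 - 1) = T ^ (q - 1) :=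
    (pow_succ' T (q - 1 - 1)).symm.trans (congrArg (T ^ ·) (Nat.sub_add_cancel hq1))
  let m : Chain α → Chain α := fun σ => σ.move g hg
  have hm : Function.Injective m := move_injective g hg
  -- the orbit of a chain
  have hmem : ∀ (n : ℕ) (σ : Chain α) (a : α), g^[n] a ∈ (m^[n] σ).1 ↔ a ∈ σ.1 := by
    intro n
    induction n with
    | zero => simp
    | succ n ih =>
      intro σ a
      rw [Function.iterate_succ_apply' (f := ⇑g), Function.iterate_succ_apply' (f := m)]
      exact (mem_move_iff g hg _ _).trans (ih σ a)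
  have hS' : ∀ σ : Chain α, (σ.1 : Set α) ⊆ S → ((m σ).1 : Set α) ⊆ S := by
    intro σ hσ a ha
    obtain ⟨b, hb, rfl⟩ : ∃ b ∈ σ.1, g b = a := mem_map.mp ha
    exact hSg b (hσ hb)
  have hperiod : ∀ σ : Chain α, (σ.1 : Set α) ⊆ S → m^[q] σ = σ := by
    intro σ hσ
    have hsub : σ.1 ⊆ (m^[q] σ).1 := fun a ha => by
      have := (hmem q σ a).mpr ha
      rwa [hgq a (hσ ha)] at this
    refine Subtype.ext (eq_of_subset_of_card_le hsub (le_of_eq ?_)).symm
    suffices ∀ n, #(m^[n] σ).1 = #σ.1 from this q
    intro n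
    induction n with
    | zero => rfl
    | succ n ih => rw [Function.iterate_succ_apply', ← ih]; exact card_map _
  -- fixed chains consist of fixed points
  have hfixed : ∀ σ : Chain α, (σ.1 : Set α) ⊆ S → m σ = σ → ∀ a ∈ σ.1, g a = a := by
    intro σ hσ hfix a ha
    have hmono : Monotone (fun b : α => g b) := fun b c h => (hg b c).mpr h
    have hga : g a ∈ σ.1 := by
      have := (mem_move_iff g hg σ a).mpr ha
      rwa [show σ.move g hg = σ from hfix] at this
    by_contra hne
    rcases σ.2 ha hga (Ne.symm hne) with hle | hle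
    · have hmn : Monotone fun n => (fun b : α => g b)^[n] a := hmono.monotone_iterate_of_le_map hle
      have h1 : g a ≤ g^[q] a := hmn hq.out.one_le
      rw [hgq a (hσ ha)] at h1
      exact hne (le_antisymm h1 hle)
    · have hmn : Antitone fun n => (fun b : α => g b)^[n] a :=
        hmono.antitone_iterate_of_map_le hle
      have h1 : g^[q] a ≤ g a := hmn hq.out.one_le
      rw [hgq a (hσ ha)] at h1
      exact hne (le_antisymm hle h1)
  have hWG : ∀ x ∈ W, G x ∈ W := by
    intro x hx
    refine (Finsupp.mem_supported _ _).mpr fun σ hσ => ?_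
    obtain ⟨τ, hτ, rfl⟩ := mem_image.mp (Finsupp.mapDomain_support hσ)
    exact hS' τ ((Finsupp.mem_supported _ x).mp hx hτ)
  have hWGn : ∀ n, ∀ x ∈ W, (G ^ n) x ∈ W := by
    intro n
    induction n with
    | zero => exact fun x hx => hx
    | succ n ih => intro x hx; rw [pow_succ', Module.End.mul_apply]; exact hWG _ (ih x hx)
  have hWT : ∀ x ∈ W, T x ∈ W := fun x hx => W.sub_mem hx (hWG x hx)
  have hGq : ∀ x ∈ W, (G ^ q) x = x := by
    intro x hx
    conv_rhs => rw [← Finsupp.sum_single x]
    conv_lhs => rw [← Finsupp.sum_single x]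
    rw [Finsupp.sum, map_sum]
    exact sum_congr rfl fun σ hσ => by
      rw [iterate_moveMap_single, hperiod σ (hx hσ)]
  have hTsum : T ^ (q - 1) = ∑ i ∈ range q, G ^ i := one_sub_pow_sub_one q G
  have hTq : ∀ x ∈ W, (T ^ q) x = 0 := by
    intro x hx
    have : T ^ q = 1 - G ^ q := by
      have h := one_sub_pow_sub_one q G
      rw [← hsucc', h]
      exact mul_neg_geom_sum G q
    rw [this, LinearMap.sub_apply, hGq x hx, Module.End.one_apply, sub_self]
  have hdT : ∀ n, ∀ x, d ((T ^ n) x) = (T ^ n) (d x) := by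
    intro n
    induction n with
    | zero => exact fun x => rfl
    | succ n ih =>
      intro x
      rw [pow_succ', Module.End.mul_apply, Module.End.mul_apply, ← ih x]
      simp only [T, LinearMap.sub_apply, Module.End.one_apply, map_sub]
      rw [modBoundary_moveMap]
  -- `F` is killed by `T` and meets its image trivially
  have hFW : F ≤ W := Finsupp.supported_mono fun σ (hσ : (σ.1 : Set α) ⊆ _) =>
    hσ.trans Set.inter_subset_left
  have hFfix : ∀ σ : Chain α, (σ.1 : Set α) ⊆ S ∩ {a | g a = a} → m σ = σ := fun σ hσ =>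
    Subtype.ext (eq_of_subset_of_card_le (fun a ha => by
      obtain ⟨b, hb, rfl⟩ : ∃ b ∈ σ.1, g b = a := mem_map.mp ha
      rwa [(hσ hb).2]) (le_of_eq (card_map _).symm))
  have hTF : ∀ x ∈ F, T x = 0 := by
    intro x hx
    rw [LinearMap.sub_apply, Module.End.one_apply, sub_eq_zero]
    conv_lhs => rw [← Finsupp.sum_single x]
    conv_rhs => rw [← Finsupp.sum_single x]
    rw [Finsupp.sum, map_sum]
    exact sum_congr rfl fun σ hσ => by
      rw [show G (Finsupp.single σ (x σ)) = _ from moveMap_single q g hg σ _]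
      exact (congrArg (fun s => Finsupp.single s (x σ)) (hFfix σ (hx hσ))).symm
  have happly : ∀ (w : Chain α →₀ ZMod q) σ, G w (m σ) = w σ := fun w σ =>
    Finsupp.mapDomain_apply hm w σ
  have hdisj : Disjoint F (W.map T) := by
    rw [Submodule.disjoint_def]
    rintro _ hzF ⟨w, -, rfl⟩
    ext σ
    by_cases hσ : (σ.1 : Set α) ⊆ S ∩ {a | g a = a}
    · have h1 := happly w σ
      rw [hFfix σ hσ] at h1
      rw [LinearMap.sub_apply, Module.End.one_apply, Finsupp.sub_apply, h1, sub_self]
      rfl
    · exact (Finsupp.mem_supported' (ZMod q) _).mp hzF σ hσ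
  -- invariant functions
  have hker : W ⊓ LinearMap.ker T = F ⊔ W.map (T ^ (q - 1)) := by
    refine le_antisymm ?_ (sup_le (fun x hx => ⟨hFW hx, hTF x hx⟩) ?_)
    · rintro x ⟨hxW, hxT⟩
      rw [SetLike.mem_coe, LinearMap.mem_ker, LinearMap.sub_apply, Module.End.one_apply,
        sub_eq_zero] at hxT
      induction hn : #x.support using Nat.strong_induction_on generalizing x with
      | _ n ih =>
        by_cases hall : ∀ σ ∈ x.support, m σ = σ
        · refine Submodule.mem_sup_left ((Finsupp.mem_supported _ x).mpr fun σ hσ a ha =>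
            ⟨hxW hσ ha, hfixed σ (hxW hσ) (hall σ hσ) a ha⟩)
        push Not at hall
        obtain ⟨σ₀, hσ₀, hne⟩ := hall
        set y : Chain α →₀ ZMod q := ∑ i ∈ range q, Finsupp.single (m^[i] σ₀) (x σ₀)
        have hy : y = (T ^ (q - 1)) (Finsupp.single σ₀ (x σ₀)) := by
          rw [hTsum, LinearMap.sum_apply]
          exact sum_congr rfl fun i _ => (iterate_moveMap_single q g hg i σ₀ _).symm
        have hconst : ∀ i, x (m^[i] σ₀) = x σ₀ := by
          intro i
          induction i with
          | zero => rfl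
          | succ i ihi => rw [Function.iterate_succ_apply', ← ihi]; conv_lhs => rw [hxT, happly]
        have hinj : ∀ i ∈ range q, ∀ j ∈ range q, m^[i] σ₀ = m^[j] σ₀ → i = j := by
          have hmp : Function.minimalPeriod m σ₀ = q :=
            Function.minimalPeriod_eq_prime (hperiod σ₀ (hxW hσ₀)) hne
          intro i hi j hj hij
          exact Function.iterate_injOn_Iio_minimalPeriod (by simpa [hmp] using hi)
            (by simpa [hmp] using hj) hij
        have hy0 : ∀ i ∈ range q, y (m^[i] σ₀) = x σ₀ := fun i hi => by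
          rw [Finsupp.finsetSum_apply, sum_eq_single i]
          · simp
          · intro j hj hji
            rw [Finsupp.single_apply, if_neg fun h => hji (hinj j hj i hi h)]
          · exact fun h => absurd hi h
        have hyW : y ∈ W := W.sum_mem fun i _ => by
          rw [← iterate_moveMap_single q g hg]
          exact hWGn i _ (Finsupp.single_mem_supported _ _ (hxW hσ₀))
        have hsupp : (x - y).support ⊂ x.support := by
          rw [ssubset_iff_of_subset]
          · refine ⟨σ₀, hσ₀, ?_⟩
            have := hy0 0 (mem_range.mpr hq.out.pos)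
            simp only [Function.iterate_zero, id_eq] at this
            simp [this]
          · intro σ hσ
            by_contra hx0
            rw [Finsupp.notMem_support_iff] at hx0
            rw [Finsupp.mem_support_iff, Finsupp.sub_apply, hx0, zero_sub, neg_ne_zero,
              Finsupp.finsetSum_apply] at hσ
            obtain ⟨i, -, hi⟩ := exists_ne_zero_of_sum_ne_zero hσ
            obtain ⟨rfl, -⟩ := Finsupp.single_apply_ne_zero.mp hi
            rw [hconst i] at hx0
            exact Finsupp.mem_support_iff.mp hσ₀ hx0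
        have hTy : T y = 0 := by
          rw [hy, ← Module.End.mul_apply, hsucc']
          exact hTq _ (Finsupp.single_mem_supported _ _ (hxW hσ₀))
        rw [LinearMap.sub_apply, Module.End.one_apply, sub_eq_zero] at hTy
        have h1 := ih _ (hn ▸ card_lt_card hsupp) (x := x - y) (W.sub_mem hxW hyW)
          (by rw [map_sub, ← hxT, ← hTy]) rfl
        have h2 : y ∈ F ⊔ W.map (T ^ (q - 1)) := by
          rw [hy]
          exact Submodule.mem_sup_right
            (Submodule.mem_map_of_mem (Finsupp.single_mem_supported _ _ (hxW hσ₀)))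
        simpa using add_mem h1 h2
    · rintro _ ⟨w, hw, rfl⟩
      refine ⟨?_, ?_⟩
      · rw [hTsum, LinearMap.sum_apply]
        exact W.sum_mem fun i _ => hWGn i w hw
      · rw [SetLike.mem_coe, LinearMap.mem_ker, ← Module.End.mul_apply, hsucc']
        exact hTq w hw
  have hle : W.map (T ^ (q - 1)) ≤ W.map T := by
    rintro _ ⟨w, hw, rfl⟩
    have : ∀ n, ∀ x ∈ W, (T ^ n) x ∈ W := fun n => by
      induction n with
      | zero => exact fun x hx => hx
      | succ n ihn => intro x hx; rw [pow_succ', Module.End.mul_apply]; exact hWT _ (ihn x hx)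
    refine ⟨(T ^ (q - 1 - 1)) w, this _ w hw, ?_⟩
    rw [← Module.End.mul_apply, hsucc2']
  have hker' : W ⊓ LinearMap.ker (T ^ (q - 1)) = F ⊔ W.map T := by
    refine (Submodule.eq_of_le_of_finrank_le (sup_le (fun x hx => ⟨hFW hx, ?h1⟩) ?h2) ?h3).symm
    case h1 => rw [SetLike.mem_coe, LinearMap.mem_ker, ← hsucc2, Module.End.mul_apply, hTF x hx, map_zero]
    case h2 =>
      rintro _ ⟨w, hw, rfl⟩
      refine ⟨hWT w hw, ?_⟩
      rw [SetLike.mem_coe, LinearMap.mem_ker, ← Module.End.mul_apply, hsucc]
      exact hTq w hw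
    case h3 =>
      have e1 := finrank_map_add T W
      have e2 := finrank_map_add (T ^ (q - 1)) W
      have e3 := Submodule.finrank_sup_add_finrank_inf_eq F (W.map T)
      have e4 := Submodule.finrank_sup_add_finrank_inf_eq F (W.map (T ^ (q - 1)))
      rw [hdisj.eq_bot, finrank_bot] at e3
      rw [(hdisj.mono_right hle).eq_bot, finrank_bot, ← hker] at e4
      omega
  have hFd : F.map d ≤ F := map_chainsIn_le q _
  have himd : ∀ n, (W.map (T ^ n)).map d ≤ W.map (T ^ n) := by
    rintro n _ ⟨_, ⟨w, hw, rfl⟩, rfl⟩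
    exact ⟨d w, hW ⟨w, hw, rfl⟩, (hdT n w).symm⟩
  have h1 := homDim_inf_ker_eq d hd hW hS T fun x _ => by simpa using hdT 1 x
  have h2 := homDim_inf_ker_eq d hd hW hS (T ^ (q - 1)) fun x _ => hdT (q - 1) x
  rw [hker, homDim_sup d hFd (himd _) (hdisj.mono_right hle)] at h1
  rw [hker', homDim_sup d hFd (by simpa using himd 1) hdisj] at h2
  show homDim d F = 0
  omega

/-- **Smith theory**, on an invariant set. If the order complex is acyclic modulo `q` then so is that of the fixed
points of a `q`-group of automorphisms. -/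
theorem isAcyclicOn_fixedPoints_of_invariant {P : Type*} [Group P] [Finite P] (hP : IsPGroup q P)
    (φ : P →* Equiv.Perm α) (hφ : ∀ x a b, φ x a ≤ φ x b ↔ a ≤ b)
    {S₀ : Set α} (hS₀ : ∀ x, ∀ a ∈ S₀, φ x a ∈ S₀) (h : IsAcyclicOn q S₀) :
    IsAcyclicOn q (S₀ ∩ {a | ∀ x, φ x a = a}) := by
  classical
  let S : Subgroup P → Set α := fun N => S₀ ∩ {a | ∀ x ∈ N, φ x a = a}
  obtain ⟨N, hN, hmax⟩ := Set.Finite.exists_maximal
    (Set.toFinite {N : Subgroup P | IsAcyclicOn q (S N)}) ⟨⊥, by
      have : S ⊥ = S₀ := Set.inter_eq_left.mpr fun a _ x hx => by simp_all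
      simpa [this] using h⟩
  suffices N = ⊤ by
    have hS : S N = S₀ ∩ {a | ∀ x, φ x a = a} := by subst this; simp [S]
    exact hS ▸ hN
  by_contra hne
  have : Group.IsNilpotent P := hP.isNilpotent
  obtain ⟨g₀, hg₀, hg₀N⟩ := SetLike.exists_of_lt
    (Group.normalizerCondition_of_isNilpotent N (lt_top_iff_ne_top.mpr hne))
  -- some element outside has its `q`-th power inside
  obtain ⟨j, hj⟩ := hP g₀
  have hex : ∃ i, g₀ ^ q ^ i ∈ N := ⟨j, by rw [hj]; exact N.one_mem⟩
  obtain ⟨i, hi⟩ : ∃ i, Nat.find hex = i + 1 := by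
    refine Nat.exists_eq_succ_of_ne_zero fun h0 => hg₀N ?_
    simpa [h0] using Nat.find_spec hex
  set g := g₀ ^ q ^ i
  have hgN : g ∉ N := Nat.find_min hex (by omega)
  have hgq : g ^ q ∈ N := by
    rw [← pow_mul, ← pow_succ, ← hi]
    exact Nat.find_spec hex
  have hgn : g ∈ Subgroup.normalizer (N : Set P) := pow_mem hg₀ _
  have hgle : N < N ⊔ Subgroup.zpowers g := by
    refine lt_of_le_of_ne le_sup_left fun he => hgN ?_
    rw [he]; exact Subgroup.mem_sup_right (Subgroup.mem_zpowers g)
  refine hgle.not_ge (hmax ?_ hgle.le)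
  have hSeq : S (N ⊔ Subgroup.zpowers g) = S N ∩ {a | φ g a = a} := by
    ext a
    refine ⟨fun ha => ⟨⟨ha.1, fun x hx => ha.2 x (Subgroup.mem_sup_left hx)⟩,
      ha.2 g (Subgroup.mem_sup_right (Subgroup.mem_zpowers g))⟩, fun ha => ⟨ha.1.1, ?_⟩⟩
    let St : Subgroup P := (MulAction.stabilizer (Equiv.Perm α) a).comap φ
    have hle : N ⊔ Subgroup.zpowers g ≤ St :=
      sup_le (fun x hx => ha.1.2 x hx) (Subgroup.zpowers_le.mpr ha.2)
    exact fun x hx => hle hx
  show IsAcyclicOn q (S _)
  rw [hSeq]
  refine isAcyclicOn_fixed q (φ g) (hφ g) hN (fun a ha => ⟨hS₀ g a ha.1, fun x hx => ?_⟩) fun a ha => ?_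
  · have h1 := ha.2 (g⁻¹ * x * g) ((Subgroup.mem_normalizer_iff''.mp hgn x).mp hx)
    rw [map_mul, map_mul, map_inv, Equiv.Perm.mul_apply, Equiv.Perm.mul_apply] at h1
    exact Equiv.Perm.inv_eq_iff_eq.mp h1 |>.symm ▸ rfl
  · have h1 := ha.2 _ hgq
    rwa [map_pow, Equiv.Perm.coe_pow] at h1

/-- **Smith theory.** If the order complex is acyclic modulo `q` then so is that of the fixed
points of a `q`-group of automorphisms. -/
theorem isAcyclicOn_fixedPoints {P : Type*} [Group P] [Finite P] (hP : IsPGroup q P)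
    (φ : P →* Equiv.Perm α) (hφ : ∀ x a b, φ x a ≤ φ x b ↔ a ≤ b)
    (h : IsAcyclicOn q (Set.univ : Set α)) :
    IsAcyclicOn q {a | ∀ x, φ x a = a} := by
  simpa using isAcyclicOn_fixedPoints_of_invariant q hP φ hφ (S₀ := Set.univ)
    (fun _ _ _ => Set.mem_univ _) h

omit [Finite α] in
/-- A nonzero cycle in the top degree prevents acyclicity. -/
theorem not_isAcyclicOn_of_cycle [Finite α] {S : Set α} {r : ℕ}
    (hr : ∀ σ : Chain α, (σ.1 : Set α) ⊆ S → #σ.1 ≤ r) (z : Chain α →₀ ZMod q)
    (hz : ∀ σ ∈ z.support, (σ.1 : Set α) ⊆ S ∧ #σ.1 = r) (hcycle : modBoundary q α z = 0)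
    (hne : z ≠ 0) : ¬ IsAcyclicOn q S := by
  classical
  intro h
  have hmem : z ∈ chainsIn q S ⊓ LinearMap.ker (modBoundary q α) := ⟨fun σ hσ => (hz σ hσ).1, hcycle⟩
  rw [← map_eq_inf_ker (modBoundary q α) (modBoundary_modBoundary_apply q) (map_chainsIn_le q S) h]
    at hmem
  obtain ⟨y, hy, rfl⟩ := hmem
  refine hne (Finsupp.ext fun σ => ?_)
  by_contra hσ
  have hσr := (hz σ (Finsupp.mem_support_iff.mpr hσ)).2
  have hlow : (chainsIn q S).map (modBoundary q α) ≤
      Finsupp.supported (ZMod q) (ZMod q) {τ : Chain α | #τ.1 < r} := by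
    rw [chainsIn, Finsupp.supported_eq_span_single, Submodule.map_span, Submodule.span_le]
    rintro _ ⟨_, ⟨τ, hτ, rfl⟩, rfl⟩
    rw [modBoundary_single]
    refine Submodule.sum_mem _ fun v hv => Submodule.smul_mem _ _
      (Finsupp.single_mem_supported _ _ ?_)
    exact lt_of_lt_of_le (card_erase_lt_of_mem hv) (hr τ hτ)
  have := hlow ⟨y, hy, rfl⟩ (Finsupp.mem_support_iff.mpr hσ)
  simp only [Set.mem_setOf_eq, hσr] at this
  exact lt_irrefl r this

omit [Finite α] in
/-- Exactness everywhere is acyclicity. -/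
theorem isAcyclicOn_univ [Finite α]
    (h : LinearMap.ker (modBoundary q α) ≤ LinearMap.range (modBoundary q α)) :
    IsAcyclicOn q (Set.univ : Set α) := by
  have hu : chainsIn q (Set.univ : Set α) = ⊤ := by
    rw [chainsIn, show {σ : Chain α | (σ.1 : Set α) ⊆ Set.univ} = Set.univ from
      Set.eq_univ_of_forall fun σ => Set.subset_univ _, Finsupp.supported_univ]
  have e : LinearMap.range (modBoundary q α) = LinearMap.ker (modBoundary q α) :=
    le_antisymm (by rintro _ ⟨x, rfl⟩; exact modBoundary_modBoundary_apply q x) h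
  have := LinearMap.finrank_range_add_finrank_ker (modBoundary q α)
  rw [← e] at this
  rw [IsAcyclicOn, homDim, hu, Submodule.map_top, finrank_top]
  omega

end SmithTheory

end Vale.Agent.P240
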