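import Vale.Agent.P240.Alternating
import Vale.Agent.P240.Smith

/-!
# The top cycle of a frame

A family of pairs of elements of order `p`, commuting exactly across different pairs, spans the
barycentric subdivision of a sphere in the poset of elementary abelian `p`-subgroups.
-/

open Finset

namespace Vale.Agent.P240

variable {G : Type*} [Group G] {p m : ℕ}

/-- The subgroup spanned by a choice from some pairs of a frame. -/
def frameSub (e : Fin m → Bool → G) (s : Finset (Fin m)) (ε : Fin m → Bool) : Subgroup G :=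
  Subgroup.closure ((fun i => e i (ε i)) '' (s : Set (Fin m)))

/-- The first `j + 1` indices of an ordering. -/
def prefixSet (π : Equiv.Perm (Fin m)) (j : Fin m) : Finset (Fin m) :=
  (Finset.Iic j).map π.toEmbedding

lemma mem_prefixSet {π : Equiv.Perm (Fin m)} {j i : Fin m} :
    i ∈ prefixSet π j ↔ π.symm i ≤ j := by
  simp [prefixSet, mem_map_equiv]

lemma card_prefixSet (π : Equiv.Perm (Fin m)) (j : Fin m) : #(prefixSet π j) = (j : ℕ) + 1 := by
  simp [prefixSet]

variable {e : Fin m → Bool → G} (hcross : ∀ i j s t, i ≠ j → e i s * e j t = e j t * e i s)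
  (hpair : ∀ i, e i false * e i true ≠ e i true * e i false)

include hcross hpair

/-- A frame element in a span is one of its generators. -/
lemma mem_of_mem_frameSub {t : Finset (Fin m)} {δ : Fin m → Bool} {i : Fin m} {s : Bool}
    (h : e i s ∈ frameSub e t δ) : i ∈ t ∧ δ i = s := by
  by_contra hno
  have hle : frameSub e t δ ≤ Subgroup.centralizer {e i (!s)} := by
    refine (Subgroup.closure_le _).mpr ?_
    rintro _ ⟨j, hj, rfl⟩
    rw [SetLike.mem_coe, Subgroup.mem_centralizer_singleton_iff]
    rcases eq_or_ne j i with rfl | hne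
    · have : δ j = !s := by
        cases hδ : δ j <;> cases s <;> first | rfl | exact absurd ⟨hj, hδ⟩ hno
      show e j (δ j) * _ = _ * e j (δ j)
      rw [this]
    · exact hcross j i _ _ hne
  have h1 : e i s * e i (!s) = e i (!s) * e i s := Subgroup.mem_centralizer_singleton_iff.mp (hle h)
  cases s
  · exact hpair i h1
  · exact hpair i h1.symm

/-- Spans determine their indices and choices. -/
lemma frameSub_inj {s t : Finset (Fin m)} {ε δ : Fin m → Bool}
    (h : frameSub e s ε = frameSub e t δ) : s = t ∧ ∀ i ∈ s, ε i = δ i := by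
  have h1 : ∀ i ∈ s, i ∈ t ∧ δ i = ε i := fun i hi =>
    mem_of_mem_frameSub hcross hpair (h ▸ Subgroup.subset_closure ⟨i, hi, rfl⟩)
  have h2 : ∀ i ∈ t, i ∈ s ∧ ε i = δ i := fun i hi =>
    mem_of_mem_frameSub hcross hpair (h ▸ Subgroup.subset_closure ⟨i, hi, rfl⟩)
  exact ⟨Finset.ext fun i => ⟨fun hi => (h1 i hi).1, fun hi => (h2 i hi).1⟩,
    fun i hi => (h1 i hi).2.symm⟩

lemma frameSub_ne_bot {s : Finset (Fin m)} (ε : Fin m → Bool) (hs : s.Nonempty) :
    frameSub e s ε ≠ ⊥ := by
  obtain ⟨i, hi⟩ := hs
  intro h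
  have h1 : e i (ε i) = 1 := (Subgroup.eq_bot_iff_forall _).mp h _
    (Subgroup.subset_closure ⟨i, hi, rfl⟩)
  cases hε : ε i <;> rw [hε] at h1 <;> exact hpair i (by simp [h1])

variable (hpow : ∀ i s, e i s ^ p = 1)

omit hpair in
include hpow in
lemma frameSub_elemAbelian (s : Finset (Fin m)) (ε : Fin m → Bool) :
    (∀ x ∈ frameSub e s ε, x ^ p = 1) ∧
      ∀ x ∈ frameSub e s ε, ∀ y ∈ frameSub e s ε, x * y = y * x := by
  have hc : ∀ x ∈ frameSub e s ε, ∀ y ∈ frameSub e s ε, Commute x y := by
    intro x hx y hy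
    induction hx using Subgroup.closure_induction with
    | mem a ha =>
      induction hy using Subgroup.closure_induction with
      | mem b hb =>
        obtain ⟨i, -, rfl⟩ := ha
        obtain ⟨j, -, rfl⟩ := hb
        rcases eq_or_ne i j with rfl | hne
        · exact Commute.refl _
        · exact hcross i j _ _ hne
      | one => exact Commute.one_right _
      | mul b c _ _ h1 h2 => exact h1.mul_right h2
      | inv b _ h1 => exact h1.inv_right
    | one => exact Commute.one_left _
    | mul a b _ _ h1 h2 => exact h1.mul_left h2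
    | inv a _ h1 => exact h1.inv_left
  refine ⟨fun x hx => ?_, fun x hx y hy => (hc x hx y hy).eq⟩
  induction hx using Subgroup.closure_induction with
  | mem a ha => obtain ⟨i, -, rfl⟩ := ha; exact hpow i _
  | one => exact one_pow p
  | mul a b ha hb h1 h2 => rw [(hc a ha b hb).mul_pow, h1, h2, one_mul]
  | inv a _ h1 => rw [inv_pow, h1, inv_one]

include hpow in
/-- The vertex of a flag of a frame. -/
lemma frameVertex_prop (π : Equiv.Perm (Fin m)) (ε : Fin m → Bool) (j : Fin m) :
    frameSub e (prefixSet π j) ε ≠ ⊥ ∧ (∀ x ∈ frameSub e (prefixSet π j) ε, x ^ p = 1) ∧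
      ∀ x ∈ frameSub e (prefixSet π j) ε, ∀ y ∈ frameSub e (prefixSet π j) ε, x * y = y * x :=
  ⟨frameSub_ne_bot hcross hpair ε ⟨π j, by simp [mem_prefixSet]⟩,
    frameSub_elemAbelian hcross hpow _ ε⟩

include hpow in
/-- **The cycle of a frame.** -/
theorem exists_frame_cycle (q : ℕ) [Fact q.Prime] (M : Subgroup G) (hM : ∀ i s, e i s ∈ M) :
    ∃ z : Chain (ElemAbelian p G) →₀ ZMod q,
      (∀ σ ∈ z.support, (σ.1 : Set (ElemAbelian p G)) ⊆ {E | E.1 ≤ M} ∧ #σ.1 = m) ∧
        modBoundary q (ElemAbelian p G) z = 0 ∧ z ≠ 0 := by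
  classical
  let X := Equiv.Perm (Fin m) × (Fin m → Bool)
  let v : X → Fin m → ElemAbelian p G := fun x j =>
    ⟨_, frameVertex_prop hcross hpair hpow x.1 x.2 j⟩
  have hvinj : ∀ x, Function.Injective (v x) := fun x a b h => by
    have h1 := congrArg Finset.card (frameSub_inj hcross hpair (congrArg Subtype.val h)).1
    rw [card_prefixSet, card_prefixSet] at h1
    exact Fin.ext (by omega)
  have hvle : ∀ x a b, a ≤ b → v x a ≤ v x b := fun x a b hab =>
    Subgroup.closure_mono (Set.image_mono (coe_subset.mpr fun i hi =>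
      mem_prefixSet.mpr ((mem_prefixSet.mp hi).trans hab)))
  let C : X → Chain (ElemAbelian p G) := fun x => ⟨univ.image (v x), by
    intro a ha b hb _
    simp only [coe_image, coe_univ, Set.image_univ, Set.mem_range] at ha hb
    obtain ⟨i, rfl⟩ := ha
    obtain ⟨j, rfl⟩ := hb
    exact (le_total i j).imp (hvle x i j) (hvle x j i)⟩
  let c : X → ZMod q := fun x =>
    ((Equiv.Perm.sign x.1 : ℤ) : ZMod q) * ∏ i, cond (x.2 i) (-1 : ZMod q) 1
  have hsign : ∀ x j, (C x).modSign q (v x j) = (-1) ^ (j : ℕ) := by
    intro x j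
    have hlt : ∀ i, v x i < v x j ↔ i < j := by
      intro i
      refine ⟨fun h => ?_, fun h => lt_of_le_of_ne (hvle x i j h.le) fun he => h.ne (hvinj x he)⟩
      by_contra hno
      exact h.not_ge (hvle x j i (not_lt.mp hno))
    simp only [Chain.modSign]
    congr 1
    rw [show (C x).1 = univ.image (v x) from rfl, filter_image, card_image_of_injective _ (hvinj x),
      filter_congr (fun i _ => hlt i), show univ.filter (fun i => i < j) = Iio j by ext; simp,
      Fin.card_Iio]
  -- removing the `j`-th vertex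
  let flip : X → Fin m → X := fun x j =>
    if h : (j : ℕ) + 1 < m then (x.1 * Equiv.swap j ⟨j + 1, h⟩, x.2)
    else (x.1, Function.update x.2 (x.1 j) (!x.2 (x.1 j)))
  have hflip2 : ∀ x j, flip (flip x j) j = x := by
    intro x j
    by_cases h : (j : ℕ) + 1 < m
    · simp [flip, h, mul_assoc]
    · simp [flip, h]
  have hflipne : ∀ x j, flip x j ≠ x := by
    intro x j hx
    by_cases h : (j : ℕ) + 1 < m
    · simp only [flip, dif_pos h] at hx
      have h1 := Equiv.congr_fun (congrArg Prod.fst hx) j
      simp [Fin.ext_iff] at h1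
    · simp only [flip, dif_neg h] at hx
      have h1 := congrFun (congrArg Prod.snd hx) (x.1 j)
      simp at h1
  have hcflip : ∀ x j, c (flip x j) = -c x := by
    intro x j
    by_cases h : (j : ℕ) + 1 < m
    · simp only [flip, dif_pos h, c]
      rw [map_mul, Equiv.Perm.sign_swap (by simp [Fin.ext_iff])]
      simp
    · simp only [flip, dif_neg h, c]
      rw [← mul_neg, ← mul_prod_erase univ _ (mem_univ (x.1 j)),
        ← mul_prod_erase univ (fun i => cond (x.2 i) (-1 : ZMod q) 1) (mem_univ (x.1 j))]
      congr 1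
      rw [prod_congr rfl fun i hi => by rw [Function.update_of_ne (ne_of_mem_erase hi)]]
      cases x.2 (x.1 j) <;> simp
  have hvflip : ∀ x j i, i ≠ j → v (flip x j) i = v x i := by
    intro x j i hij
    refine Subtype.ext ?_
    show frameSub e (prefixSet (flip x j).1 i) (flip x j).2 = frameSub e (prefixSet x.1 i) x.2
    by_cases h : (j : ℕ) + 1 < m
    · simp only [flip, dif_pos h]
      congr 1
      ext l
      rw [mem_prefixSet, mem_prefixSet]
      have hi' : (i : ℕ) ≠ j := fun he => hij (Fin.ext he)
      set a := x.1.symm l with ha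
      have : (x.1 * Equiv.swap j ⟨j + 1, h⟩).symm l = Equiv.swap j ⟨j + 1, h⟩ a := by
        rw [Equiv.symm_apply_eq, Equiv.Perm.mul_apply, Equiv.swap_apply_self, ha,
          Equiv.apply_symm_apply]
      rw [this]
      rcases eq_or_ne a j with h1 | h1
      · rw [h1, Equiv.swap_apply_left, Fin.le_def, Fin.le_def]; simp only; omega
      rcases eq_or_ne a ⟨j + 1, h⟩ with h2 | h2
      · rw [h2, Equiv.swap_apply_right, Fin.le_def, Fin.le_def]; simp only; omega
      rw [Equiv.swap_apply_of_ne_of_ne h1 h2]
    · simp only [flip, dif_neg h, frameSub]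
      congr 1
      refine Set.image_congr fun l hl => ?_
      rw [Function.update_of_ne]
      intro hlj
      rw [mem_coe, mem_prefixSet, hlj, Equiv.symm_apply_apply, Fin.le_def] at hl
      have := i.2
      exact hij (Fin.ext (by omega))
  have hrem : ∀ x j, (C (flip x j)).remove (v (flip x j) j) = (C x).remove (v x j) := by
    intro x j
    refine Subtype.ext ?_
    ext a
    simp only [Chain.remove, C, Finset.mem_erase, mem_image, mem_univ, true_and]
    constructor
    · rintro ⟨hne, i, rfl⟩
      have hij : i ≠ j := fun h => hne (by rw [h])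
      rw [hvflip x j i hij]
      exact ⟨fun h => hij (hvinj x h), i, rfl⟩
    · rintro ⟨hne, i, rfl⟩
      have hij : i ≠ j := fun h => hne (by rw [h])
      rw [← hvflip x j i hij]
      exact ⟨fun h => hij (hvinj _ h), i, rfl⟩
  -- the cycle
  refine ⟨∑ x : X, Finsupp.single (C x) (c x), fun σ hσ => ?_, ?_, ?_⟩
  · rw [Finsupp.mem_support_iff, Finsupp.finsetSum_apply] at hσ
    obtain ⟨x, -, hx⟩ := exists_ne_zero_of_sum_ne_zero hσ
    obtain ⟨rfl, -⟩ := Finsupp.single_apply_ne_zero.mp hx
    refine ⟨?_, by
      show #(univ.image (v x)) = m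
      rw [card_image_of_injective _ (hvinj x), card_univ, Fintype.card_fin]⟩
    intro E hE
    obtain ⟨j, -, rfl⟩ := mem_image.mp hE
    refine (Subgroup.closure_le _).mpr ?_
    rintro _ ⟨i, -, rfl⟩
    exact hM i _
  · rw [map_sum, sum_congr rfl fun x _ => show modBoundary q (ElemAbelian p G)
        (Finsupp.single (C x) (c x)) = ∑ j : Fin m, (c x * (-1) ^ (j : ℕ)) •
          Finsupp.single ((C x).remove (v x j)) 1 by
      rw [← Finsupp.smul_single_one, map_smul, modBoundary_single,
        show (C x).1 = univ.image (v x) from rfl, sum_image (fun a _ b _ hab => hvinj x hab),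
        smul_sum]
      simp only [hsign, smul_smul], ← sum_product']
    refine sum_involution (fun y _ => (flip y.1 y.2, y.2)) (fun y _ => ?_)
      (fun y _ _ hy => hflipne y.1 y.2 (congrArg Prod.fst hy)) (fun y _ => mem_univ _)
      fun y _ => Prod.ext (hflip2 y.1 y.2) rfl
    simp only
    rw [hrem, hcflip, ← add_smul, neg_mul, add_neg_cancel, zero_smul]
  · intro h0
    let x₀ : X := (1, fun _ => false)
    have h1 : c x₀ = 0 := by
      have h2 := congrArg (fun z => z (C x₀)) h0
      simp only [Finsupp.finsetSum_apply, Finsupp.zero_apply] at h2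
      rwa [sum_eq_single x₀ (fun x _ hne => ?_) (fun h => absurd (mem_univ x₀) h),
        Finsupp.single_eq_same] at h2
      refine Finsupp.single_eq_of_ne' fun hC => hne ?_
      have hpre : ∀ j, prefixSet x.1 j = prefixSet 1 j ∧ ∀ i ∈ prefixSet x.1 j, x.2 i = false := by
        intro j
        have hj : v x j ∈ (C x₀).1 := by rw [← hC]; exact mem_image_of_mem _ (mem_univ j)
        obtain ⟨k, -, hk⟩ := mem_image.mp hj
        obtain ⟨hs, hε⟩ := frameSub_inj hcross hpair (congrArg Subtype.val hk.symm)
        have h3 := congrArg Finset.card hs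
        rw [card_prefixSet, card_prefixSet] at h3
        obtain rfl : j = k := Fin.ext (by omega)
        exact ⟨hs, hε⟩
      have hperm : ∀ j, x.1 j = j := by
        intro j
        induction j using WellFoundedLT.induction with
        | ind j ih =>
          have h3 : x.1 j ∈ prefixSet 1 j := by
            rw [← (hpre j).1, mem_prefixSet, Equiv.symm_apply_apply]
          rw [mem_prefixSet] at h3
          change x.1 j ≤ j at h3
          rcases h3.lt_or_eq with h4 | h4
          · exact x.1.injective (ih _ h4)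
          · exact h4
      refine Prod.ext (Equiv.ext hperm) (funext fun i => (hpre i).2 i ?_)
      rw [mem_prefixSet, (Equiv.symm_apply_eq _).mpr (hperm i).symm]
    simp [c, x₀] at h1

omit hcross hpair in
/-- Chains of elementary abelian subgroups of order at most `p ^ r` have at most `r` members. -/
lemma card_chain_le [Finite G] (hp : p.Prime) {r : ℕ} (σ : Chain (ElemAbelian p G))
    (hσ : ∀ E ∈ σ.1, Nat.card E.1 ≤ p ^ r) : #σ.1 ≤ r := by
  classical
  have : Fact p.Prime := ⟨hp⟩
  have hpg : ∀ E : ElemAbelian p G, IsPGroup p E.1 := fun E x =>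
    ⟨1, Subtype.ext (by simpa using E.2.2.1 x x.2)⟩
  choose n hn using fun E : ElemAbelian p G => IsPGroup.iff_card.mp (hpg E)
  calc #σ.1 = #(σ.1.image n) := (card_image_of_injOn fun E hE F hF h => ?_).symm
    _ ≤ #(Icc 1 r) := card_le_card fun k hk => ?_
    _ = r := by simp
  · rcases σ.2.total hE hF with hle | hle
    · exact Subtype.ext (Subgroup.eq_of_le_of_card_ge hle (by rw [hn, hn, h]))
    · exact Subtype.ext (Subgroup.eq_of_le_of_card_ge hle (by rw [hn, hn, h])).symm
  · obtain ⟨E, hE, rfl⟩ := mem_image.mp hk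
    refine mem_Icc.mpr ⟨Nat.one_le_iff_ne_zero.mpr fun h0 => E.2.1 ?_,
      (Nat.pow_le_pow_iff_right hp.one_lt).mp (hn E ▸ hσ E hE)⟩
    exact Subgroup.eq_bot_of_card_eq _ (by rw [hn, h0, pow_zero])

end Vale.Agent.P240
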