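import Vale.Agent.P240.FormGroup

/-!
# The kinds of components allowed in the general theorem at the prime 2
-/

open Finset Matrix

namespace Vale.Agent.P240

/-- The conditions on Witt index `m`, anisotropic rank `k` and sign `δ`. -/
def WittParams {F : Type*} [Field F] (δ : F) (m k : ℕ) : Prop :=
  (2 ≤ m ∨ (m = 1 ∧ δ = -1 ∧ 1 ≤ k)) ∧ (δ = 1 ∨ δ = -1) ∧ (δ = 1 → k = 0 → 3 ≤ m)

/-- The element `g` acts on the image of `φ` as `f`, read through `ν`. -/
def ActsLike {G S X : Type} [Group G] [Group S] (φ : S →* G) (ν f : S → X) (g : G) : Prop :=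
  ∀ y : S, ∃ y' : S, ν y' = f y ∧ g * φ y * g⁻¹ = φ y'

/-- The semilinear conjugation `M ↦ A σ(M) A⁻¹`. -/
def semiConjugate {F ι : Type} [Field F] [Fintype ι] [DecidableEq ι] (A : GL ι F) (σ : F ≃+* F)
    (M : Matrix ι ι F) : Matrix ι ι F :=
  (A : Matrix ι ι F) * M.map σ * (A⁻¹ : GL ι F)

/-- The kernel of `φ` consists of elements whose matrices are scalar. -/
def HasScalarKer {G S F ι : Type} [Group G] [Group S] [Field F] [Fintype ι] [DecidableEq ι]
    (φ : S →* G) (ν : S → Matrix ι ι F) : Prop :=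
  ∀ s ∈ φ.ker, ∃ l : F, ν s = l • (1 : Matrix ι ι F)

/-- The element `g` has square one and normalises the image of `φ`. -/
def IsNormalisingInvolution {G S : Type} [Group G] [Group S] (φ : S →* G) (g : G) : Prop :=
  g * g = 1 ∧ ∀ y, y ∈ φ.range ↔ g * y * g⁻¹ ∈ φ.range

/-- Involutions normalising the image of `φ` act by semilinear conjugations. -/
def InvolutionsSemilinear {G S F ι : Type} [Group G] [Group S] [Field F] [Fintype ι]
    [DecidableEq ι] (φ : S →* G) (ν : S → Matrix ι ι F) : Prop :=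
  ∀ g, IsNormalisingInvolution φ g →
    ∃ (A : GL ι F) (σ : F ≃+* F), ActsLike φ ν (fun y => semiConjugate A σ (ν y)) g

/-- The component `L i` is `A_n`, involutions act on it through `S_n`, and either `r = 3` and
`n ≠ 5, 7`, or `n = r`, or no other component is isomorphic to it. -/
def IsAltComponent {G I : Type} [Group G] (r : ℕ) (L : I → Subgroup G) (i : I) : Prop :=
  ∃ (n : ℕ) (φ : alternatingGroup (Fin n) →* G), 5 ≤ n ∧ Function.Injective φ ∧ φ.range = L i ∧
    (∀ g, IsNormalisingInvolution φ g →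
      ∃ π : Equiv.Perm (Fin n), ActsLike φ (fun y => (y : Equiv.Perm (Fin n)))
        (fun y => π * (y : Equiv.Perm (Fin n)) * π⁻¹) g) ∧
    ((r = 3 ∧ n ≠ 5 ∧ n ≠ 7) ∨ n = r ∨ ∀ j, Nonempty (L i ≃* L j) → j = i)

/-- The subgroup `L` is a central quotient of `SL n F`, `F` of characteristic `r`, and every
involution normalising it acts by a semilinear conjugation, possibly after inverse
transposition. -/
def IsSLComponent {G : Type} [Group G] (r : ℕ) (L : Subgroup G) : Prop :=
  ∃ (F : Type) (_ : Field F) (_ : CharP F r) (n : ℕ)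
    (φ : Matrix.SpecialLinearGroup (Fin n) F →* G),
    2 ≤ n ∧ (n = 2 → ∃ a : F, a ≠ 0 ∧ a ≠ 1 ∧ a ≠ -1) ∧ φ.ker ≤ Subgroup.center _ ∧ φ.range = L ∧
    ∀ g, IsNormalisingInvolution φ g →
      ∃ (A : GL (Fin n) F) (σ : F ≃+* F),
        ActsLike φ (fun y => (y : Matrix (Fin n) (Fin n) F))
          (fun y => semiConjugate A σ (y : Matrix (Fin n) (Fin n) F)) g ∨
        (3 ≤ n ∧ ActsLike φ (fun y => (y : Matrix (Fin n) (Fin n) F))
          (fun y => semiConjugate A σ
            ((y⁻¹ : Matrix.SpecialLinearGroup (Fin n) F) : Matrix (Fin n) (Fin n) F).transpose) g)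

/-- The matrix of an element of a subgroup of `SL`. -/
def matrixOf {F ι : Type} [Field F] [Fintype ι] [DecidableEq ι]
    {S : Subgroup (Matrix.SpecialLinearGroup ι F)} (s : S) : Matrix ι ι F :=
  (s : Matrix.SpecialLinearGroup ι F)

/-- The subgroup `S` contains all root isometries of the form. -/
def ContainsRootIsometries {F : Type} [Field F] {m k : ℕ} (τ : F ≃+* F) (δ : F)
    (J₀ : Matrix (Fin k) (Fin k) F)
    (S : Subgroup (Matrix.SpecialLinearGroup ((Fin m ⊕ Fin m) ⊕ Fin k) F)) : Prop :=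
  ∀ g, IsRootIsometry τ δ J₀
    (g : Matrix.SpecialLinearGroup ((Fin m ⊕ Fin m) ⊕ Fin k) F).1 → g ∈ S

/-- The form given by `τ`, `δ`, `J₀` is nondegenerate and `δ`-hermitian for `τ`. -/
def IsHermitianData {F : Type} [Field F] {k : ℕ} (τ : F ≃+* F) (δ : F)
    (J₀ : Matrix (Fin k) (Fin k) F) : Prop :=
  (∀ a, τ (τ a) = a) ∧ (J₀.map τ).transpose = δ • J₀ ∧ IsUnit J₀.det

/-- The subgroup `L` is a quotient by scalars of a group of matrices containing the root
isometries of a form of positive Witt index in characteristic `r`, and involutions normalising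
it act by semilinear conjugations. -/
def IsFormComponent {G : Type} [Group G] (r : ℕ) (L : Subgroup G) : Prop :=
  ∃ (F : Type) (_ : Field F) (_ : CharP F r) (m k : ℕ) (τ : F ≃+* F) (δ : F)
    (J₀ : Matrix (Fin k) (Fin k) F)
    (S : Subgroup (Matrix.SpecialLinearGroup ((Fin m ⊕ Fin m) ⊕ Fin k) F)) (φ : S →* G),
    WittParams δ m k ∧ IsHermitianData τ δ J₀ ∧ ContainsRootIsometries τ δ J₀ S ∧
    HasScalarKer φ matrixOf ∧ φ.range = L ∧ InvolutionsSemilinear φ matrixOf

end Vale.Agent.P240
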