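import Vale.Agent.P240.Alternating

/-!
# Groups with a family of commuting components

A `q`-subgroup (times a cyclic group) of every component, normalising no nontrivial elementary
abelian `p`-subgroup of the automiser of the component, gives homology of `A_p(G)`.
-/

open Finset Equiv

namespace Vale.Agent.P240

variable {G : Type*} [Group G] [Finite G] {I : Type*} [Fintype I]

/-- **The component criterion.** -/
theorem hasHomology_of_components {p q : ℕ} (hq : q.Prime) (L : I → Subgroup G)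
    (hcomm : Pairwise fun i j => ∀ x y, x ∈ L i → y ∈ L j → Commute x y)
    (hinter : ∀ i j, i ≠ j → ∀ x, x ∈ L i → x ∈ L j → x = 1)
    (hperm : ∀ g i, ∃ j, ∀ y, y ∈ L i ↔ g * y * g⁻¹ ∈ L j)
    (hcent : ∀ g, (∀ i, ∀ y ∈ L i, g * y = y * g) → g = 1)
    (c : ∀ i, L i) (Q : ∀ i, Subgroup (L i)) (hQ : ∀ i, IsPGroup q (Q i))
    (hcQ : ∀ i, ∀ t ∈ Q i, Commute (c i) t)
    (hloc : ∀ i, ∀ E : Subgroup G, (∀ x ∈ E, x ^ p = 1) → (∀ x ∈ E, ∀ y ∈ E, x * y = y * x) →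
      (∀ x ∈ E, ∀ y, y ∈ L i ↔ x * y * x⁻¹ ∈ L i) →
      (∀ k : L i, (k = c i ∨ k ∈ Q i) → ∀ x ∈ E, ∃ e ∈ E, ∀ y ∈ L i,
        (k : G) * x * (k : G)⁻¹ * y * ((k : G) * x * (k : G)⁻¹)⁻¹ = e * y * e⁻¹) →
      ∀ x ∈ E, ∀ y ∈ L i, x * y = y * x)
    (hsep : ∀ i, Q i ≠ ⊥ ∨ ∀ j, Nonempty (L i ≃* L j) → j = i) :
    (∀ N : Subgroup G, N.Normal → IsPGroup p N → p.Prime → N = ⊥) ∧
      HasHomology (ElemAbelian p G) := by
  classical
  have : Fact q.Prime := ⟨hq⟩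
  let f : (∀ i, L i) →* G := Subgroup.noncommPiCoprod hcomm
  have hf : ∀ i (y : L i), f (Pi.mulSingle i y) = y := fun i y =>
    Subgroup.noncommPiCoprod_mulSingle (hcomm := hcomm) i y
  -- `f z` acts on `L i` as `z i`
  have hact : ∀ (z : ∀ i, L i) i (y : G), y ∈ L i →
      f z * y * (f z)⁻¹ = (z i : G) * y * (z i : G)⁻¹ := by
    intro z i y hy
    have h : z * Pi.mulSingle i ⟨y, hy⟩ * z⁻¹ =
        Pi.mulSingle i (z i * ⟨y, hy⟩ * (z i)⁻¹) := funext fun j => by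
      rcases eq_or_ne j i with rfl | hj
      · simp
      · simp [Pi.mulSingle_eq_of_ne hj]
    have h1 := congrArg f h
    rw [map_mul, map_mul, map_inv, hf, hf] at h1
    simpa using h1
  let H := Subgroup.zpowers c × ∀ i, Q i
  let π : (∀ i, Q i) →* ∀ i, L i :=
    { toFun := fun y i => (y i : L i)
      map_one' := rfl
      map_mul' := fun _ _ => rfl }
  have hcπ : ∀ (a : Subgroup.zpowers c) (y : ∀ i, Q i), Commute (a : ∀ i, L i) (π y) := by
    rintro ⟨a, k, rfl⟩ y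
    exact Commute.zpow_left (funext fun i => (hcQ i _ (y i).2).eq) k
  let ψ : H →* ∀ i, L i := (Subgroup.zpowers c).subtype.noncommCoprod π hcπ
  let c₀ : H := (⟨c, Subgroup.mem_zpowers c⟩, 1)
  have hψc : ψ c₀ = c := by
    show c * π 1 = c
    rw [map_one, mul_one]
  have hψQ : ∀ i (t : Q i), ψ (1, Pi.mulSingle i t) = Pi.mulSingle i (t : L i) := by
    intro i t
    show 1 * π _ = _
    rw [one_mul]
    funext j
    rcases eq_or_ne j i with rfl | hj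
    · simp [π]
    · simp [π, Pi.mulSingle_eq_of_ne hj]
  refine hasHomology_of_subgroup (f.comp ψ) c₀ (fun h => ?_) hq (fun h => ?_) fun E hE => ?_
  · have : h⁻¹ * c₀ * h = c₀ := by
      obtain ⟨⟨a, k, rfl⟩, y⟩ := h
      refine Prod.ext (Subtype.ext ?_) ?_
      · show (c ^ k)⁻¹ * c * c ^ k = c
        rw [mul_assoc, (Commute.self_zpow c k).eq, inv_mul_cancel_left]
      · show y⁻¹ * 1 * y = 1
        group
    rw [this]
    exact Subgroup.mem_zpowers _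
  · choose k hk using fun i => hQ i (h.2 i)
    refine ⟨∑ i, k i, ?_⟩
    obtain ⟨⟨a, l, rfl⟩, y⟩ := h
    have hy : y ^ q ^ ∑ i, k i = 1 := funext fun i => by
      obtain ⟨d, hd⟩ := pow_dvd_pow q (single_le_sum (fun j _ => Nat.zero_le (k j)) (mem_univ i))
      have h1 : y i ^ q ^ k i = 1 := hk i
      rw [Pi.pow_apply, hd, pow_mul, h1, one_pow]
      rfl
    refine ⟨l * (q ^ ∑ i, k i : ℕ), ?_⟩
    show c₀ ^ (l * ((q ^ ∑ i, k i : ℕ) : ℤ)) = _
    have h0 : c₀ = ((⟨c, Subgroup.mem_zpowers c⟩, 1) : H) := rfl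
    rw [h0, zpow_mul, zpow_natCast]
    refine Prod.ext (Subtype.ext ?_) ?_
    · show (c ^ l) ^ (q ^ ∑ i, k i) = (c ^ l) ^ (q ^ ∑ i, k i)
      rfl
    · show ((1 : ∀ i, Q i) ^ l) ^ (q ^ ∑ i, k i) = y ^ (q ^ ∑ i, k i)
      rw [one_zpow, one_pow, hy]
  -- the elements normalising every component
  let N₀ : Subgroup G :=
    { carrier := {x | ∀ i y, y ∈ L i ↔ x * y * x⁻¹ ∈ L i}
      one_mem' := fun i y => by simp
      mul_mem' := fun {a b} ha hb i y => by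
        rw [hb i y, ha i]; simp [mul_assoc]
      inv_mem' := fun {a} ha i y => by
        rw [ha i (a⁻¹ * y * a⁻¹⁻¹)]; simp [mul_assoc] }
  have hfN : ∀ z, f z ∈ N₀ := by
    intro z i y
    constructor
    · intro hy
      rw [hact z i y hy]
      exact mul_mem (mul_mem (z i).2 hy) (inv_mem (z i).2)
    · intro hy
      have h := hact z⁻¹ i _ hy
      rw [map_inv] at h
      have e : y = (f z)⁻¹ * (f z * y * (f z)⁻¹) * (f z)⁻¹⁻¹ := by group
      rw [e, h]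
      exact mul_mem (mul_mem (z⁻¹ i).2 hy) (inv_mem (z⁻¹ i).2)
  have hN₀ : ∀ g, ∀ x ∈ N₀, g * x * g⁻¹ ∈ N₀ := by
    intro g x hx i y
    obtain ⟨j, hj⟩ := hperm g⁻¹ i
    rw [hj, hx j, hj (g * x * g⁻¹ * y * _)]
    simp [mul_assoc]
  set E₀ := E.1 ⊓ N₀
  have hE₀c : ∀ x ∈ E₀, x = 1 := by
    intro x hx
    refine hcent x fun i y hy => ?_
    refine hloc i E₀ (fun a ha => E.2.2.1 a ha.1) (fun a ha b hb => E.2.2.2 a ha.1 b hb.1)
      (fun a ha => ha.2 i) (fun k hk a ha => ?_) x hx y hy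
    obtain ⟨h, hh⟩ : ∃ h, ψ h i = k := by
      rcases hk with rfl | hk
      · exact ⟨c₀, congrFun hψc i⟩
      · exact ⟨(1, Pi.mulSingle i ⟨k, hk⟩), by rw [hψQ]; simp⟩
    refine ⟨f (ψ h) * a * (f (ψ h))⁻¹, ⟨(hE h a).mp ha.1, hN₀ _ a ha.2⟩, fun y hy => ?_⟩
    subst hh
    have h1 : (ψ h i : G)⁻¹ * y * (ψ h i : G) ∈ L i :=
      mul_mem (mul_mem (inv_mem (ψ h i).2) hy) (ψ h i).2
    have h2 : (f (ψ h))⁻¹ * y * f (ψ h) = (ψ h i : G)⁻¹ * y * (ψ h i : G) := by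
      have := hact (ψ h)⁻¹ i y hy
      simpa using this
    have h3 := hact (ψ h) i _ ((ha.2 i _).mp h1)
    symm
    calc f (ψ h) * a * (f (ψ h))⁻¹ * y * (f (ψ h) * a * (f (ψ h))⁻¹)⁻¹
        = f (ψ h) * (a * ((f (ψ h))⁻¹ * y * f (ψ h)) * a⁻¹) * (f (ψ h))⁻¹ := by group
      _ = (ψ h i : G) * (a * ((ψ h i : G)⁻¹ * y * ψ h i) * a⁻¹) * (ψ h i : G)⁻¹ := by rw [h2, h3]
      _ = (ψ h i : G) * a * (ψ h i : G)⁻¹ * y * ((ψ h i : G) * a * (ψ h i : G)⁻¹)⁻¹ := by group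
  have hcentral : ∀ x ∈ E.1, ∀ h, x * f (ψ h) = f (ψ h) * x := by
    intro x hx h
    have h1 : x * (f (ψ h) * x⁻¹ * (f (ψ h))⁻¹) ∈ E.1 :=
      mul_mem hx ((hE h _).mp (inv_mem hx))
    have h2 : x * (f (ψ h) * x⁻¹ * (f (ψ h))⁻¹) ∈ N₀ := by
      have : x * (f (ψ h) * x⁻¹ * (f (ψ h))⁻¹) = x * f (ψ h) * x⁻¹ * (f (ψ h))⁻¹ := by group
      rw [this]
      exact mul_mem (hN₀ x _ (hfN _)) (inv_mem (hfN _))
    have h3 := hE₀c _ ⟨h1, h2⟩
    calc x * f (ψ h) = x * (f (ψ h) * x⁻¹ * (f (ψ h))⁻¹) * (f (ψ h) * x) := by group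
      _ = f (ψ h) * x := by rw [h3, one_mul]
  refine E.2.1 ((Subgroup.eq_bot_iff_forall _).mpr fun x hx => hE₀c x ⟨hx, fun i y => ?_⟩)
  obtain ⟨j, hj⟩ := hperm x i
  suffices j = i by subst this; exact hj y
  rcases hsep i with hQi | huniq
  · obtain ⟨t, ht, ht1⟩ : ∃ t ∈ Q i, t ≠ 1 := by
      by_contra h
      push Not at h
      exact hQi ((Subgroup.eq_bot_iff_forall _).mpr h)
    have h1 := hcentral x hx (1, Pi.mulSingle i ⟨t, ht⟩)
    rw [hψQ, hf] at h1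
    have h2 : (t : G) ∈ L j := by
      have := (hj t).mp t.2
      rwa [h1, mul_inv_cancel_right] at this
    by_contra hne
    exact ht1 (Subtype.ext (hinter i j (Ne.symm hne) _ t.2 h2))
  · refine huniq j ⟨MulEquiv.ofBijective
      ({ toFun := fun y => ⟨x * y * x⁻¹, (hj y).mp y.2⟩
         map_one' := Subtype.ext (by simp)
         map_mul' := fun a b => Subtype.ext (by simp [mul_assoc]) } : L i →* L j)
      ⟨fun a b hab => Subtype.ext (by simpa using congrArg Subtype.val hab), fun b => ?_⟩⟩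
    exact ⟨⟨x⁻¹ * b * x, (hj _).mpr (by simp [mul_assoc])⟩, Subtype.ext (by simp [mul_assoc])⟩

end Vale.Agent.P240
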