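import Mathlib

/-!
# Frames for an elementary abelian group acting faithfully on a nilpotent group of coprime order

A frame is a family of pairs of elements of order `p`, commuting exactly when they come from
different pairs. It spans a sphere in the poset of elementary abelian `p`-subgroups.
-/

open Finset

namespace Vale.Agent.P240

variable {G : Type*} [Group G] [Finite G] {p : ℕ} [hp : Fact p.Prime]

/-- A fixed coset of a subgroup of coprime order contains a fixed element. -/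
lemma exists_fixed_in_coset {X W Z : Subgroup G} (hX : IsPGroup p X) (hWZ : W ≤ Z)
    (hWc : (Nat.card W).Coprime p) (hXW : ∀ x ∈ X, ∀ w ∈ W, x * w * x⁻¹ ∈ W) {z : G}
    (hz : z ∈ Z) (hfix : ∀ x ∈ X, z⁻¹ * (x * z * x⁻¹) ∈ W) :
    ∃ z' ∈ Z, z⁻¹ * z' ∈ W ∧ ∀ x ∈ X, x * z' = z' * x := by
  let S := {y : G // z⁻¹ * y ∈ W}
  have hmem : ∀ (x : X) (s : S), z⁻¹ * (x * s.1 * (x : G)⁻¹) ∈ W := by
    rintro ⟨x, hx⟩ ⟨y, hy⟩
    have : z⁻¹ * (x * y * x⁻¹) = z⁻¹ * (x * z * x⁻¹) * (x * (z⁻¹ * y) * x⁻¹) := by group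
    rw [this]
    exact mul_mem (hfix x hx) (hXW x hx _ hy)
  let _ : MulAction X S :=
    { smul := fun x s => ⟨x * s.1 * (x : G)⁻¹, hmem x s⟩
      one_smul := fun s => Subtype.ext (show ((1 : X) : G) * s.1 * ((1 : X) : G)⁻¹ = s.1 by simp)
      mul_smul := fun a b s => Subtype.ext (show ((a * b : X) : G) * s.1 * ((a * b : X) : G)⁻¹ =
        (a : G) * ((b : G) * s.1 * (b : G)⁻¹) * (a : G)⁻¹ by simp [mul_assoc]) }
  have hcard : Nat.card S = Nat.card W := Nat.card_congr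
    { toFun := fun s => ⟨z⁻¹ * s.1, s.2⟩
      invFun := fun w => ⟨z * w.1, by rw [inv_mul_cancel_left]; exact w.2⟩
      left_inv := fun s => Subtype.ext (by simp)
      right_inv := fun w => Subtype.ext (by simp) }
  obtain ⟨s, hs⟩ := hX.nonempty_fixed_point_of_prime_not_dvd_card S
    (hcard ▸ (hp.out.coprime_iff_not_dvd.mp hWc.symm))
  refine ⟨s.1, ?_, s.2, fun x hx => ?_⟩
  · simpa using mul_mem hz (hWZ s.2)
  · have := congrArg Subtype.val (hs ⟨x, hx⟩)
    change x * s.1 * x⁻¹ = s.1 at this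
    rwa [mul_inv_eq_iff_eq_mul] at this

omit [Finite G] hp in
/-- Equal `p`-th powers are equal in coprime order. -/
lemma eq_one_of_pow_eq_one {W : Subgroup G} (hW : (Nat.card W).Coprime p) {w : G} (hw : w ∈ W)
    (h : w ^ p = 1) : w = 1 := by
  have h1 : orderOf (⟨w, hw⟩ : W) ∣ Nat.gcd (Nat.card W) p :=
    Nat.dvd_gcd (orderOf_dvd_natCard _) (orderOf_dvd_of_pow_eq_one (Subtype.ext (by simpa using h)))
  rw [Nat.coprime_iff_gcd_eq_one.mp hW, Nat.dvd_one, orderOf_eq_one_iff] at h1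
  exact congrArg Subtype.val h1

section Hyperplane

variable {V : Type*} [CommGroup V] [Finite V]

/-- The averaging identity: with all proper overgroups fixed, `v ^ p` is fixed. -/
lemma average_fixed {A : Type*} [CommGroup A] (ψ : A → V →* V)
    (hψ1 : ∀ v, ψ 1 v = v) (hψ : ∀ a b v, ψ (a * b) v = ψ a (ψ b v))
    (hA : ∀ a : A, a ^ p = 1) (h b : A) (v : V)
    (hline : ∀ i : ℕ, ψ h (∏ j : ZMod p, ψ ((h ^ i * b) ^ j.val) v) =
      ∏ j : ZMod p, ψ ((h ^ i * b) ^ j.val) v) :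
    ψ h (v ^ p) = v ^ p := by
  classical
  have hpow : ∀ (a : A) (n : ℕ) (x : ZMod p), (n : ZMod p) = x → a ^ n = a ^ x.val := by
    rintro a n x rfl
    rw [ZMod.val_natCast]
    exact pow_eq_pow_mod n (hA a)
  have hshift : ∀ w : V, ψ h (∏ i : ZMod p, ψ (h ^ i.val) w) = ∏ i : ZMod p, ψ (h ^ i.val) w := by
    intro w
    rw [map_prod]
    refine Fintype.prod_equiv (Equiv.addRight 1) _ _ fun i => ?_
    rw [← hψ, ← pow_succ', hpow h (i.val + 1) (i + 1) (by simp)]
    rfl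
  have hprod : ∏ i : ZMod p, ∏ j : ZMod p, ψ ((h ^ i.val * b) ^ j.val) v =
      v ^ p * ∏ j ∈ univ.erase (0 : ZMod p), ∏ i : ZMod p, ψ (h ^ i.val) (ψ (b ^ j.val) v) := by
    rw [prod_comm, ← mul_prod_erase univ _ (mem_univ (0 : ZMod p))]
    congr 1
    · simp [hψ1]
    · refine prod_congr rfl fun j hj => ?_
      refine Fintype.prod_equiv (Equiv.mulRight₀ j (ne_of_mem_erase hj)) _ _ fun i => ?_
      rw [mul_pow, hψ, ← pow_mul, hpow h (i.val * j.val) (i * j) (by simp)]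
      rfl
  have h2 : ψ h (∏ i : ZMod p, ∏ j : ZMod p, ψ ((h ^ i.val * b) ^ j.val) v) =
      ∏ i : ZMod p, ∏ j : ZMod p, ψ ((h ^ i.val * b) ^ j.val) v := by
    rw [map_prod]
    exact prod_congr rfl fun i _ => hline i.val
  rw [hprod, map_mul, map_prod, prod_congr rfl fun j _ => hshift (ψ (b ^ j.val) v)] at h2
  exact mul_right_cancel h2

end Hyperplane

variable {E : Subgroup G} (hEp : ∀ a ∈ E, a ^ p = 1) (hEc : ∀ a ∈ E, ∀ b ∈ E, a * b = b * a)

include hEp in
omit [Finite G] in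
lemma isPGroup_of_le {X : Subgroup G} (hX : X ≤ E) : IsPGroup p X := fun x =>
  ⟨1, Subtype.ext (by simpa using hEp x (hX x.2))⟩

include hEp hEc

/-- An element centralising `W` and not centralising `Z`, with `Z/W` commutative, moves some
element of `Z` centralised by a hyperplane of `E`. -/
theorem exists_hyperplane_witness {W Z : Subgroup G} (hWZ : W ≤ Z)
    (hZc : (Nat.card Z).Coprime p) (hEW : ∀ a ∈ E, ∀ w ∈ W, a * w * a⁻¹ ∈ W)
    (hEZ : ∀ a ∈ E, ∀ z ∈ Z, a * z * a⁻¹ ∈ Z) (hZW : ∀ z ∈ Z, ∀ w ∈ W, z * w * z⁻¹ ∈ W)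
    (hZZ : ∀ a ∈ Z, ∀ b ∈ Z, a * b * a⁻¹ * b⁻¹ ∈ W) {h : G} (hh : h ∈ E)
    (hhW : ∀ w ∈ W, h * w = w * h) (hhZ : ∃ z ∈ Z, h * z ≠ z * h) :
    ∃ D : Subgroup G, D ≤ E ∧ ∃ k ∈ Z, (∀ a ∈ D, a * k = k * a) ∧ h * k ≠ k * h ∧
      ∀ b ∈ E, ∃ i : ℕ, b * (h ^ i)⁻¹ ∈ D := by
  classical
  obtain ⟨D, hD, hmax⟩ := Set.Finite.exists_maximal
    (Set.toFinite {D : Subgroup G | D ≤ E ∧ ∃ k ∈ Z, (∀ a ∈ D, a * k = k * a) ∧ h * k ≠ k * h})
    ⟨⊥, bot_le, hhZ.choose, hhZ.choose_spec.1,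
      fun a ha => by rw [Subgroup.mem_bot.mp ha, one_mul, mul_one], hhZ.choose_spec.2⟩
  obtain ⟨hDE, k, hk, hkD, hkh⟩ := hD
  refine ⟨D, hDE, k, hk, hkD, hkh, fun b hb => ?_⟩
  by_contra hno
  push Not at hno
  have hWc : (Nat.card W).Coprime p := hZc.coprime_dvd_left (Subgroup.card_dvd_of_le hWZ)
  set W' := W.subgroupOf Z
  have hW'n : W'.Normal := ⟨fun w hw z => hZW z z.2 w hw⟩
  let _ : CommGroup (Z ⧸ W') :=
    { (inferInstance : Group (Z ⧸ W')) with
      mul_comm := fun a b => by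
        obtain ⟨a, rfl⟩ := QuotientGroup.mk'_surjective W' a
        obtain ⟨b, rfl⟩ := QuotientGroup.mk'_surjective W' b
        rw [← map_mul, ← map_mul]
        refine (QuotientGroup.eq).mpr ?_
        show ((a : G) * b)⁻¹ * ((b : G) * a) ∈ W
        have := hZZ _ (inv_mem b.2) _ (inv_mem a.2)
        simpa [mul_assoc] using this }
  let conjZ : E → Z →* Z := fun a =>
    { toFun := fun z => ⟨a * z * (a : G)⁻¹, hEZ a a.2 z z.2⟩
      map_one' := Subtype.ext (by simp)
      map_mul' := fun y z => Subtype.ext (by simp [mul_assoc]) }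
  let ψ : E → (Z ⧸ W') →* (Z ⧸ W') := fun a =>
    QuotientGroup.map W' W' (conjZ a) fun w hw => hEW a a.2 w hw
  have hψmk : ∀ (a : E) (z : Z), ψ a (QuotientGroup.mk' W' z) = QuotientGroup.mk' W' (conjZ a z) :=
    fun a z => rfl
  have hψ1 : ∀ v, ψ 1 v = v := fun v => by
    obtain ⟨z, rfl⟩ := QuotientGroup.mk'_surjective W' v
    rw [hψmk]; congr 1; exact Subtype.ext (by simp [conjZ])
  have hψ : ∀ a b v, ψ (a * b) v = ψ a (ψ b v) := fun a b v => by
    obtain ⟨z, rfl⟩ := QuotientGroup.mk'_surjective W' v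
    simp only [hψmk]; congr 1; exact Subtype.ext (by simp [conjZ, mul_assoc])
  have hfixiff : ∀ (a : E) (z : Z), ψ a (QuotientGroup.mk' W' z) = QuotientGroup.mk' W' z ↔
      (z : G)⁻¹ * ((a : G) * z * (a : G)⁻¹) ∈ W := fun a z => by
    rw [hψmk, eq_comm]
    exact QuotientGroup.eq
  let E' : CommGroup E := { (inferInstance : Group E) with
    mul_comm := fun a b => Subtype.ext (hEc a a.2 b b.2) }
  -- a proper overgroup of `D` fixes only what `h` fixes
  have key : ∀ (x : E) (v : Z ⧸ W'), (x : G) ∉ D → (∀ a : E, (a : G) ∈ D → ψ a v = v) →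
      ψ x v = v → ψ ⟨h, hh⟩ v = v := by
    intro x v hx hDv hxv
    obtain ⟨z, rfl⟩ := QuotientGroup.mk'_surjective W' v
    set X := D ⊔ Subgroup.zpowers (x : G)
    have hXE : X ≤ E := sup_le hDE (Subgroup.zpowers_le.mpr x.2)
    have hXfix : ∀ a, a ∈ X → (z : G)⁻¹ * (a * z * a⁻¹) ∈ W := by
      intro a ha
      let F : Subgroup E :=
        { carrier := {a | ψ a (QuotientGroup.mk' W' z) = QuotientGroup.mk' W' z}
          one_mem' := hψ1 _
          mul_mem' := fun {a b} ha hb => by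
            show ψ (a * b) _ = _
            rw [hψ, show ψ b _ = _ from hb, show ψ a _ = _ from ha]
          inv_mem' := fun {a} ha => by
            show ψ a⁻¹ _ = _
            conv_lhs => rw [← show ψ a (QuotientGroup.mk' W' z) = _ from ha]
            rw [← hψ, inv_mul_cancel, hψ1] }
      have hle : X ≤ F.map E.subtype := sup_le (fun d hd => ⟨⟨d, hDE hd⟩, hDv ⟨d, hDE hd⟩ hd, rfl⟩)
        (Subgroup.zpowers_le.mpr ⟨x, hxv, rfl⟩)
      obtain ⟨a, haF, rfl⟩ := hle ha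
      exact (hfixiff a z).mp haF
    obtain ⟨z', hz', hzz', hz'fix⟩ := exists_fixed_in_coset (isPGroup_of_le hEp hXE) hWZ hWc
      (fun a ha w hw => hEW a (hXE ha) w hw) z.2 hXfix
    have hcomm : h * z' = z' * h := by
      by_contra hne
      refine hx ?_
      exact hmax ⟨hXE, z', hz', hz'fix, hne⟩ le_sup_left
        (Subgroup.mem_sup_right (Subgroup.mem_zpowers _))
    have hmk : QuotientGroup.mk' W' z = QuotientGroup.mk' W' ⟨z', hz'⟩ :=
      QuotientGroup.eq.mpr (by exact hzz')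
    rw [hmk, hψmk]
    congr 1
    exact Subtype.ext (show h * z' * h⁻¹ = z' by rw [hcomm, mul_inv_cancel_right])
  set v := QuotientGroup.mk' W' ⟨k, hk⟩
  have hDv : ∀ a : E, (a : G) ∈ D → ψ a v = v := fun a ha => by
    rw [hψmk]; congr 1
    exact Subtype.ext (show (a : G) * k * (a : G)⁻¹ = k by rw [hkD a ha, mul_inv_cancel_right])
  have hEpow : ∀ a : E, a ^ p = 1 := fun a => Subtype.ext (by simpa using hEp a a.2)
  have hvp : ψ ⟨h, hh⟩ (v ^ p) = v ^ p := by
    refine average_fixed (A := E) ψ hψ1 hψ hEpow ⟨h, hh⟩ ⟨b, hb⟩ v fun i => ?_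
    set a : E := ⟨h, hh⟩ ^ i * ⟨b, hb⟩
    refine key a _ ?_ (fun d hd => ?_) ?_
    · show h ^ i * b ∉ D
      intro hD'
      refine hno ((p - 1) * i) ?_
      have e : (h ^ ((p - 1) * i))⁻¹ = h ^ i := inv_eq_of_mul_eq_one_right (by
        rw [← pow_add, show (p - 1) * i + i = p * i by
          rw [← Nat.succ_mul]; congr 1; have := hp.out.pos; omega, pow_mul, hEp h hh, one_pow])
      rw [e, hEc b hb _ (pow_mem hh i)]
      exact hD'
    · rw [map_prod]
      exact prod_congr rfl fun j _ => by rw [← hψ, mul_comm, hψ, hDv d hd]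
    · rw [map_prod]
      refine Fintype.prod_equiv (Equiv.addRight 1) _ _ fun j => ?_
      rw [← hψ, ← pow_succ']
      congr 2
      rw [pow_eq_pow_mod _ (hEpow a)]
      congr 1
      show _ = (j + 1).val
      rw [ZMod.val_add, ZMod.val_one]
  rw [map_pow] at hvp
  have hVc : (Nat.card (Z ⧸ W')).Coprime p :=
    hZc.coprime_dvd_left (Subgroup.card_quotient_dvd_card W')
  have hv := (powCoprime hVc).injective hvp
  set w := k⁻¹ * (h * k * h⁻¹)
  have hw : w ∈ W := (hfixiff _ _).mp hv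
  have hconj : ∀ n : ℕ, h ^ n * k = k * w ^ n * h ^ n := by
    intro n
    induction n with
    | zero => simp
    | succ n ih =>
      have hwn : h * w ^ n = w ^ n * h := hhW _ (pow_mem hw n)
      calc h ^ (n + 1) * k = h * (h ^ n * k) := by rw [pow_succ', mul_assoc]
        _ = h * k * (w ^ n * h ^ n) := by rw [ih]; group
        _ = k * w * h * (w ^ n * h ^ n) := by
          congr 1
          show h * k = k * (k⁻¹ * (h * k * h⁻¹)) * h
          group
        _ = k * w * (h * w ^ n) * h ^ n := by group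
        _ = k * w ^ (n + 1) * h ^ (n + 1) := by rw [hwn, pow_succ', pow_succ']; group
  have h1 := hconj p
  rw [hEp h hh, one_mul, mul_one] at h1
  have h2 : w = 1 := eq_one_of_pow_eq_one hWc hw (mul_left_cancel (a := k) (by rw [← h1, mul_one]))
  refine hkh ?_
  calc h * k = k * w * h := by show _ = k * (k⁻¹ * (h * k * h⁻¹)) * h; group
    _ = k * h := by rw [h2, mul_one]

omit hEp hEc hp in
/-- A layer of `K` on which some element of `U` acts nontrivially, above one centralised by `U`. -/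
theorem exists_layer (U : Set G) {K : Subgroup G} [Group.IsNilpotent K]
    (hEK : ∀ a ∈ E, ∀ y ∈ K, a * y * a⁻¹ ∈ K) (hU : ∃ a ∈ U, ∃ y ∈ K, a * y ≠ y * a) :
    ∃ W Z : Subgroup G, W ≤ Z ∧ Z ≤ K ∧ (∀ a ∈ E, ∀ w ∈ W, a * w * a⁻¹ ∈ W) ∧
      (∀ a ∈ E, ∀ z ∈ Z, a * z * a⁻¹ ∈ Z) ∧ (∀ y ∈ K, ∀ w ∈ W, y * w * y⁻¹ ∈ W) ∧
      (∀ z ∈ Z, ∀ y ∈ K, z * y * z⁻¹ * y⁻¹ ∈ W) ∧ (∀ a ∈ U, ∀ w ∈ W, a * w = w * a) ∧
      ∃ a ∈ U, ∃ z ∈ Z, a * z ≠ z * a := by
  classical
  obtain ⟨W, hW, hmax⟩ := Set.Finite.exists_maximal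
    (Set.toFinite {W : Subgroup G | W ≤ K ∧ (∀ y ∈ K, ∀ w ∈ W, y * w * y⁻¹ ∈ W) ∧
      (∀ a ∈ E, ∀ w ∈ W, a * w * a⁻¹ ∈ W) ∧ ∀ a ∈ U, ∀ w ∈ W, a * w = w * a})
    ⟨⊥, bot_le, fun _ _ w hw => by simp [Subgroup.mem_bot.mp hw],
      fun _ _ w hw => by simp [Subgroup.mem_bot.mp hw],
      fun _ _ w hw => by simp [Subgroup.mem_bot.mp hw]⟩
  obtain ⟨hWK, hKW, hEW, hUW⟩ := hW
  set W' := W.subgroupOf K
  have hW'n : W'.Normal := ⟨fun w hw y => hKW y y.2 w hw⟩
  set Z' := (Subgroup.center (K ⧸ W')).comap (QuotientGroup.mk' W')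
  set Z := Z'.map K.subtype
  have hmemZ : ∀ z : G, z ∈ Z ↔ z ∈ K ∧ ∀ y ∈ K, z * y * z⁻¹ * y⁻¹ ∈ W := by
    intro z
    constructor
    · rintro ⟨z, hz, rfl⟩
      refine ⟨z.2, fun y hy => ?_⟩
      have h1 := Subgroup.mem_center_iff.mp hz (QuotientGroup.mk' W' ⟨y, hy⟩)
      rw [← map_mul, ← map_mul] at h1
      have h1' : ((⟨y, hy⟩ * z : K) : K ⧸ W') = ((z * ⟨y, hy⟩ : K) : K ⧸ W') := h1
      have h2' : (⟨y, hy⟩ * z)⁻¹ * (z * ⟨y, hy⟩) ∈ W' := QuotientGroup.eq.mp h1'
      have h2 : (y * (z : G))⁻¹ * ((z : G) * y) ∈ W := h2'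
      have h3 := hKW (y * (z : G)) (mul_mem hy z.2) _ h2
      simpa [mul_assoc] using h3
    · rintro ⟨hz, h⟩
      refine ⟨⟨z, hz⟩, ?_, rfl⟩
      refine Subgroup.mem_center_iff.mpr fun v => ?_
      obtain ⟨⟨y, hy⟩, rfl⟩ := QuotientGroup.mk'_surjective W' v
      rw [← map_mul, ← map_mul]
      refine QuotientGroup.eq.mpr ?_
      show (y * z)⁻¹ * (z * y) ∈ W
      have h3 := hKW (y * z)⁻¹ (inv_mem (mul_mem hy hz)) _ (h y hy)
      simpa [mul_assoc] using h3
  have hWZ : W ≤ Z := fun w hw => (hmemZ w).mpr ⟨hWK hw, fun y hy => by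
    have : w * y * w⁻¹ * y⁻¹ = w * (y * w⁻¹ * y⁻¹) := by group
    rw [this]; exact mul_mem hw (hKW y hy _ (inv_mem hw))⟩
  have hEZ : ∀ a ∈ E, ∀ z ∈ Z, a * z * a⁻¹ ∈ Z := by
    intro a ha z hz
    rw [hmemZ] at hz ⊢
    refine ⟨hEK a ha z hz.1, fun y hy => ?_⟩
    have hy' : a⁻¹ * y * a ∈ K := by simpa using hEK a⁻¹ (inv_mem ha) y hy
    have := hEW a ha _ (hz.2 _ hy')
    simpa [mul_assoc] using this
  have hKZ : ∀ y ∈ K, ∀ z ∈ Z, y * z * y⁻¹ ∈ Z := by
    intro y hy z hz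
    have h1 := ((hmemZ z).mp hz).2 y hy
    have : y * z * y⁻¹ = (z * y * z⁻¹ * y⁻¹)⁻¹ * z := by group
    rw [this]
    exact mul_mem (inv_mem (hWZ h1)) hz
  refine ⟨W, Z, hWZ, fun z hz => ((hmemZ z).mp hz).1, hEW, hEZ, hKW,
    fun z hz => ((hmemZ z).mp hz).2, hUW, ?_⟩
  by_contra hno
  push Not at hno
  have hZW : Z ≤ W := hmax ⟨fun z hz => ((hmemZ z).mp hz).1, hKZ, hEZ, hno⟩ hWZ
  have hWne : W' ≠ ⊤ := by
    intro htop
    obtain ⟨a, ha, y, hy, hne⟩ := hU
    have hy' : (⟨y, hy⟩ : K) ∈ W' := htop.ge (Subgroup.mem_top _)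
    exact hne (hUW a ha y hy')
  have : Nontrivial (K ⧸ W') := QuotientGroup.nontrivial_iff.mpr hWne
  have : Nontrivial (Subgroup.center (K ⧸ W')) :=
    (Subgroup.nontrivial_iff_ne_bot _).mpr (Group.IsNilpotent.center_ne_bot _)
  obtain ⟨⟨c, hc⟩, hc1⟩ := exists_ne (1 : Subgroup.center (K ⧸ W'))
  obtain ⟨z, rfl⟩ := QuotientGroup.mk'_surjective W' c
  refine hc1 (Subtype.ext ?_)
  exact (QuotientGroup.eq_one_iff z).mpr (hZW ⟨z, hc, rfl⟩)

omit hEp hEc in
/-- **Frames.** An elementary abelian `p`-group acting faithfully on a nilpotent group of coprime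
order spans, with it, a frame with at least as many pairs as its rank. -/
theorem exists_frame : ∀ (n : ℕ) (K E : Subgroup G), Nat.card E ≤ n → Group.IsNilpotent K →
    (Nat.card K).Coprime p → (∀ a ∈ E, a ^ p = 1) → (∀ a ∈ E, ∀ b ∈ E, a * b = b * a) →
    (∀ a ∈ E, ∀ y ∈ K, a * y * a⁻¹ ∈ K) → (∀ a ∈ E, (∀ y ∈ K, a * y = y * a) → a = 1) →
    ∃ (m : ℕ) (e : Fin m → Bool → G), Nat.card E ≤ p ^ m ∧
      (∀ i s, e i s ∈ K ⊔ E ∧ e i s ^ p = 1) ∧
      (∀ i j s t, i ≠ j → e i s * e j t = e j t * e i s) ∧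
      ∀ i, e i false * e i true ≠ e i true * e i false := by
  intro n
  induction n with
  | zero => intro K E h; exact absurd h (Nat.pos_of_ne_zero (NeZero.ne _)).not_ge
  | succ n ih =>
    intro K E hn hKn hKc hEp hEc hEK hfaith
    classical
    by_cases htriv : ∀ a ∈ E, a = 1
    · refine ⟨0, Fin.elim0, ?_, fun i => i.elim0, fun i => i.elim0, fun i => i.elim0⟩
      rw [(Subgroup.eq_bot_iff_forall E).mpr htriv]; simp
    push Not at htriv
    obtain ⟨a₀, ha₀, ha₀1⟩ := htriv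
    -- the elements of `K` whose centraliser in `E` is a hyperplane
    let P : G → Prop := fun k => k ∈ K ∧ ∀ a ∈ E, a * k ≠ k * a →
      ∀ b ∈ E, ∃ i : ℕ, b * (a ^ i)⁻¹ * k = k * (b * (a ^ i)⁻¹)
    have hP : ∀ {k h : G} {D : Subgroup G}, k ∈ K → h ∈ E → D ≤ E → (∀ a ∈ D, a * k = k * a) →
        (∀ b ∈ E, ∃ i : ℕ, b * (h ^ i)⁻¹ ∈ D) → P k := by
      intro k h D hk hh hD hDk hb
      refine ⟨hk, fun a ha hak b hbE => ?_⟩
      obtain ⟨l, hl⟩ := hb a ha
      obtain ⟨i, hi⟩ := hb b hbE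
      have hlp : (l : ZMod p) ≠ 0 := by
        intro h0
        refine hak ?_
        obtain ⟨c, rfl⟩ := (ZMod.natCast_eq_zero_iff l p).mp h0
        rw [pow_mul, hEp h hh, one_pow, inv_one, mul_one] at hl
        exact hDk a hl
      refine ⟨((i : ZMod p) * (l : ZMod p)⁻¹).val, hDk _ ?_⟩
      set i' := ((i : ZMod p) * (l : ZMod p)⁻¹).val
      have hhi : (h ^ l) ^ i' = h ^ i := by
        rw [← pow_mul, pow_eq_pow_mod _ (hEp h hh), pow_eq_pow_mod i (hEp h hh),
          ← ZMod.val_natCast, ← ZMod.val_natCast]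
        congr 2
        simp only [i', Nat.cast_mul, ZMod.natCast_val, ZMod.cast_id', id_eq]
        field_simp
      have hc : Commute (a * (h ^ l)⁻¹) (h ^ l) :=
        hEc _ (mul_mem ha (inv_mem (pow_mem hh l))) _ (pow_mem hh l)
      have ha' : a ^ i' = (a * (h ^ l)⁻¹) ^ i' * h ^ i := by
        rw [← hhi, ← hc.mul_pow, inv_mul_cancel_right]
      have e : b * (a ^ i')⁻¹ = b * (h ^ i)⁻¹ * ((a * (h ^ l)⁻¹) ^ i')⁻¹ := by rw [ha']; group
      rw [e]
      exact mul_mem hi (inv_mem (pow_mem hl i'))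
    have hmove : ∀ x ∈ E, x ≠ 1 → ∃ k, P k ∧ x * k ≠ k * x := by
      intro x hx hx1
      obtain ⟨y, hy, hxy⟩ : ∃ y ∈ K, x * y ≠ y * x := by
        by_contra hno; push Not at hno; exact hx1 (hfaith x hx hno)
      obtain ⟨W, Z, hWZ, hZK, hEW, hEZ, hKW, hZK', hUW, a, hax, hZ⟩ :=
        exists_layer (E := E) {x} hEK ⟨x, rfl, y, hy, hxy⟩
      rw [Set.mem_singleton_iff.mp hax] at hZ
      obtain ⟨D, hD, k, hk, hDk, hxk, hb⟩ := exists_hyperplane_witness hEp hEc hWZ
        (hKc.coprime_dvd_left (Subgroup.card_dvd_of_le hZK)) hEW hEZ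
        (fun z hz => hKW z (hZK hz)) (fun u hu v hv => hZK' u hu v (hZK hv)) hx
        (fun w hw => hUW x rfl w hw) hZ
      exact ⟨k, hP (hZK hk) hx hD hDk hb, hxk⟩
    -- the first element, taken deep inside `K`
    obtain ⟨y₀, hy₀, hay₀⟩ : ∃ y ∈ K, a₀ * y ≠ y * a₀ := by
      by_contra hno; push Not at hno; exact ha₀1 (hfaith a₀ ha₀ hno)
    obtain ⟨W, Z, hWZ, hZK, hEW, hEZ, hKW, hZK', hUW, h, hh, hZ⟩ :=
      exists_layer (E := E) (E : Set G) hEK ⟨a₀, ha₀, y₀, hy₀, hay₀⟩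
    obtain ⟨D₁, hD₁E, k, hkZ, hD₁k, hhk, hb⟩ := exists_hyperplane_witness hEp hEc hWZ
      (hKc.coprime_dvd_left (Subgroup.card_dvd_of_le hZK)) hEW hEZ
      (fun z hz => hKW z (hZK hz)) (fun u hu v hv => hZK' u hu v (hZK hv)) hh (hUW h hh) hZ
    have hkK := hZK hkZ
    have hPk : P k := hP hkK hh hD₁E hD₁k hb
    -- a direction moving `k`, centralising as much as possible
    obtain ⟨N, hN, hmin⟩ := Set.Finite.exists_minimal
      (Set.toFinite {N : Subgroup G | ∃ J : Set G, (∀ j ∈ J, P j) ∧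
        N = E ⊓ Subgroup.centralizer J ∧ ∃ a ∈ N, a * k ≠ k * a})
      ⟨E ⊓ Subgroup.centralizer ∅, ∅, by simp, rfl, h, ⟨hh, by simp [Subgroup.mem_centralizer_iff]⟩,
        hhk⟩
    obtain ⟨J, hJ, rfl, e, heN, hek⟩ := hN
    obtain ⟨heE, heJ⟩ := Subgroup.mem_inf.mp heN
    set D := E ⊓ Subgroup.centralizer {k}
    set K' := K ⊓ Subgroup.centralizer {e}
    have hDk : ∀ a ∈ D, a * k = k * a := fun a ha =>
      Subgroup.mem_centralizer_singleton_iff.mp ha.2
    have hKe : ∀ y ∈ K', y * e = e * y := fun y hy =>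
      Subgroup.mem_centralizer_singleton_iff.mp hy.2
    have hKn' : Group.IsNilpotent K' := by
      have : Group.IsNilpotent K := hKn
      exact Group.nilpotent_of_mulEquiv (Subgroup.subgroupOfEquivOfLe (inf_le_left : K' ≤ K))
    have hDK' : ∀ a ∈ D, ∀ y ∈ K', a * y * a⁻¹ ∈ K' := fun a ha y hy =>
      ⟨hEK a ha.1 y hy.1, Subgroup.mem_centralizer_singleton_iff.mpr (by
        have h1 : a⁻¹ * e = e * a⁻¹ := hEc _ (inv_mem ha.1) _ heE
        calc a * y * a⁻¹ * e = a * (y * e) * a⁻¹ := by rw [mul_assoc, h1]; group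
          _ = a * e * (y * a⁻¹) := by rw [hKe y hy]; group
          _ = e * (a * y * a⁻¹) := by rw [hEc a ha.1 e heE]; group)⟩
    have hfaith' : ∀ x ∈ D, (∀ y ∈ K', x * y = y * x) → x = 1 := by
      intro x hx hxK
      by_contra hx1
      obtain ⟨j, hj, hxj⟩ := hmove x hx.1 hx1
      have hej : e * j ≠ j * e := fun hc =>
        hxj (hxK j ⟨hj.1, Subgroup.mem_centralizer_singleton_iff.mpr hc.symm⟩)
      have hxJ : x ∈ Subgroup.centralizer J := Subgroup.mem_centralizer_iff.mpr fun l hl =>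
        (hxK l ⟨(hJ l hl).1, Subgroup.mem_centralizer_singleton_iff.mpr
          (Subgroup.mem_centralizer_iff.mp heJ l hl)⟩).symm
      obtain ⟨i, hi⟩ := hj.2 x hx.1 hxj e heE
      set δ := e * (x ^ i)⁻¹
      have hδ : δ ∈ E ⊓ Subgroup.centralizer J :=
        Subgroup.mem_inf.mpr
          ⟨mul_mem heE (inv_mem (pow_mem (Subgroup.mem_inf.mp hx).1 i)),
            mul_mem heJ (inv_mem (pow_mem hxJ i))⟩
      have hδk : δ * k = k * δ := by
        by_contra hne
        have hmem : δ ∈ E ⊓ Subgroup.centralizer (insert j J) := ⟨hδ.1,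
          Subgroup.mem_centralizer_iff.mpr fun l hl => by
            rcases hl with rfl | hl
            · exact hi.symm
            · exact Subgroup.mem_centralizer_iff.mp hδ.2 l hl⟩
        have hle := hmin ⟨insert j J, Set.forall_mem_insert.mpr ⟨hj, hJ⟩, rfl, δ, hmem, hne⟩
          (inf_le_inf_left E (Subgroup.centralizer_le (Set.subset_insert j J)))
        exact hej (Subgroup.mem_centralizer_iff.mp (hle heN).2 j (Set.mem_insert j J)).symm
      refine hek ?_
      rw [show e = δ * x ^ i by simp [δ]]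
      have hcx : Commute (x ^ i) k := Commute.pow_left (hDk x hx) i
      exact (Commute.mul_left hδk hcx).eq
    have hcard : Nat.card E ≤ Nat.card D * p := by
      rw [show Nat.card D * p = Nat.card (D × Fin p) by simp [Nat.card_prod]]
      refine Nat.card_le_card_of_surjective
        (fun x => (⟨x.1.1 * e ^ (x.2 : ℕ), mul_mem x.1.2.1 (pow_mem heE _)⟩ : E)) fun b => ?_
      obtain ⟨i, hi⟩ := hPk.2 e heE hek b b.2
      refine ⟨(⟨(b : G) * (e ^ i)⁻¹, Subgroup.mem_inf.mpr ⟨mul_mem b.2 (inv_mem (pow_mem heE i)),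
        Subgroup.mem_centralizer_singleton_iff.mpr hi⟩⟩, ⟨i % p, Nat.mod_lt _ hp.out.pos⟩),
        Subtype.ext ?_⟩
      show (b : G) * (e ^ i)⁻¹ * e ^ (i % p) = b
      rw [← pow_eq_pow_mod i (hEp e heE), inv_mul_cancel_right]
    have hDlt : Nat.card D ≤ n := by
      have hlt : D < E := lt_of_le_of_ne inf_le_left fun hDE => hek (hDk e (by rw [hDE]; exact heE))
      have : Nat.card D < Nat.card E :=
        Nat.lt_of_le_of_ne (Subgroup.card_le_of_le hlt.le) fun hc =>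
          hlt.ne (Subgroup.eq_of_le_of_card_ge hlt.le hc.ge)
      omega
    obtain ⟨m, f, hm, hf, hfc, hfn⟩ := ih K' D hDlt hKn'
      (hKc.coprime_dvd_left (Subgroup.card_dvd_of_le inf_le_left))
      (fun a ha => hEp a ha.1) (fun a ha b hb => hEc a ha.1 b hb.1) hDK' hfaith'
    -- the new pair
    set d := k⁻¹ * (e * k * e⁻¹) with hddef
    have hdK : d ∈ K := mul_mem (inv_mem hkK) (hEK e heE k hkK)
    have hdy : ∀ y ∈ K', d * y = y * d := by
      intro y hy
      set c := k * y * k⁻¹ * y⁻¹ with hc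
      have hcW : c ∈ W := hZK' k hkZ y hy.1
      have h1 : e * c * e⁻¹ = c := by rw [hUW e heE c hcW, mul_inv_cancel_right]
      have h2 : e * c * e⁻¹ = k * d * y * (k * d)⁻¹ * y⁻¹ := by
        have h3 : e * y * e⁻¹ = y := by rw [← hKe y hy, mul_inv_cancel_right]
        have h4 : e * y⁻¹ * e⁻¹ = y⁻¹ := by
          calc e * y⁻¹ * e⁻¹ = (e * y * e⁻¹)⁻¹ := by group
            _ = y⁻¹ := by rw [h3]
        calc e * c * e⁻¹ = e * k * e⁻¹ * (e * y * e⁻¹) * (e * k * e⁻¹)⁻¹ * (e * y⁻¹ * e⁻¹) := by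
              rw [hc]; group
          _ = _ := by rw [h3, h4, hddef, mul_inv_cancel_left]
      rw [h2, hc] at h1
      have h5 : d * y * d⁻¹ = y := by
        have := mul_right_cancel h1
        have h6 : k * (d * y * d⁻¹) * k⁻¹ = k * y * k⁻¹ := by rw [← this]; group
        exact mul_left_cancel (mul_right_cancel h6)
      rwa [mul_inv_eq_iff_eq_mul] at h5
    have hde : e * d ≠ d * e := by
      intro hc
      have hconj : ∀ i : ℕ, e ^ i * k = k * d ^ i * e ^ i := by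
        intro i
        induction i with
        | zero => simp
        | succ i ihi =>
          calc e ^ (i + 1) * k = e * (e ^ i * k) := by rw [pow_succ', mul_assoc]
            _ = k * d * (e * d ^ i) * e ^ i := by rw [ihi, hddef]; group
            _ = k * d ^ (i + 1) * e ^ (i + 1) := by
              rw [(show Commute e d from hc).pow_right i |>.eq, pow_succ', pow_succ']; group
      have h1 := hconj p
      rw [hEp e heE, one_mul, mul_one] at h1
      have h2 : d = 1 := eq_one_of_pow_eq_one hKc hdK (mul_left_cancel (a := k) (by rw [← h1, mul_one]))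
      refine hek ?_
      calc e * k = k * d * e := by rw [hddef]; group
        _ = k * e := by rw [h2, mul_one]
    set e' := d * e * d⁻¹ with he'
    have he'mem : e' ∈ K ⊔ E := mul_mem (mul_mem (Subgroup.mem_sup_left hdK)
      (Subgroup.mem_sup_right heE)) (inv_mem (Subgroup.mem_sup_left hdK))
    have he'p : e' ^ p = 1 := by rw [he', conj_pow, hEp e heE, mul_one, mul_inv_cancel]
    have hee' : e * e' ≠ e' * e := by
      intro hc
      have hu : e' * e⁻¹ ∈ K := by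
        have : e' * e⁻¹ = d * (e * d⁻¹ * e⁻¹) := by rw [he']; group
        rw [this]; exact mul_mem hdK (hEK e heE _ (inv_mem hdK))
      have hup : (e' * e⁻¹) ^ p = 1 := by
        rw [(show Commute e' e⁻¹ from (Commute.inv_right hc.symm)).mul_pow, he'p, inv_pow,
          hEp e heE, inv_one, one_mul]
      have h1 := mul_inv_eq_one.mp (eq_one_of_pow_eq_one hKc hu hup)
      rw [he', mul_inv_eq_iff_eq_mul] at h1
      exact hde h1.symm
    have hcent : ∀ x ∈ K' ⊔ D, x * e = e * x ∧ x * e' = e' * x := by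
      have hle : K' ⊔ D ≤ Subgroup.centralizer {e, d} := by
        refine sup_le (fun y hy => Subgroup.mem_centralizer_iff.mpr ?_)
          (fun a ha => Subgroup.mem_centralizer_iff.mpr ?_)
        · rintro l (rfl | rfl)
          · exact (hKe y hy).symm
          · exact hdy y hy
        · rintro l (rfl | rfl)
          · exact hEc _ heE a ha.1
          · have h1 : Commute a k := hDk a ha
            have h2 : Commute a e := hEc a ha.1 e heE
            exact (h1.inv_right.mul_right ((h2.mul_right h1).mul_right h2.inv_right)).eq.symm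
      intro x hx
      have h1 := Subgroup.mem_centralizer_iff.mp (hle hx) e (by simp)
      have h2 := Subgroup.mem_centralizer_iff.mp (hle hx) d (by simp)
      have he1 : Commute x e := h1.symm
      have hd1 : Commute x d := h2.symm
      exact ⟨he1.eq, ((hd1.mul_right he1).mul_right hd1.inv_right).eq⟩
    have hsub : K' ⊔ D ≤ K ⊔ E := sup_le_sup inf_le_left inf_le_left
    refine ⟨m + 1, Fin.cons (fun s => cond s e' e) f, ?_, ?_, ?_, ?_⟩
    · exact hcard.trans (by rw [pow_succ]; exact Nat.mul_le_mul_right p hm)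
    · intro i s
      refine Fin.cases ?_ (fun i => ?_) i
      · cases s
        · exact ⟨Subgroup.mem_sup_right heE, hEp e heE⟩
        · exact ⟨he'mem, he'p⟩
      · simpa using ⟨hsub (hf i s).1, (hf i s).2⟩
    · intro i
      refine Fin.cases ?_ (fun i => ?_) i
      · intro j
        refine Fin.cases (fun s t h => absurd rfl h) (fun j s t _ => ?_) j
        have := hcent _ (hf j t).1
        cases s <;> simp [this.1, this.2]
      · intro j
        refine Fin.cases (fun s t _ => ?_) (fun j s t h => ?_) j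
        · have := hcent _ (hf i s).1
          cases t <;> simp [this.1, this.2]
        · simpa using hfc i j s t fun hij => h (by rw [hij])
    · intro i
      refine Fin.cases ?_ (fun i => ?_) i
      · simpa using hee'
      · simpa using hfn i

end Vale.Agent.P240
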