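import Mathlib

/-!
# A criterion for nonzero rational homology of a finite poset

If a group `H` with a normal cyclic subgroup of `q`-power index-type quotient acts on a finite
poset without fixed point, then the reduced rational homology of the order complex is nonzero
(Lefschetz trace, then counting modulo `q`).
-/

open Finset Equiv

namespace Vale.Agent.P240

/-- The chains of a poset, the empty one included. -/
def Chain (α : Type*) [PartialOrder α] : Type _ :=
  {σ : Finset α // IsChain (· ≤ ·) (σ : Set α)}

variable {α : Type*} [PartialOrder α]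

/-- Removing one element of a chain. -/
noncomputable def Chain.remove (σ : Chain α) (v : α) : Chain α :=
  haveI := Classical.decEq α
  ⟨σ.1.erase v, σ.2.mono (by simp)⟩

/-- The sign of a vertex in a chain: `(-1)` to the number of smaller vertices. -/
noncomputable def Chain.sign (σ : Chain α) (v : α) : ℚ :=
  haveI := Classical.decPred fun u : α => u < v
  (-1) ^ #(σ.1.filter fun u => u < v)

/-- The augmented boundary of the order complex, on all degrees at once. -/
noncomputable def boundary (α : Type*) [PartialOrder α] :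
    (Chain α →₀ ℚ) →ₗ[ℚ] (Chain α →₀ ℚ) :=
  Finsupp.linearCombination ℚ fun σ => ∑ v ∈ σ.1, σ.sign v • Finsupp.single (σ.remove v) 1

/-- Some cycle of the augmented rational chain complex of the order complex is not a boundary. -/
def HasHomology (α : Type*) [PartialOrder α] : Prop :=
  ¬ LinearMap.ker (boundary α) ≤ LinearMap.range (boundary α)

lemma boundary_single (σ : Chain α) :
    boundary α (Finsupp.single σ 1) = ∑ v ∈ σ.1, σ.sign v • Finsupp.single (σ.remove v) 1 := by
  simp [boundary]

lemma sign_remove_of_lt {σ : Chain α} {v w : α} (hv : v ∈ σ.1) (h : v < w) :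
    (σ.remove v).sign w = -σ.sign w := by
  classical
  have h2 : #(σ.1.filter fun u => u < w) = #((σ.1.erase v).filter fun u => u < w) + 1 := by
    rw [filter_erase, card_erase_add_one (mem_filter.mpr ⟨hv, h⟩)]
  simp only [Chain.sign, Chain.remove]
  rw [filter_congr_decidable, filter_congr_decidable] at *
  convert (show (-1 : ℚ) ^ #((σ.1.erase v).filter fun u => u < w) =
    -(-1) ^ #(σ.1.filter fun u => u < w) by rw [h2, pow_succ]; ring) using 4

lemma sign_remove_of_not_lt {σ : Chain α} {v w : α} (h : ¬ v < w) :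
    (σ.remove v).sign w = σ.sign w := by
  classical
  simp only [Chain.sign, Chain.remove]
  congr 2
  ext u
  simp only [mem_filter, mem_erase]
  constructor
  · rintro ⟨⟨-, hu⟩, hlt⟩; exact ⟨hu, hlt⟩
  · rintro ⟨hu, hlt⟩; exact ⟨⟨fun e => h (e ▸ hlt), hu⟩, hlt⟩

/-- It is a differential. -/
theorem boundary_boundary : boundary α ∘ₗ boundary α = 0 := by
  classical
  refine Finsupp.lhom_ext fun σ b => ?_
  rw [← Finsupp.smul_single_one, map_smul, LinearMap.comp_apply, boundary_single]
  simp only [map_sum, map_smul, boundary_single, LinearMap.zero_apply, smul_sum, smul_smul]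
  have key : ∑ x ∈ σ.1.sigma (fun v => (σ.remove v).1),
      (b * (σ.sign x.1 * (σ.remove x.1).sign x.2)) •
        Finsupp.single ((σ.remove x.1).remove x.2) (1 : ℚ) = 0 := by
    refine sum_involution (fun x _ => ⟨x.2, x.1⟩) (fun x hx => ?_) (fun x hx _ he => ?_)
      (fun x hx => ?_) fun x _ => rfl
    · obtain ⟨v, w⟩ := x
      simp only [mem_sigma, Chain.remove, mem_erase] at hx
      obtain ⟨hv, hwv, hw⟩ := hx
      have hsw : (σ.remove w).remove v = (σ.remove v).remove w :=
        Subtype.ext (by simp only [Chain.remove]; ext; simp; tauto)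
      rw [hsw, ← add_smul]
      rcases σ.2 hv hw (Ne.symm hwv) with h | h
      · have h' : v < w := lt_of_le_of_ne h (Ne.symm hwv)
        rw [sign_remove_of_lt hv h', sign_remove_of_not_lt (lt_asymm h'),
          show b * (σ.sign v * -σ.sign w) + b * (σ.sign w * σ.sign v) = 0 by ring, zero_smul]
      · have h' : w < v := lt_of_le_of_ne h hwv
        rw [sign_remove_of_lt hw h', sign_remove_of_not_lt (lt_asymm h'),
          show b * (σ.sign v * σ.sign w) + b * (σ.sign w * -σ.sign v) = 0 by ring, zero_smul]
    · obtain ⟨v, w⟩ := x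
      simp only [mem_sigma, Chain.remove, mem_erase] at hx
      exact hx.2.1 (congrArg Sigma.fst he)
    · obtain ⟨v, w⟩ := x
      simp only [mem_sigma, Chain.remove, mem_erase] at hx ⊢
      exact ⟨hx.2.2, Ne.symm hx.2.1, hx.1⟩
  rw [sum_sigma] at key
  rw [smul_zero]
  exact key

/-- A contracting homotopy of an exact differential on a vector space. -/
lemma exists_homotopy {V : Type*} [AddCommGroup V] [Module ℚ V] {f : V →ₗ[ℚ] V}
    (h2 : f ∘ₗ f = 0) (h : LinearMap.ker f ≤ LinearMap.range f) :
    ∃ g : V →ₗ[ℚ] V, f * g + g * f = 1 := by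
  obtain ⟨s₀, hs₀⟩ := f.rangeRestrict.exists_rightInverse_of_surjective
    (LinearMap.range_rangeRestrict f)
  obtain ⟨s, hs⟩ := LinearMap.exists_extend s₀
  have hfs : ∀ z, z ∈ LinearMap.range f → f (s z) = z := fun z hz => by
    have h1 : s z = s₀ ⟨z, hz⟩ := LinearMap.congr_fun hs ⟨z, hz⟩
    rw [h1]
    exact congrArg Subtype.val (LinearMap.congr_fun hs₀ ⟨z, hz⟩)
  have hff : ∀ x, f (f x) = 0 := fun x => LinearMap.congr_fun h2 x
  refine ⟨s ∘ₗ (LinearMap.id - s ∘ₗ f), LinearMap.ext fun x => ?_⟩
  have hker : x - s (f x) ∈ LinearMap.range f := h (by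
    rw [LinearMap.mem_ker, map_sub, hfs _ (LinearMap.mem_range_self f x), sub_self])
  simp only [LinearMap.add_apply, Module.End.mul_apply, LinearMap.comp_apply, LinearMap.sub_apply,
    LinearMap.id_apply, hff, map_zero, sub_zero, hfs _ hker, Module.End.one_apply]
  abel

section Action

variable (g : Perm α) (hg : ∀ a b, g a ≤ g b ↔ a ≤ b)

/-- An automorphism of the poset acting on chains. -/
def Chain.move (σ : Chain α) : Chain α :=
  ⟨σ.1.map g.toEmbedding, by
    rw [coe_map]
    intro a ha b hb hab
    obtain ⟨a, ha', rfl⟩ := ha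
    obtain ⟨b, hb', rfl⟩ := hb
    rcases σ.2 ha' hb' (fun h => hab (h ▸ rfl)) with h | h
    · exact Or.inl ((hg a b).mpr h)
    · exact Or.inr ((hg b a).mpr h)⟩

/-- The automorphism twisted by the parity of the degree. -/
noncomputable def signedMove : (Chain α →₀ ℚ) →ₗ[ℚ] (Chain α →₀ ℚ) :=
  Finsupp.linearCombination ℚ fun σ =>
    (-1 : ℚ) ^ #σ.1 • Finsupp.single (σ.move g hg) 1

lemma signedMove_single (σ : Chain α) :
    signedMove g hg (Finsupp.single σ 1) = (-1 : ℚ) ^ #σ.1 • Finsupp.single (σ.move g hg) 1 := by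
  simp [signedMove]

lemma boundary_signedMove :
    boundary α * signedMove g hg = -(signedMove g hg * boundary α) := by
  classical
  refine Finsupp.lhom_ext fun σ b => ?_
  rw [← Finsupp.smul_single_one, map_smul, map_smul]
  congr 1
  simp only [Module.End.mul_apply, LinearMap.neg_apply, signedMove_single, boundary_single,
    map_smul, map_sum, smul_sum, smul_smul, ← sum_neg_distrib, ← neg_smul]
  simp only [Chain.move, sum_map]
  refine sum_congr rfl fun v hv => ?_
  have hs : (σ.move g hg).sign (g v) = σ.sign v := by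
    simp only [Chain.sign, Chain.move, filter_map, card_map]
    congr 2
    refine filter_congr fun u _ => ?_
    simp only [Function.comp_apply, Equiv.coe_toEmbedding, lt_iff_le_not_ge, hg]
  have hr : (σ.move g hg).remove (g v) = (σ.remove v).move g hg :=
    Subtype.ext (by simp [Chain.remove, Chain.move, map_erase])
  have hc : #(σ.remove v).1 + 1 = #σ.1 := by
    simp only [Chain.remove]; exact card_erase_add_one hv
  simp only [Chain.move] at hs hr
  simp only [Equiv.coe_toEmbedding, hs, hr, ← hc, pow_succ]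
  congr 1
  ring

variable [Finite α]

instance : Finite (Chain α) := Subtype.finite

/-- **Lefschetz.** With no homology, every automorphism has signed fixed chains summing to zero. -/
theorem sum_fixed_eq_zero (h : ¬ HasHomology α) [Fintype (Chain α)] [DecidableEq (Chain α)] :
    ∑ σ ∈ univ.filter (fun σ : Chain α => σ.move g hg = σ), (-1 : ℚ) ^ #σ.1 = 0 := by
  obtain ⟨k, hk⟩ := exists_homotopy (boundary_boundary (α := α)) (not_not.mp h)
  set T := signedMove g hg
  set D := boundary α
  have hT : LinearMap.trace ℚ _ T = 0 := by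
    calc LinearMap.trace ℚ _ T = LinearMap.trace ℚ _ (T * (D * k)) +
          LinearMap.trace ℚ _ (T * k * D) := by
          rw [← map_add, mul_assoc T k D, ← mul_add, hk, mul_one]
      _ = LinearMap.trace ℚ _ (T * (D * k)) + LinearMap.trace ℚ _ (D * (T * k)) := by
          rw [LinearMap.trace_mul_comm ℚ (T * k) D]
      _ = 0 := by
          rw [← mul_assoc D T k, boundary_signedMove, neg_mul (signedMove g hg * boundary α) k,
            mul_assoc, map_neg, add_neg_cancel]
  rw [LinearMap.trace_eq_matrix_trace ℚ (Finsupp.basisSingleOne (R := ℚ) (ι := Chain α))] at hT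
  rw [← hT, sum_filter, Matrix.trace]
  refine sum_congr rfl fun σ _ => ?_
  rw [Matrix.diag_apply, LinearMap.toMatrix_apply, Finsupp.coe_basisSingleOne,
    Finsupp.basisSingleOne_repr]
  simp only [T, signedMove_single, LinearEquiv.refl_apply, Finsupp.smul_apply,
    Finsupp.single_apply, smul_eq_mul]
  split_ifs <;> simp

end Action

/-- **The criterion.** -/
theorem hasHomology_of_action [Finite α] {H : Type*} [Group H] (φ : H →* Perm α)
    (hφ : ∀ h a b, φ h a ≤ φ h b ↔ a ≤ b) (c : H)
    (hnorm : ∀ h : H, h⁻¹ * c * h ∈ Subgroup.zpowers c) {q : ℕ} (hq : q.Prime)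
    (hquot : ∀ h : H, ∃ j, h ^ q ^ j ∈ Subgroup.zpowers c)
    (hfree : ∀ a, ∃ h, φ h a ≠ a) : HasHomology α := by
  classical
  by_contra hno
  have := Fintype.ofFinite (Chain α)
  have hzero := sum_fixed_eq_zero (φ c) (hφ c) hno
  -- the action on chains
  let ψ₀ : H → Chain α → Chain α := fun h σ => σ.move (φ h) (hφ h)
  have hone : ∀ σ, ψ₀ 1 σ = σ := fun σ => Subtype.ext (by
    ext x
    simp only [ψ₀, Chain.move, map_one, mem_map_equiv]
    rfl)
  have hmul : ∀ a b σ, ψ₀ (a * b) σ = ψ₀ a (ψ₀ b σ) := fun a b σ =>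
    Subtype.ext (by
    simp only [ψ₀, Chain.move, map_mul, Finset.map_map]
    congr 1)
  let _ : MulAction H (Chain α) := { smul := ψ₀, one_smul := hone, mul_smul := hmul }
  have hsmul : ∀ (h : H) (σ : Chain α), h • σ = ψ₀ h σ := fun _ _ => rfl
  have hcpow : ∀ (σ : Chain α), c • σ = σ → ∀ y ∈ Subgroup.zpowers c, y • σ = σ := by
    intro σ hσ y hy
    have : Subgroup.zpowers c ≤ MulAction.stabilizer H σ := by
      rw [Subgroup.zpowers_le]; exact hσ
    exact this hy
  have : Fact q.Prime := ⟨hq⟩
  have count : ∀ b : Bool,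
      #(univ.filter fun σ : Chain α => c • σ = σ ∧ (Even #σ.1 ↔ b = true)) ≡
        (if b then 1 else 0) [MOD q] := by
    intro b
    let S := {σ : Chain α // c • σ = σ ∧ (Even #σ.1 ↔ b = true)}
    have hinv : ∀ (h : H) (s : S), c • h • s.1 = h • s.1 ∧ (Even #(h • s.1).1 ↔ b = true) := by
      intro h s
      refine ⟨?_, by simpa [hsmul, ψ₀, Chain.move] using s.2.2⟩
      have h1 := hcpow s.1 s.2.1 _ (hnorm h)
      rw [mul_smul, mul_smul] at h1
      exact inv_smul_eq_iff.mp h1
    let _ : MulAction H S :=
      { smul := fun h s => ⟨h • s.1, hinv h s⟩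
        one_smul := fun s => Subtype.ext (one_smul H s.1)
        mul_smul := fun a b s => Subtype.ext (mul_smul a b s.1) }
    let R := (MulAction.toPermHom H S).range
    have hR : IsPGroup q R := by
      rintro ⟨_, h, rfl⟩
      obtain ⟨j, hj⟩ := hquot h
      refine ⟨j, Subtype.ext ?_⟩
      rw [SubmonoidClass.coe_pow, ← map_pow]
      ext1 s
      exact Subtype.ext (hcpow s.1 s.2.1 _ hj)
    have hfix := hR.card_modEq_card_fixedPoints S
    have hS : Nat.card S = #(univ.filter fun σ : Chain α => c • σ = σ ∧ (Even #σ.1 ↔ b = true)) :=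
      Nat.subtype_card _ (by simp)
    rw [hS] at hfix
    refine hfix.trans ?_
    have hF : ∀ s : S, s ∈ MulAction.fixedPoints R S ↔ s.1.1 = ∅ := by
      intro s
      constructor
      · intro hs
        by_contra hne
        obtain ⟨v, hv, hmax⟩ := s.1.1.exists_maximal (nonempty_iff_ne_empty.mpr hne)
        obtain ⟨h, hh⟩ := hfree v
        have h1 : h • s.1 = s.1 := congrArg Subtype.val (hs ⟨_, h, rfl⟩)
        have hmem : ∀ y, y ∈ s.1.1 ↔ φ h y ∈ s.1.1 := fun y => by
          conv_rhs => rw [← h1]
          simp [hsmul, ψ₀, Chain.move]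
        have hv' := (hmem v).mp hv
        rcases s.1.2 hv hv' hh.symm with hle | hle
        · exact hh (le_antisymm (hmax hv' hle) hle)
        · obtain ⟨u, hu, hue⟩ : ∃ u, u ∈ s.1.1 ∧ φ h u = v := by
            refine ⟨(φ h).symm v, ?_, by simp⟩
            rw [hmem]; simpa using hv
          have hvu : v ≤ u := by rw [← hφ h]; rwa [hue]
          rw [← le_antisymm hvu (hmax hu hvu)] at hue
          exact hh hue
      · intro he r
        obtain ⟨_, h, rfl⟩ := r
        refine Subtype.ext (Subtype.ext ?_)
        show (h • s.1).1 = s.1.1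
        simp [hsmul, ψ₀, Chain.move, he]
    cases b
    · have : IsEmpty (MulAction.fixedPoints R S) := ⟨fun ⟨s, hs⟩ => by
        have := s.2.2; rw [(hF s).mp hs] at this; simp at this⟩
      simp [Nat.ModEq]
    · let e : Chain α := ⟨∅, by simp⟩
      have he : c • e = e ∧ (Even #e.1 ↔ true = true) :=
        ⟨Subtype.ext (show (e.1.map (φ c).toEmbedding) = e.1 by simp [e]), by simp [e]⟩
      have : Unique (MulAction.fixedPoints R S) :=
        { default := ⟨⟨e, he⟩, (hF _).mpr rfl⟩
          uniq := fun ⟨s, hs⟩ => Subtype.ext (Subtype.ext (Subtype.ext ((hF s).mp hs))) }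
      simp [Nat.ModEq]
  have heq : #(univ.filter fun σ : Chain α => c • σ = σ ∧ (Even #σ.1 ↔ true = true)) =
      #(univ.filter fun σ : Chain α => c • σ = σ ∧ (Even #σ.1 ↔ false = true)) := by
    rw [← Nat.cast_inj (R := ℚ), ← sub_eq_zero, ← hzero]
    rw [card_filter, card_filter, Nat.cast_sum, Nat.cast_sum, ← sum_sub_distrib, sum_filter]
    refine sum_congr rfl fun σ _ => ?_
    change _ = if c • σ = σ then (-1 : ℚ) ^ #σ.1 else 0
    by_cases h : c • σ = σ
    · rcases Nat.even_or_odd #σ.1 with he | he
      · simp [h, he, he.neg_one_pow]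
      · simp [h, Nat.not_even_iff_odd.mpr he, he.neg_one_pow]
    · simp [h]
  have h10 := (count true).symm.trans ((heq ▸ count false))
  exact hq.ne_one (Nat.dvd_one.mp ((Nat.modEq_zero_iff_dvd).mp h10))

end Vale.Agent.P240
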