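import Vale.Agent.P240.Alternating

/-!
# Components together with a normal subgroup of odd order
-/

open Finset Equiv

namespace Vale.Agent.P240

variable {G : Type*} [Group G] [Finite G] {I : Type*} [Fintype I]

/-- **The component criterion, with a normal subgroup of odd order.** -/
theorem hasHomology_of_components_and_odd {p q : ℕ} (hq : q.Prime) (L : I → Subgroup G)
    (K R : Subgroup G) [K.Normal] (hKp : (Nat.card K).Coprime p)
    (hKL : ∀ i, ∀ y ∈ L i, ∀ u ∈ K, y * u = u * y) (hR : IsPGroup q R) (hRK : R ≤ K) (z : G)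
    (hz : z ∈ K) (hzR : ∀ u ∈ R, z * u = u * z)
    (hcomm : Pairwise fun i j => ∀ x y, x ∈ L i → y ∈ L j → Commute x y)
    (hperm : ∀ g i, ∃ j, ∀ y, y ∈ L i ↔ g * y * g⁻¹ ∈ L j)
    (hcent : ∀ g, g ^ p = 1 → (∀ i, ∀ y ∈ L i, g * y = y * g) → (∀ u ∈ R, g * u = u * g) →
      g * z = z * g → g = 1)
    (c : ∀ i, L i) (Q : ∀ i, Subgroup (L i)) (hQ : ∀ i, IsPGroup q (Q i))
    (hcQ : ∀ i, ∀ t ∈ Q i, Commute (c i) t)
    (hloc : ∀ i, ∀ E : Subgroup G, (∀ x ∈ E, x ^ p = 1) → (∀ x ∈ E, ∀ y ∈ E, x * y = y * x) →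
      (∀ x ∈ E, ∀ y, y ∈ L i ↔ x * y * x⁻¹ ∈ L i) →
      (∀ k : L i, (k = c i ∨ k ∈ Q i) → ∀ x ∈ E, ∃ e ∈ E, ∀ y ∈ L i,
        (k : G) * x * (k : G)⁻¹ * y * ((k : G) * x * (k : G)⁻¹)⁻¹ = e * y * e⁻¹) →
      ∀ x ∈ E, ∀ y ∈ L i, x * y = y * x)
    (hsep : ∀ i, (∃ t ∈ Q i, ∃ y : L i, t * y ≠ y * t) ∨ ∀ j, Nonempty (L i ≃* L j) → j = i) :
    (∀ N : Subgroup G, N.Normal → IsPGroup p N → p.Prime → N = ⊥) ∧
      HasHomology (ElemAbelian p G) := by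
  classical
  have : Fact q.Prime := ⟨hq⟩
  let f : (∀ i, L i) →* G := Subgroup.noncommPiCoprod hcomm
  have hf : ∀ i (y : L i), f (Pi.mulSingle i y) = y := fun i y =>
    Subgroup.noncommPiCoprod_mulSingle (hcomm := hcomm) i y
  -- `f z` acts on `L i` as `z i`
  have hact : ∀ (z : ∀ i, L i) i (y : G), y ∈ L i →
      f z * y * (f z)⁻¹ = (z i : G) * y * (z i : G)⁻¹ := by
    intro z i y hy
    have h : z * Pi.mulSingle i ⟨y, hy⟩ * z⁻¹ =
        Pi.mulSingle i (z i * ⟨y, hy⟩ * (z i)⁻¹) := funext fun j => by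
      rcases eq_or_ne j i with rfl | hj
      · simp
      · simp [Pi.mulSingle_eq_of_ne hj]
    have h1 := congrArg f h
    rw [map_mul, map_mul, map_inv, hf, hf] at h1
    simpa using h1
  let H := Subgroup.zpowers ((c, ⟨z, hz⟩) : (∀ i, L i) × K) × ((∀ i, Q i) × R)
  have hfrange : f.range ≤ ⨆ i, L i := le_of_eq Subgroup.noncommPiCoprod_range
  have hfK : ∀ (w : ∀ i, L i) (u : K), Commute (f w) (u : G) := by
    intro w u
    have h : ⨆ i, L i ≤ Subgroup.centralizer {(u : G)} := iSup_le fun i y hy =>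
      Subgroup.mem_centralizer_singleton_iff.mpr (hKL i y hy u u.2)
    exact Subgroup.mem_centralizer_singleton_iff.mp (h (hfrange ⟨w, rfl⟩))
  let g₀ : ((∀ i, L i) × K) →* G := f.noncommCoprod K.subtype hfK
  let π : ((∀ i, Q i) × R) →* ((∀ i, L i) × K) :=
    { toFun := fun y => (fun i => (y.1 i : L i), ⟨y.2, hRK y.2.2⟩)
      map_one' := rfl
      map_mul' := fun _ _ => rfl }
  have hcπ : ∀ (a : Subgroup.zpowers ((c, ⟨z, hz⟩) : (∀ i, L i) × K)) (y : (∀ i, Q i) × R),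
      Commute (a : (∀ i, L i) × K) (π y) := by
    rintro ⟨a, k, rfl⟩ y
    exact Commute.zpow_left (Prod.ext (funext fun i => (hcQ i _ (y.1 i).2).eq)
      (Subtype.ext (hzR _ y.2.2))) k
  let ψ : H →* ((∀ i, L i) × K) := (Subgroup.zpowers _).subtype.noncommCoprod π hcπ
  let c₀ : H := (⟨(c, ⟨z, hz⟩), Subgroup.mem_zpowers _⟩, 1)
  have hψc : ψ c₀ = (c, ⟨z, hz⟩) := by
    show (c, (⟨z, hz⟩ : K)) * π 1 = _
    rw [map_one, mul_one]
  have hψR : ∀ u : R, ψ (1, (1, u)) = (1, ⟨u, hRK u.2⟩) := fun u => by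
    show 1 * π _ = _
    rw [one_mul]; rfl
  have hψQ : ∀ i (t : Q i), ψ (1, (Pi.mulSingle i t, 1)) = (Pi.mulSingle i (t : L i), 1) := by
    intro i t
    show 1 * π _ = _
    rw [one_mul]
    refine Prod.ext (funext fun j => ?_) rfl
    rcases eq_or_ne j i with rfl | hj
    · simp [π]
    · simp [π, Pi.mulSingle_eq_of_ne hj]
  refine hasHomology_of_subgroup (g₀.comp ψ) c₀ (fun h => ?_) hq (fun h => ?_) fun E hE => ?_
  · have : h⁻¹ * c₀ * h = c₀ := by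
      obtain ⟨⟨a, k, rfl⟩, y⟩ := h
      refine Prod.ext (Subtype.ext ?_) ?_
      · show ((c, (⟨z, hz⟩ : K)) ^ k)⁻¹ * (c, ⟨z, hz⟩) * (c, ⟨z, hz⟩) ^ k = _
        rw [mul_assoc, (Commute.self_zpow _ k).eq, inv_mul_cancel_left]
      · show y⁻¹ * 1 * y = 1
        group
    rw [this]
    exact Subgroup.mem_zpowers _
  · choose k hk using fun i => hQ i (h.2.1 i)
    obtain ⟨kR, hkR⟩ := hR h.2.2
    refine ⟨(∑ i, k i) + kR, ?_⟩
    obtain ⟨⟨a, l, rfl⟩, y⟩ := h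
    have hy : y ^ q ^ ((∑ i, k i) + kR) = 1 := by
      refine Prod.ext (funext fun i => ?_) ?_
      · obtain ⟨d, hd⟩ := pow_dvd_pow q ((single_le_sum (fun j _ => Nat.zero_le (k j))
          (mem_univ i)).trans (Nat.le_add_right _ kR))
        have h1 : y.1 i ^ q ^ k i = 1 := hk i
        rw [Prod.pow_fst, Pi.pow_apply, hd, pow_mul, h1, one_pow]
        rfl
      · obtain ⟨d, hd⟩ := pow_dvd_pow q (Nat.le_add_left kR (∑ i, k i))
        have h1 : y.2 ^ q ^ kR = 1 := hkR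
        rw [Prod.pow_snd, hd, pow_mul, h1, one_pow]
        rfl
    refine ⟨l * (q ^ ((∑ i, k i) + kR) : ℕ), ?_⟩
    show c₀ ^ (l * ((q ^ ((∑ i, k i) + kR) : ℕ) : ℤ)) = _
    rw [zpow_mul, zpow_natCast]
    refine Prod.ext (Subtype.ext ?_) ?_
    · rfl
    · show ((1 : (∀ i, Q i) × R) ^ l) ^ (q ^ ((∑ i, k i) + kR)) = y ^ (q ^ ((∑ i, k i) + kR))
      rw [one_zpow, one_pow, hy]
  -- the elements normalising every component
  let N₀ : Subgroup G :=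
    { carrier := {x | ∀ i y, y ∈ L i ↔ x * y * x⁻¹ ∈ L i}
      one_mem' := fun i y => by simp
      mul_mem' := fun {a b} ha hb i y => by
        rw [hb i y, ha i]; simp [mul_assoc]
      inv_mem' := fun {a} ha i y => by
        rw [ha i (a⁻¹ * y * a⁻¹⁻¹)]; simp [mul_assoc] }
  have hfN : ∀ w, f w ∈ N₀ := by
    intro w i y
    constructor
    · intro hy
      rw [hact w i y hy]
      exact mul_mem (mul_mem (w i).2 hy) (inv_mem (w i).2)
    · intro hy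
      have h := hact w⁻¹ i _ hy
      rw [map_inv] at h
      have e : y = (f w)⁻¹ * (f w * y * (f w)⁻¹) * (f w)⁻¹⁻¹ := by group
      rw [e, h]
      exact mul_mem (mul_mem (w⁻¹ i).2 hy) (inv_mem (w⁻¹ i).2)
  have hgN : ∀ w, g₀ w ∈ N₀ := by
    intro w
    refine mul_mem (hfN w.1) fun i y => ?_
    have hu : ∀ v ∈ L i, (w.2 : G) * v * (w.2 : G)⁻¹ = v := fun v hv => by
      rw [← hKL i v hv _ w.2.2, mul_inv_cancel_right]
    refine ⟨fun hy => (hu y hy).symm ▸ hy, fun hy => ?_⟩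
    have := hu _ hy
    rw [show y = (w.2 : G) * y * (w.2 : G)⁻¹ from mul_left_cancel (a := (w.2 : G))
      (mul_right_cancel (b := (w.2 : G)⁻¹) this).symm]
    exact hy
  have hactg : ∀ (w : (∀ i, L i) × K) i (y : G), y ∈ L i →
      g₀ w * y * (g₀ w)⁻¹ = (w.1 i : G) * y * (w.1 i : G)⁻¹ := by
    intro w i y hy
    show f w.1 * w.2 * y * (f w.1 * w.2)⁻¹ = _
    rw [← hact w.1 i y hy, mul_assoc (f w.1), ← hKL i y hy _ w.2.2]
    group
  have hN₀ : ∀ g, ∀ x ∈ N₀, g * x * g⁻¹ ∈ N₀ := by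
    intro g x hx i y
    obtain ⟨j, hj⟩ := hperm g⁻¹ i
    rw [hj, hx j, hj (g * x * g⁻¹ * y * _)]
    simp [mul_assoc]
  set E₀ := E.1 ⊓ N₀
  have hloc' : ∀ x ∈ E₀, ∀ i, ∀ y ∈ L i, x * y = y * x := by
    intro x hx i y hy
    refine hloc i E₀ (fun a ha => E.2.2.1 a ha.1) (fun a ha b hb => E.2.2.2 a ha.1 b hb.1)
      (fun a ha => ha.2 i) (fun k hk a ha => ?_) x hx y hy
    obtain ⟨h, hh⟩ : ∃ h, (ψ h).1 i = k := by
      rcases hk with rfl | hk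
      · exact ⟨c₀, by rw [hψc]⟩
      · exact ⟨(1, (Pi.mulSingle i ⟨k, hk⟩, 1)), by rw [hψQ]; simp⟩
    refine ⟨g₀ (ψ h) * a * (g₀ (ψ h))⁻¹, ⟨(hE h a).mp ha.1, hN₀ _ a ha.2⟩, fun y hy => ?_⟩
    subst hh
    set b := ((ψ h).1 i : G)
    have hb : b ∈ L i := ((ψ h).1 i).2
    have h1 : b⁻¹ * y * b ∈ L i := mul_mem (mul_mem (inv_mem hb) hy) hb
    have h2 : (g₀ (ψ h))⁻¹ * y * g₀ (ψ h) = b⁻¹ * y * b := by
      have := hactg (ψ h) i _ h1
      rw [show b * (b⁻¹ * y * b) * b⁻¹ = y by group] at this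
      calc _ = (g₀ (ψ h))⁻¹ * (g₀ (ψ h) * (b⁻¹ * y * b) * (g₀ (ψ h))⁻¹) * g₀ (ψ h) := by rw [this]
        _ = _ := by group
    have h3 := hactg (ψ h) i _ ((ha.2 i _).mp h1)
    symm
    calc g₀ (ψ h) * a * (g₀ (ψ h))⁻¹ * y * (g₀ (ψ h) * a * (g₀ (ψ h))⁻¹)⁻¹
        = g₀ (ψ h) * (a * ((g₀ (ψ h))⁻¹ * y * g₀ (ψ h)) * a⁻¹) * (g₀ (ψ h))⁻¹ := by group
      _ = b * (a * (b⁻¹ * y * b) * a⁻¹) * b⁻¹ := by rw [h2, h3]
      _ = b * a * b⁻¹ * y * (b * a * b⁻¹)⁻¹ := by group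
  have hE₀c : ∀ x ∈ E₀, x = 1 := by
    intro x hx
    have hxf : ∀ w, Commute x (f w) := by
      intro w
      have h : ⨆ i, L i ≤ Subgroup.centralizer {x} := iSup_le fun i y hy =>
        Subgroup.mem_centralizer_singleton_iff.mpr (hloc' x hx i y hy).symm
      exact (Subgroup.mem_centralizer_singleton_iff.mp (h (hfrange ⟨w, rfl⟩))).symm
    have hxK : ∀ h, x * ((ψ h).2 : G) = ((ψ h).2 : G) * x := by
      intro h
      set u := ((ψ h).2 : G)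
      have hu : u ∈ K := (ψ h).2.2
      set e := x * (g₀ (ψ h) * x⁻¹ * (g₀ (ψ h))⁻¹) with hedef
      have he : e ∈ E.1 := mul_mem hx.1 ((hE h _).mp (inv_mem hx.1))
      have he' : e = x * (u * x⁻¹ * u⁻¹) := by
        rw [hedef]
        show x * (f (ψ h).1 * u * x⁻¹ * (f (ψ h).1 * u)⁻¹) = _
        have h2 : Commute (f (ψ h).1) (u * x⁻¹ * u⁻¹) :=
          ((hfK _ (ψ h).2).mul_right (hxf _).symm.inv_right).mul_right (hfK _ (ψ h).2).inv_right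
        calc _ = x * (f (ψ h).1 * (u * x⁻¹ * u⁻¹) * (f (ψ h).1)⁻¹) := by group
          _ = _ := by rw [h2.eq, mul_inv_cancel_right]
      have heK : e ∈ K := by
        rw [he', show x * (u * x⁻¹ * u⁻¹) = x * u * x⁻¹ * u⁻¹ by group]
        exact mul_mem (Subgroup.Normal.conj_mem ‹_› u hu x) (inv_mem hu)
      have h4 : (⟨e, heK⟩ : K) = 1 := by
        have h5 : (⟨e, heK⟩ : K) ^ p = 1 := Subtype.ext (E.2.2.1 e he)
        have h6 := Nat.dvd_gcd (orderOf_dvd_natCard (⟨e, heK⟩ : K)) (orderOf_dvd_of_pow_eq_one h5)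
        rw [hKp.gcd_eq_one, Nat.dvd_one, orderOf_eq_one_iff] at h6
        exact h6
      have h7 : x * (u * x⁻¹ * u⁻¹) = 1 := by rw [← he']; exact congrArg Subtype.val h4
      calc x * u = x * (u * x⁻¹ * u⁻¹) * (u * x) := by group
        _ = u * x := by rw [h7, one_mul]
    refine hcent x (E.2.2.1 x hx.1) (hloc' x hx) (fun u hu => ?_) ?_
    · have := hxK (1, (1, ⟨u, hu⟩))
      rwa [hψR] at this
    · have := hxK c₀
      rwa [hψc] at this
  have hcentral : ∀ x ∈ E.1, ∀ h, x * g₀ (ψ h) = g₀ (ψ h) * x := by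
    intro x hx h
    have h1 : x * (g₀ (ψ h) * x⁻¹ * (g₀ (ψ h))⁻¹) ∈ E.1 :=
      mul_mem hx ((hE h _).mp (inv_mem hx))
    have h2 : x * (g₀ (ψ h) * x⁻¹ * (g₀ (ψ h))⁻¹) ∈ N₀ := by
      have : x * (g₀ (ψ h) * x⁻¹ * (g₀ (ψ h))⁻¹) = x * g₀ (ψ h) * x⁻¹ * (g₀ (ψ h))⁻¹ := by group
      rw [this]
      exact mul_mem (hN₀ x _ (hgN _)) (inv_mem (hgN _))
    have h3 := hE₀c _ ⟨h1, h2⟩
    calc x * g₀ (ψ h) = x * (g₀ (ψ h) * x⁻¹ * (g₀ (ψ h))⁻¹) * (g₀ (ψ h) * x) := by group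
      _ = g₀ (ψ h) * x := by rw [h3, one_mul]
  refine E.2.1 ((Subgroup.eq_bot_iff_forall _).mpr fun x hx => hE₀c x ⟨hx, fun i y => ?_⟩)
  obtain ⟨j, hj⟩ := hperm x i
  suffices j = i by subst this; exact hj y
  rcases hsep i with ⟨t, ht, y₀, hty⟩ | huniq
  · have h1 := hcentral x hx (1, (Pi.mulSingle i ⟨t, ht⟩, 1))
    rw [hψQ] at h1
    change x * (f _ * ((1 : K) : G)) = f _ * ((1 : K) : G) * x at h1
    rw [Subgroup.coe_one, mul_one, hf] at h1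
    have h2 : (t : G) ∈ L j := by
      have := (hj t).mp t.2
      rwa [h1, mul_inv_cancel_right] at this
    by_contra hne
    exact hty (Subtype.ext (hcomm hne (t : G) y₀ h2 y₀.2).eq)
  · refine huniq j ⟨MulEquiv.ofBijective
      ({ toFun := fun y => ⟨x * y * x⁻¹, (hj y).mp y.2⟩
         map_one' := Subtype.ext (by simp)
         map_mul' := fun a b => Subtype.ext (by simp [mul_assoc]) } : L i →* L j)
      ⟨fun a b hab => Subtype.ext (by simpa using congrArg Subtype.val hab), fun b => ?_⟩⟩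
    exact ⟨⟨x⁻¹ * b * x, (hj _).mpr (by simp [mul_assoc])⟩, Subtype.ext (by simp [mul_assoc])⟩

end Vale.Agent.P240
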