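import Mathlib

/-!
# Groups generated by two opposite Siegel root groups
-/

open Finset Matrix

namespace Vale.Agent.P240

variable {F : Type*} [Field F] {m : ℕ}

/-- The matrices `B` with `τ(B)ᵀ = δ B`. -/
def siegelSpace (τ : F ≃+* F) (δ : F) : Set (Matrix (Fin m) (Fin m) F) :=
  {B | B.transpose.map τ = δ • B}

/-- The element `(1 B; 0 1)`. -/
def siegelUp (B : Matrix (Fin m) (Fin m) F) :
    Matrix.SpecialLinearGroup (Fin m ⊕ Fin m) F :=
  ⟨fromBlocks 1 B 0 1, by rw [det_fromBlocks_zero₂₁, det_one, one_mul]⟩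

/-- The element `(1 0; B 1)`. -/
def siegelDown (B : Matrix (Fin m) (Fin m) F) :
    Matrix.SpecialLinearGroup (Fin m ⊕ Fin m) F :=
  ⟨fromBlocks 1 0 B 1, by rw [det_fromBlocks_zero₁₂, det_one, one_mul]⟩

/-- The group generated by two opposite Siegel root groups. -/
def siegelGroup (τ : F ≃+* F) (δ : F) : Subgroup (Matrix.SpecialLinearGroup (Fin m ⊕ Fin m) F) :=
  Subgroup.closure (siegelUp '' siegelSpace τ δ ∪ siegelDown '' siegelSpace τ δ)

end Vale.Agent.P240
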