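import Vale.Agent.P240.Local
import Vale.Agent.P240.SiegelGroup

/-!
# Components generated by two opposite Siegel root groups (symplectic, unitary, orthogonal)
-/

open Finset Matrix

namespace Vale.Agent.P240

variable {F : Type*} [Field F] {m : ℕ}

variable {τ : F ≃+* F} {δ : F}

lemma siegelUp_zero : siegelUp (0 : Matrix (Fin m) (Fin m) F) = 1 :=
  Subtype.ext fromBlocks_one

lemma siegelUp_add (B C : Matrix (Fin m) (Fin m) F) :
    siegelUp (B + C) = siegelUp B * siegelUp C := by
  refine Subtype.ext ?_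
  show fromBlocks 1 (B + C) 0 1 = fromBlocks 1 B 0 1 * fromBlocks 1 C 0 1
  rw [fromBlocks_multiply]
  simp [add_comm B C]

lemma siegelSpace_zero : (0 : Matrix (Fin m) (Fin m) F) ∈ siegelSpace τ δ := by
  ext i j; simp

lemma siegelSpace_add {B C : Matrix (Fin m) (Fin m) F} (hB : B ∈ siegelSpace τ δ)
    (hC : C ∈ siegelSpace τ δ) : B + C ∈ siegelSpace τ δ := by
  have hB' := hB; have hC' := hC
  simp only [siegelSpace, Set.mem_ofPred_eq] at hB' hC' ⊢
  rw [transpose_add, smul_add, ← hB', ← hC']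
  ext i j; simp

lemma siegelSpace_neg {B : Matrix (Fin m) (Fin m) F} (hB : B ∈ siegelSpace τ δ) :
    -B ∈ siegelSpace τ δ := by
  simp only [siegelSpace, Set.mem_ofPred_eq] at hB ⊢
  rw [transpose_neg, smul_neg, ← hB]
  ext i j; simp

lemma siegelUp_neg (B : Matrix (Fin m) (Fin m) F) : siegelUp (-B) = (siegelUp B)⁻¹ :=
  eq_inv_of_mul_eq_one_left (by rw [← siegelUp_add, neg_add_cancel, siegelUp_zero])

lemma siegelUp_pow (B : Matrix (Fin m) (Fin m) F) (k : ℕ) : siegelUp B ^ k = siegelUp (k • B) := by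
  induction k with
  | zero => rw [pow_zero, zero_nsmul, siegelUp_zero]
  | succ k ih => rw [pow_succ, ih, succ_nsmul, siegelUp_add]

/-- The upper Siegel root group. -/
def siegelUnipotent (τ : F ≃+* F) (δ : F) : Subgroup (siegelGroup (m := m) τ δ) where
  carrier := {s | ∃ B ∈ siegelSpace τ δ, (s : Matrix.SpecialLinearGroup (Fin m ⊕ Fin m) F) = siegelUp B}
  one_mem' := ⟨0, siegelSpace_zero, siegelUp_zero.symm⟩
  mul_mem' := by
    rintro a b ⟨B, hB, ha⟩ ⟨C, hC, hb⟩
    exact ⟨B + C, siegelSpace_add hB hC, by rw [Subgroup.coe_mul, ha, hb, siegelUp_add]⟩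
  inv_mem' := by
    rintro a ⟨B, hB, ha⟩
    exact ⟨-B, siegelSpace_neg hB, by rw [Subgroup.coe_inv, ha, siegelUp_neg]⟩

lemma isPGroup_siegelUnipotent (r : ℕ) [Fact r.Prime] [CharP F r] :
    IsPGroup r (siegelUnipotent (m := m) τ δ) := by
  rintro ⟨a, B, -, ha⟩
  refine ⟨1, Subtype.ext (Subtype.ext ?_)⟩
  rw [pow_one, SubmonoidClass.coe_pow, SubmonoidClass.coe_pow]
  show (a : Matrix.SpecialLinearGroup (Fin m ⊕ Fin m) F) ^ r = 1
  rw [ha, siegelUp_pow, show r • B = 0 by
    ext i j
    rw [Matrix.smul_apply, nsmul_eq_mul, CharP.cast_eq_zero, zero_mul, Matrix.zero_apply],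
    siegelUp_zero]

/-- The block matrix of a root. -/
def siegelN (B : Matrix (Fin m) (Fin m) F) : Matrix (Fin m ⊕ Fin m) (Fin m ⊕ Fin m) F :=
  fromBlocks 0 B 0 0

lemma siegelN_sq (B C : Matrix (Fin m) (Fin m) F) : siegelN B * siegelN C = 0 := by
  rw [siegelN, siegelN, fromBlocks_multiply]
  simp

lemma coe_siegelUp (B : Matrix (Fin m) (Fin m) F) :
    (siegelUp B : Matrix (Fin m ⊕ Fin m) (Fin m ⊕ Fin m) F) = 1 + siegelN B := by
  show fromBlocks 1 B 0 1 = _
  rw [siegelN, ← fromBlocks_one, fromBlocks_add]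
  simp

/-- The matrix `a E_ij + δ τ(a) E_ji`. -/
def pairRoot (τ : F ≃+* F) (δ : F) (i j : Fin m) (a : F) : Matrix (Fin m) (Fin m) F :=
  single i j a + single j i (δ * τ a)

lemma pairRoot_mem (hτ : ∀ a, τ (τ a) = a) (hδ : δ = 1 ∨ δ = -1) {i j : Fin m} (a : F) :
    pairRoot τ δ i j a ∈ siegelSpace τ δ := by
  simp only [siegelSpace, Set.mem_ofPred_eq, pairRoot]
  rw [transpose_add, transpose_single, transpose_single, smul_add, smul_single, smul_single,
    smul_eq_mul, smul_eq_mul, add_comm (single i j (δ * a))]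
  have h1 : τ (δ * τ a) = δ * a := by
    rcases hδ with rfl | rfl <;> simp [hτ]
  have h2 : δ * (δ * τ a) = τ a := by rcases hδ with rfl | rfl <;> simp
  ext u v
  simp only [Matrix.map_apply, Matrix.add_apply, single_apply, map_add, h2]
  split_ifs <;> simp [h1]

lemma diagRoot_mem (hδ : δ = 1) (i : Fin m) {a : F} (ha : τ a = a) :
    single i i a ∈ siegelSpace τ δ := by
  simp only [siegelSpace, Set.mem_ofPred_eq, hδ, one_smul, transpose_single]
  ext u v
  simp only [Matrix.map_apply, single_apply]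
  split_ifs <;> simp [ha]

/-- Polarisation of a pair root. -/
lemma pairRoot_eq_sub (hτ : ∀ a, τ (τ a) = a) (hd : δ = 1) (i j : Fin m) (a : F) :
    pairRoot τ δ i j a =
      vecMulVec (Pi.single i 1 + Pi.single j (τ a)) (τ ∘ (Pi.single i 1 + Pi.single j (τ a))) -
        vecMulVec (Pi.single i 1) (τ ∘ Pi.single i 1) -
        vecMulVec (Pi.single j (τ a)) (τ ∘ Pi.single j (τ a)) := by
  have e1 : ∀ (l : Fin m) (b : F), τ ∘ (Pi.single l b : Fin m → F) = Pi.single l (τ b) := by
    intro l b; funext u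
    simp only [Function.comp_apply, Pi.single_apply]
    split_ifs <;> simp
  have e2 : τ ∘ (Pi.single i 1 + Pi.single j (τ a) : Fin m → F) =
      Pi.single i 1 + Pi.single j a := by
    funext u
    simp only [Function.comp_apply, Pi.add_apply, Pi.single_apply, map_add]
    split_ifs <;> simp [hτ]
  have e3 : ∀ (k l : Fin m) (b c : F),
      vecMulVec (Pi.single k b) (Pi.single l c) = single k l (b * c) := fun k l b c => by
    ext u v
    simp only [vecMulVec_apply, Pi.single_apply, single_apply, eq_comm (a := k), eq_comm (a := l),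
      ite_and, ite_mul, zero_mul, mul_ite, mul_zero]
    split_ifs <;> rfl
  rw [e2, e1, e1, hτ, map_one, vecMulVec_add, add_vecMulVec, add_vecMulVec, e3, e3, e3, e3]
  simp only [pairRoot, hd, one_mul, mul_one]
  abel

/-- The semilinear maps commuting with the upper root group. -/
lemma siegel_commutant (hm : 2 ≤ m) (hcase : δ = 1 ∨ 3 ≤ m)
    {P Q R T : Matrix (Fin m) (Fin m) F} (σ : F ≃+* F)
    (hinv : ∃ Ai, Ai * fromBlocks P Q R T = 1)
    (hpair : ∀ i j, i ≠ j → ∀ a, fromBlocks P Q R T * siegelN ((pairRoot τ δ i j a).map σ) =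
      siegelN (pairRoot τ δ i j a) * fromBlocks P Q R T)
    (hdiag : δ = 1 → ∀ i, fromBlocks P Q R T * siegelN ((single i i (1 : F)).map σ) =
      siegelN (single i i (1 : F)) * fromBlocks P Q R T) :
    (∀ a, σ a = a) ∧ R = 0 ∧ ∃ c : F, c ≠ 0 ∧ P = c • 1 ∧ T = c • 1 := by
  have other : ∀ i : Fin m, ∃ j, j ≠ i := fun i => by
    have : Nontrivial (Fin m) := Fin.nontrivial_iff_two_le.mpr hm
    exact exists_ne i
  have heq : ∀ i j, i ≠ j → ∀ a, R * (pairRoot τ δ i j a).map σ = 0 ∧
      P * (pairRoot τ δ i j a).map σ = pairRoot τ δ i j a * T := by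
    intro i j hij a
    have h := hpair i j hij a
    rw [siegelN, siegelN, fromBlocks_multiply, fromBlocks_multiply, fromBlocks_inj] at h
    simp only [mul_zero, zero_mul, add_zero, zero_add] at h
    exact ⟨h.2.2.2, h.2.1⟩
  have hL : ∀ (X : Matrix (Fin m) (Fin m) F) i j, i ≠ j → ∀ a k l,
      (X * (pairRoot τ δ i j a).map σ) k l =
        (if l = j then X k i * σ a else 0) + if l = i then X k j * σ (δ * τ a) else 0 := by
    intro X i j hij a k l
    simp only [mul_apply, pairRoot, Matrix.map_apply, Matrix.add_apply, single_apply, map_add,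
      mul_add, sum_add_distrib]
    congr 1
    · rw [Finset.sum_eq_single i]
      · simp only [true_and, eq_comm (a := j)]
        split_ifs <;> simp
      · intro u _ hu; simp [Ne.symm hu]
      · simp
    · rw [Finset.sum_eq_single j]
      · simp only [true_and, eq_comm (a := i)]
        split_ifs <;> simp
      · intro u _ hu; simp [Ne.symm hu]
      · simp
  have hR' : ∀ (X : Matrix (Fin m) (Fin m) F) i j, i ≠ j → ∀ a k l,
      (pairRoot τ δ i j a * X) k l =
        (if k = i then a * X j l else 0) + if k = j then δ * τ a * X i l else 0 := by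
    intro X i j hij a k l
    simp only [mul_apply, pairRoot, Matrix.add_apply, single_apply, add_mul, sum_add_distrib]
    congr 1
    · rw [Finset.sum_eq_single j]
      · simp only [and_true, eq_comm (a := i)]
        split_ifs <;> simp
      · intro u _ hu; simp [Ne.symm hu]
      · simp
    · rw [Finset.sum_eq_single i]
      · simp only [and_true, eq_comm (a := j)]
        split_ifs <;> simp
      · intro u _ hu; simp [Ne.symm hu]
      · simp
  have hR : R = 0 := by
    ext k i
    obtain ⟨j, hj⟩ := other i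
    have h := congrFun₂ (heq i j (Ne.symm hj) 1).1 k j
    rw [hL R i j (Ne.symm hj), if_pos rfl, if_neg hj, map_one, mul_one, add_zero] at h
    exact h
  have hoff : ∀ k l, k ≠ l → P k l = 0 ∧ T k l = 0 := by
    intro k l hkl
    rcases hcase with hd | h3
    · have h := hdiag hd l
      have hk := hdiag hd k
      rw [siegelN, siegelN, fromBlocks_multiply, fromBlocks_multiply, fromBlocks_inj] at h hk
      simp only [mul_zero, zero_mul, add_zero, zero_add] at h hk
      have e : ∀ i : Fin m, (single i i (1 : F)).map σ = single i i 1 := fun i => by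
        ext u v; simp only [Matrix.map_apply, single_apply]; split_ifs <;> simp
      rw [e] at h hk
      refine ⟨?_, ?_⟩
      · have := congrFun₂ h.2.1 k l
        rw [mul_single_apply_same, single_mul_apply_of_ne _ _ _ _ _ hkl, mul_one] at this
        exact this
      · have := congrFun₂ hk.2.1 k l
        rw [mul_single_apply_of_ne _ _ _ _ _ (Ne.symm hkl), single_mul_apply_same, one_mul] at this
        exact this.symm
    · have hthird : ∃ i : Fin m, i ≠ k ∧ i ≠ l := by
        have hc : 3 ≤ #(univ : Finset (Fin m)) := by rw [card_univ, Fintype.card_fin]; exact h3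
        have := card_le_two (a := k) (b := l)
        have := le_card_sdiff {k, l} (univ : Finset (Fin m))
        obtain ⟨i, hi⟩ : ∃ i, i ∈ (univ \ {k, l} : Finset (Fin m)) := card_pos.mp (by omega)
        simp only [mem_sdiff, mem_univ, true_and, mem_insert, mem_singleton, not_or] at hi
        exact ⟨i, hi⟩
      obtain ⟨i, hik, hil⟩ := hthird
      refine ⟨?_, ?_⟩
      · have h := congrFun₂ (heq l i (Ne.symm hil) 1).2 k i
        rw [hL P l i (Ne.symm hil), hR' T l i (Ne.symm hil), if_pos rfl, if_neg hil,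
          if_neg hkl, if_neg (Ne.symm hik), map_one, mul_one] at h
        simpa using h
      · have h := congrFun₂ (heq i k hik 1).2 i l
        rw [hL P i k hik, hR' T i k hik, if_neg (Ne.symm hkl), if_neg (Ne.symm hil), if_pos rfl,
          if_neg hik] at h
        simpa using h.symm
  have hpd : ∀ i j, i ≠ j → ∀ a, P i i * σ a = a * T j j := by
    intro i j hij a
    have h := congrFun₂ (heq i j hij a).2 i j
    rw [hL P i j hij, hR' T i j hij, if_pos rfl, if_neg (Ne.symm hij), if_pos rfl, if_neg hij] at h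
    simpa using h
  have hpd1 : ∀ i j, i ≠ j → P i i = T j j := fun i j hij => by simpa using hpd i j hij 1
  have hdd : δ = 1 → ∀ i, P i i = T i i := fun hd i => by
    have h := hdiag hd i
    rw [siegelN, siegelN, fromBlocks_multiply, fromBlocks_multiply, fromBlocks_inj] at h
    simp only [mul_zero, zero_mul, add_zero, zero_add] at h
    have e : (single i i (1 : F)).map σ = single i i 1 := by
      ext u v; simp only [Matrix.map_apply, single_apply]; split_ifs <;> simp
    rw [e] at h
    simpa using congrFun₂ h.2.1 i i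
  have hsame : ∀ i, T i i = P i i := by
    intro i
    rcases hcase with hd | h3
    · exact (hdd hd i).symm
    · obtain ⟨j, hj⟩ := other i
      have hc : 3 ≤ #(univ : Finset (Fin m)) := by rw [card_univ, Fintype.card_fin]; exact h3
      have := card_le_two (a := i) (b := j)
      have := le_card_sdiff {i, j} (univ : Finset (Fin m))
      obtain ⟨k, hk⟩ : ∃ k, k ∈ (univ \ {i, j} : Finset (Fin m)) := card_pos.mp (by omega)
      simp only [mem_sdiff, mem_univ, true_and, mem_insert, mem_singleton, not_or] at hk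
      -- `T i = P j = T k = P i`
      rw [← hpd1 j i hj, hpd1 j k (Ne.symm hk.2), hpd1 i k (Ne.symm hk.1)]
  let o : Fin m := ⟨0, by omega⟩
  have hall : ∀ i, P i i = P o o := by
    intro i
    rcases eq_or_ne i o with rfl | h
    · rfl
    · rw [hpd1 i o h, hsame]
  have hP : P = P o o • 1 := by
    ext k l
    rw [Matrix.smul_apply, smul_eq_mul]
    rcases eq_or_ne k l with rfl | h
    · rw [one_apply_eq, mul_one, hall]
    · rw [one_apply_ne h, mul_zero, (hoff k l h).1]
  have hT : T = P o o • 1 := by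
    ext k l
    rw [Matrix.smul_apply, smul_eq_mul]
    rcases eq_or_ne k l with rfl | h
    · rw [one_apply_eq, mul_one, hsame, hall]
    · rw [one_apply_ne h, mul_zero, (hoff k l h).2]
  have hc : P o o ≠ 0 := by
    intro h0
    obtain ⟨Ai, hAi⟩ := hinv
    have h1 := congrFun₂ hAi (Sum.inl o) (Sum.inl o)
    rw [one_apply_eq, mul_apply] at h1
    refine one_ne_zero (h1.symm.trans (sum_eq_zero fun u _ => ?_))
    rcases u with u | u
    · rw [fromBlocks_apply₁₁, hP, h0]; simp
    · rw [fromBlocks_apply₂₁, hR]; simp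
  refine ⟨fun a => ?_, hR, P o o, hc, hP, hT⟩
  obtain ⟨j, hj⟩ := other o
  have h := hpd o j (Ne.symm hj) a
  rw [hsame, hall j, mul_comm a] at h
  exact mul_left_cancel₀ hc h

/-- Commuting with both root groups means scalar. -/
lemma scalar_of_commute_both (hτ : ∀ a, τ (τ a) = a) (hm : 2 ≤ m) (hδ' : δ = 1 ∨ δ = -1)
    (hcase : δ = 1 ∨ 3 ≤ m) (A : Matrix (Fin m ⊕ Fin m) (Fin m ⊕ Fin m) F)
    (hinv : ∃ Ai, Ai * A = 1)
    (hU : ∀ B ∈ siegelSpace (m := m) τ δ, A * siegelN B = siegelN B * A)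
    (hD : ∀ B ∈ siegelSpace (m := m) τ δ,
      A * fromBlocks 0 0 B 0 = fromBlocks 0 0 B 0 * A) :
    ∃ c : F, A = c • 1 := by
  rw [← fromBlocks_toBlocks A] at hU hD hinv
  have hid : ∀ B : Matrix (Fin m) (Fin m) F, B.map (RingEquiv.refl F) = B := fun B => by
    ext; simp
  obtain ⟨-, hR, c, -, hP, hT⟩ := siegel_commutant (τ := τ) hm hcase (RingEquiv.refl F) hinv
    (fun i j hij a => by rw [hid]; exact hU _ (pairRoot_mem hτ hδ' a))
    (fun hd i => by rw [hid]; exact hU _ (diagRoot_mem hd i (map_one τ)))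
  have hQ : A.toBlocks₁₂ = 0 := by
    ext k i
    have : Nontrivial (Fin m) := Fin.nontrivial_iff_two_le.mpr hm
    obtain ⟨j, hj⟩ := exists_ne i
    have h := hD _ (pairRoot_mem hτ hδ' (i := i) (j := j) 1)
    rw [fromBlocks_multiply, fromBlocks_multiply, fromBlocks_inj] at h
    simp only [mul_zero, zero_mul, add_zero, zero_add] at h
    have h' := congrFun₂ h.1 k j
    rw [pairRoot, mul_add, Matrix.add_apply, mul_single_apply_same,
      mul_single_apply_of_ne _ _ _ _ _ hj, mul_one, add_zero, Matrix.zero_apply] at h'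
    exact h'
  refine ⟨c, ?_⟩
  rw [← fromBlocks_toBlocks A, hP, hR, hQ, hT, ← fromBlocks_one, fromBlocks_smul]
  simp

variable {G : Type*} [Group G]

/-- The local condition for an isotropic component. -/
theorem localProp_isotropic (r : ℕ) [Fact r.Prime] [CharP F r] (hr : r ≠ 2)
    (hτ : ∀ a, τ (τ a) = a) (hm : 2 ≤ m) (hδ : δ = 1 ∨ (δ = -1 ∧ 3 ≤ m))
    (φ : siegelGroup (m := m) τ δ →* G)
    (hker : ∀ s ∈ φ.ker, ∃ l : F,
      ((s : Matrix.SpecialLinearGroup (Fin m ⊕ Fin m) F) : Matrix (Fin m ⊕ Fin m) (Fin m ⊕ Fin m) F) = l • (1 : Matrix (Fin m ⊕ Fin m) (Fin m ⊕ Fin m) F))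
    (haut : ∀ g, (∀ y, y ∈ φ.range ↔ g * y * g⁻¹ ∈ φ.range) →
      ∃ (A : GL (Fin m ⊕ Fin m) F) (σ : F ≃+* F), ∀ y : siegelGroup (m := m) τ δ,
        ∃ y' : siegelGroup (m := m) τ δ, ((y' : Matrix.SpecialLinearGroup (Fin m ⊕ Fin m) F) : Matrix (Fin m ⊕ Fin m) (Fin m ⊕ Fin m) F) =
          (A : Matrix (Fin m ⊕ Fin m) (Fin m ⊕ Fin m) F) * ((y : Matrix.SpecialLinearGroup (Fin m ⊕ Fin m) F) : Matrix (Fin m ⊕ Fin m) (Fin m ⊕ Fin m) F).map σ *
            (A⁻¹ : GL (Fin m ⊕ Fin m) F) ∧ g * φ y * g⁻¹ = φ y') :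
    LocalProp 2 φ.range 1 ((siegelUnipotent τ δ).map φ.rangeRestrict) := by
  intro E hsq _ hnorm hk x hx z hz
  have h2 : (2 : F) ≠ 0 := Ring.two_ne_zero ((ringChar.eq F r).trans_ne hr)
  have hδ' : δ = 1 ∨ δ = -1 := hδ.imp_right And.left
  have hcase : δ = 1 ∨ 3 ≤ m := hδ.imp_right And.right
  let ν : siegelGroup (m := m) τ δ →* Matrix (Fin m ⊕ Fin m) (Fin m ⊕ Fin m) F :=
    { toFun := fun s => (s : Matrix.SpecialLinearGroup (Fin m ⊕ Fin m) F)
      map_one' := rfl
      map_mul' := fun _ _ => rfl }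
  let up : ∀ B ∈ siegelSpace (m := m) τ δ, siegelGroup (m := m) τ δ := fun B hB =>
    ⟨siegelUp B, Subgroup.subset_closure (Or.inl ⟨B, hB, rfl⟩)⟩
  have hup : ∀ B hB, ν (up B hB) = 1 + siegelN B := fun B _ => coe_siegelUp B
  let down : ∀ B ∈ siegelSpace (m := m) τ δ, siegelGroup (m := m) τ δ := fun B hB =>
    ⟨siegelDown B, Subgroup.subset_closure (Or.inr ⟨B, hB, rfl⟩)⟩
  have hdown : ∀ B hB, ν (down B hB) = 1 + fromBlocks 0 0 B 0 := fun B _ => by
    show fromBlocks 1 0 B 1 = _
    rw [← fromBlocks_one, fromBlocks_add]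
    simp
  have hdown2 : ∀ B : Matrix (Fin m) (Fin m) F,
      fromBlocks 0 0 B 0 * fromBlocks 0 0 B 0 = (0 : Matrix (Fin m ⊕ Fin m) (Fin m ⊕ Fin m) F) := by
    intro B; rw [fromBlocks_multiply]; simp
  have hscal : ∀ B, (∀ y, φ B * φ y * (φ B)⁻¹ = φ y) → ∃ c : F, ν B = c • 1 := fun B hB =>
    scalar_of_commute_both hτ hm hδ' hcase (ν B) ⟨ν B⁻¹, by rw [← map_mul, inv_mul_cancel, map_one]⟩
      (fun C hC => commute_of_centralises hker hB (hup C hC) (siegelN_sq C C))
      (fun C hC => commute_of_centralises hker hB (hdown C hC) (hdown2 C))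
  obtain ⟨A, σ, himg⟩ := haut x (hnorm x hx)
  set M := fun (B : GL (Fin m ⊕ Fin m) F) => (B : Matrix (Fin m ⊕ Fin m) (Fin m ⊕ Fin m) F)
  have hAA : M A⁻¹ * M A = 1 := by simp [M]
  have hAA' : M A * M A⁻¹ = 1 := mul_eq_one_comm.mp hAA
  have hmapN : ∀ B : Matrix (Fin m) (Fin m) F, (siegelN B).map σ = siegelN (B.map σ) := fun B => by
    rw [siegelN, fromBlocks_map, siegelN]
    congr 1 <;> ext <;> simp
  have hroot : ∀ B ∈ siegelSpace (m := m) τ δ, ∀ k, 2 * k < Fintype.card (Fin m ⊕ Fin m) →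
      ∀ (X X₁ : Matrix (Fin m) (Fin k) F) (Y Y₁ : Matrix (Fin k) (Fin m) F),
      B = X * Y → B.map σ = X₁ * Y₁ →
      M A * siegelN (B.map σ) = siegelN B * M A := by
    intro B hB k hk2 X X₁ Y Y₁ hXY hXY₁
    have hfac : ∀ (C : Matrix (Fin m) (Fin m) F) (U : Matrix (Fin m) (Fin k) F)
        (V : Matrix (Fin k) (Fin m) F), C = U * V →
        siegelN C = fromRows U 0 * fromCols 0 V := by
      intro C U V h
      rw [fromRows_mul_fromCols, h]
      simp [siegelN]
    obtain ⟨t', ht', hxt⟩ := himg (up B hB)⁻¹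
    obtain ⟨e, he, heq⟩ := hk ⟨φ (up B hB), ⟨_, rfl⟩⟩ (Or.inr ⟨up B hB, ⟨B, hB, rfl⟩, rfl⟩) x hx
    obtain ⟨c, hc⟩ := hscal _ (commutator_square rfl hsq hnorm hx he heq hxt)
    refine semilinear_commute h2 hAA (siegelN_sq B B) (siegelN_sq _ _) _ _ (hfac B X Y hXY)
      (hfac _ X₁ Y₁ hXY₁) hk2 ⟨c, ?_⟩
    have ht : ν t' = 1 - M A * siegelN (B.map σ) * M A⁻¹ := by
      refine ht'.trans ?_
      have e0 : ν (up B hB)⁻¹ = 1 - siegelN B := by
        have : (up B hB)⁻¹ = up (-B) (siegelSpace_neg hB) := Subtype.ext (siegelUp_neg B).symm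
        rw [this, hup _ (siegelSpace_neg hB), siegelN, siegelN, sub_eq_add_neg, fromBlocks_neg]
        simp
      change M A * (ν (up B hB)⁻¹).map σ * M A⁻¹ = _
      rw [e0, Matrix.map_sub σ (map_sub σ), Matrix.map_one σ (map_zero σ) (map_one σ), hmapN,
        mul_sub, sub_mul, mul_one, hAA']
    rw [← hc, map_mul, map_mul, hup _ hB, ht]
  have hpair : ∀ i j, i ≠ j → ∀ a, M A * siegelN ((pairRoot τ δ i j a).map σ) =
      siegelN (pairRoot τ δ i j a) * M A := by
    intro i j hij a
    by_cases h3 : 3 ≤ m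
    · -- rank two
      let X : Matrix (Fin m) (Fin 2) F := single i 0 1 + single j 1 1
      refine hroot _ (pairRoot_mem hτ hδ' a) 2 (by simp; omega) X X
        (single 0 j a + single 1 i (δ * τ a)) (single 0 j (σ a) + single 1 i (σ (δ * τ a))) ?_ ?_
      · simp [X, pairRoot, Matrix.add_mul, Matrix.mul_add,
          single_mul_single_of_ne _ _ _ _ (show (0 : Fin 2) ≠ 1 by decide),
          single_mul_single_of_ne _ _ _ _ (show (1 : Fin 2) ≠ 0 by decide)]
      · have : (pairRoot τ δ i j a).map σ = single i j (σ a) + single j i (σ (δ * τ a)) := by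
          ext u v
          simp only [pairRoot, Matrix.map_apply, Matrix.add_apply, single_apply]
          split_ifs <;> simp
        rw [this]
        simp [X, Matrix.add_mul, Matrix.mul_add,
          single_mul_single_of_ne _ _ _ _ (show (0 : Fin 2) ≠ 1 by decide),
          single_mul_single_of_ne _ _ _ _ (show (1 : Fin 2) ≠ 0 by decide)]
    · -- rank one roots suffice
      have hd : δ = 1 := hcase.resolve_right h3
      have hone : ∀ (v : Fin m → F), vecMulVec v (τ ∘ v) ∈ siegelSpace τ δ ∧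
          M A * siegelN ((vecMulVec v (τ ∘ v)).map σ) = siegelN (vecMulVec v (τ ∘ v)) * M A := by
        intro v
        have hmem : vecMulVec v (τ ∘ v) ∈ siegelSpace τ δ := by
          simp only [siegelSpace, Set.mem_ofPred_eq, hd, one_smul]
          ext u w; simp [vecMulVec_apply, hτ, mul_comm]
        refine ⟨hmem, hroot _ hmem 1 (by simp; omega) (replicateCol (Fin 1) v)
          (replicateCol (Fin 1) (σ ∘ v)) (replicateRow (Fin 1) (τ ∘ v))
          (replicateRow (Fin 1) (σ ∘ τ ∘ v)) (vecMulVec_eq _ _ _) ?_⟩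
        refine Eq.trans ?_ (vecMulVec_eq _ _ _)
        ext u w; simp [vecMulVec_apply]
      -- polarisation
      have hsum : ∀ B C D : Matrix (Fin m) (Fin m) F,
          M A * siegelN (B.map σ) = siegelN B * M A → M A * siegelN (C.map σ) = siegelN C * M A →
          M A * siegelN (D.map σ) = siegelN D * M A →
          M A * siegelN ((B - C - D).map σ) = siegelN (B - C - D) * M A := by
        intro B C D hB hC hD
        have e : ∀ U V : Matrix (Fin m) (Fin m) F, siegelN (U - V) = siegelN U - siegelN V := by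
          intro U V
          rw [siegelN, siegelN, siegelN, sub_eq_add_neg (fromBlocks _ _ _ _), fromBlocks_neg,
            fromBlocks_add]
          simp [sub_eq_add_neg]
        rw [Matrix.map_sub σ (map_sub σ), Matrix.map_sub σ (map_sub σ), e, e, e, e, mul_sub,
          mul_sub, sub_mul, sub_mul, hB, hC, hD]
      have key := pairRoot_eq_sub (τ := τ) hτ hd i j a
      rw [key]
      exact hsum _ _ _ (hone _).2 (hone _).2 (hone _).2
  have hdiag : δ = 1 → ∀ i : Fin m, M A * siegelN ((single i i (1 : F)).map σ) =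
      siegelN (single i i (1 : F)) * M A := by
    intro hd i
    refine hroot _ (diagRoot_mem hd i (map_one τ)) 1 (by simp; omega) (single i 0 1) (single i 0 1)
      (single 0 i 1) (single 0 i 1) (by simp) ?_
    ext u v
    simp only [Matrix.map_apply, single_mul_single_same, one_mul, single_apply]
    split_ifs <;> simp
  have hblocks := fromBlocks_toBlocks (M A)
  obtain ⟨hσ, hR, c, hc, hP, hT⟩ := siegel_commutant (τ := τ) hm hcase σ
    (P := (M A).toBlocks₁₁) (Q := (M A).toBlocks₁₂) (R := (M A).toBlocks₂₁) (T := (M A).toBlocks₂₂)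
    ⟨M A⁻¹, by rw [hblocks]; exact hAA⟩ (fun i j hij a => by rw [hblocks]; exact hpair i j hij a)
    (fun hd i => by rw [hblocks]; exact hdiag hd i)
  have himg' : ∀ y, ∃ y', ν y' = M A * ν y * M A⁻¹ ∧ x * φ y * x⁻¹ = φ y' := by
    intro y
    obtain ⟨y', hy', hxy⟩ := himg y
    refine ⟨y', hy'.trans ?_, hxy⟩
    congr 2
    ext; simp [hσ, ν]
  have hxx : x * x = 1 := by rw [← sq]; exact hsq x hx
  obtain ⟨d, hd⟩ := scalar_of_commute_both hτ hm hδ' hcase (M A * M A)
    ⟨M A⁻¹ * M A⁻¹, by rw [mul_assoc (M A⁻¹), ← mul_assoc (M A⁻¹) (M A), hAA, one_mul, hAA]⟩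
    (fun B hB => sq_commute hker hxx hAA himg' (hup B hB) (siegelN_sq B B))
    (fun B hB => sq_commute hker hxx hAA himg' (hdown B hB) (hdown2 B))
  have hQ : (M A).toBlocks₁₂ = 0 := by
    rw [← hblocks, hP, hR, hT, fromBlocks_multiply, ← fromBlocks_one, fromBlocks_smul,
      fromBlocks_inj] at hd
    have h := hd.2.1
    simp only [smul_mul, one_mul, mul_smul_comm, mul_one, smul_zero, ← two_smul F,
      smul_smul] at h
    exact (smul_eq_zero.mp h).resolve_left (mul_ne_zero h2 hc)
  have hA1 : M A = c • 1 := by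
    rw [← hblocks, hP, hR, hT, hQ, ← fromBlocks_one, fromBlocks_smul]
    simp
  obtain ⟨b, rfl⟩ := hz
  obtain ⟨b', hb', hxb⟩ := himg' b
  have hbb : b' = b := Subtype.ext (Subtype.ext (by
    change ν b' = ν b
    rw [hb', hA1, smul_mul, one_mul, smul_mul]
    have h1 : c • M A⁻¹ = 1 := by
      have := hAA; rw [hA1, mul_smul_comm, mul_one] at this; exact this
    rw [← mul_smul_comm, h1, mul_one]))
  rw [hbb] at hxb
  calc x * φ b = x * φ b * x⁻¹ * x := by group
    _ = φ b * x := by rw [hxb]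

end Vale.Agent.P240
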