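import Vale.Agent.P240.FormGroup
import Vale.Agent.P240.Isotropic

/-!
# Explicit root isometries
-/

open Finset Matrix

namespace Vale.Agent.P240

variable {F : Type*} [Field F] {m k : ℕ} {τ : F ≃+* F} {δ : F}
variable {J₀ : Matrix (Fin k) (Fin k) F}

/-- The upper root element with blocks `Y`, `X`, `Z`. -/
def rootUp (Y : Matrix (Fin m) (Fin m) F) (X : Matrix (Fin m) (Fin k) F)
    (Z : Matrix (Fin k) (Fin m) F) :
    Matrix ((Fin m ⊕ Fin m) ⊕ Fin k) ((Fin m ⊕ Fin m) ⊕ Fin k) F :=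
  fromBlocks (fromBlocks 1 Y 0 1) (fromRows X 0) (fromCols 0 Z) 1

/-- The lower root element with blocks `Y`, `X`, `Z`. -/
def rootDown (Y : Matrix (Fin m) (Fin m) F) (X : Matrix (Fin m) (Fin k) F)
    (Z : Matrix (Fin k) (Fin m) F) :
    Matrix ((Fin m ⊕ Fin m) ⊕ Fin k) ((Fin m ⊕ Fin m) ⊕ Fin k) F :=
  fromBlocks (fromBlocks 1 0 Y 1) (fromRows 0 X) (fromCols Z 0) 1

lemma isStrict_rootUp (Y : Matrix (Fin m) (Fin m) F) (X : Matrix (Fin m) (Fin k) F)
    (Z : Matrix (Fin k) (Fin m) F) : IsStrict wittLevel (rootUp Y X Z - 1) := by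
  rintro ((i | i) | i) ((j | j) | j) h <;>
    simp [wittLevel, rootUp, fromRows_apply_inl, fromRows_apply_inr, fromCols_apply_inl, fromCols_apply_inr, one_apply] at h ⊢

lemma isStrict_rootDown (Y : Matrix (Fin m) (Fin m) F) (X : Matrix (Fin m) (Fin k) F)
    (Z : Matrix (Fin k) (Fin m) F) : IsStrict wittLevel (rootDown Y X Z - 1).transpose := by
  rintro ((i | i) | i) ((j | j) | j) h <;>
    simp [wittLevel, rootDown, fromRows_apply_inl, fromRows_apply_inr, fromCols_apply_inl, fromCols_apply_inr, one_apply, eq_comm] at h ⊢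

lemma map_rootUp (f : F ≃+* F) (Y : Matrix (Fin m) (Fin m) F) (X : Matrix (Fin m) (Fin k) F)
    (Z : Matrix (Fin k) (Fin m) F) :
    (rootUp Y X Z).map f = rootUp (Y.map f) (X.map f) (Z.map f) := by
  ext ((i | i) | i) ((j | j) | j) <;>
    simp [rootUp, fromRows_apply_inl, fromRows_apply_inr, fromCols_apply_inl, fromCols_apply_inr, one_apply, apply_ite f]

lemma map_rootDown (f : F ≃+* F) (Y : Matrix (Fin m) (Fin m) F) (X : Matrix (Fin m) (Fin k) F)
    (Z : Matrix (Fin k) (Fin m) F) :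
    (rootDown Y X Z).map f = rootDown (Y.map f) (X.map f) (Z.map f) := by
  ext ((i | i) | i) ((j | j) | j) <;>
    simp [rootDown, fromRows_apply_inl, fromRows_apply_inr, fromCols_apply_inl, fromCols_apply_inr, one_apply, apply_ite f]

lemma map_mul_transpose {a b c : Type*} [Fintype b] (f : F ≃+* F) (A : Matrix a b F)
    (B : Matrix b c F) : ((A * B).map f).transpose = (B.map f).transpose * (A.map f).transpose := by
  rw [Matrix.map_mul, transpose_mul]

lemma isRootIsometry_rootUp {X : Matrix (Fin m) (Fin k) F}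
    {Z : Matrix (Fin k) (Fin m) F} {Y : Matrix (Fin m) (Fin m) F}
    (hX : δ • X + (Z.map τ).transpose * J₀ = 0)
    (hX' : (X.map τ).transpose + J₀ * Z = 0)
    (hY : δ • Y + (Y.map τ).transpose + (Z.map τ).transpose * J₀ * Z = 0) :
    IsRootIsometry τ δ J₀ (rootUp Y X Z) := by
  refine ⟨?_, Or.inl (isStrict_rootUp Y X Z)⟩
  rw [map_rootUp, rootUp, rootUp, wittForm]
  simp only [fromBlocks_transpose, transpose_one, transpose_zero, transpose_fromRows,
    transpose_fromCols, fromBlocks_multiply, fromCols_mul_fromBlocks, fromBlocks_mul_fromRows,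
    fromRows_mul, mul_fromCols, fromRows_mul_fromCols, fromCols_mul_fromRows, Matrix.mul_zero,
    Matrix.zero_mul, Matrix.one_mul, Matrix.mul_one, add_zero, zero_add, Matrix.smul_mul,
    Matrix.mul_smul]
  ext ((i | i) | i) ((j | j) | j) <;>
    simp [fromRows_apply_inl, fromRows_apply_inr] <;>
    first
    | exact congrFun₂ hX i j
    | exact congrFun₂ hX' i j
    | exact congrFun₂ hY i j

lemma isRootIsometry_rootDown {X : Matrix (Fin m) (Fin k) F}
    {Z : Matrix (Fin k) (Fin m) F} {Y : Matrix (Fin m) (Fin m) F}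
    (hX : X + (Z.map τ).transpose * J₀ = 0)
    (hX' : δ • (X.map τ).transpose + J₀ * Z = 0)
    (hY : Y + δ • (Y.map τ).transpose + (Z.map τ).transpose * J₀ * Z = 0) :
    IsRootIsometry τ δ J₀ (rootDown Y X Z) := by
  refine ⟨?_, Or.inr (isStrict_rootDown Y X Z)⟩
  rw [map_rootDown, rootDown, rootDown, wittForm]
  simp only [fromBlocks_transpose, transpose_one, transpose_zero, transpose_fromRows,
    transpose_fromCols, fromBlocks_multiply, fromCols_mul_fromBlocks, fromBlocks_mul_fromRows,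
    fromRows_mul, mul_fromCols, fromRows_mul_fromCols, fromCols_mul_fromRows, Matrix.mul_zero,
    Matrix.zero_mul, Matrix.one_mul, Matrix.mul_one, add_zero, zero_add, Matrix.smul_mul,
    Matrix.mul_smul]
  ext ((i | i) | i) ((j | j) | j) <;>
    simp [fromRows_apply_inl, fromRows_apply_inr] <;>
    first
    | exact congrFun₂ hX i j
    | exact congrFun₂ hX' i j
    | (have := congrFun₂ hY i j; simp at this; linear_combination this)

/-- The element `(1 Y; 0 1)` of the Siegel radical. -/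
lemma isRootIsometry_siegel_up {Y : Matrix (Fin m) (Fin m) F}
    (hY : Y ∈ siegelSpace τ (-δ)) : IsRootIsometry τ δ J₀ (rootUp Y 0 0) := by
  refine isRootIsometry_rootUp (by simp) (by simp) ?_
  simp only [siegelSpace, Set.mem_ofPred_eq, transpose_map] at hY
  simp [hY]

/-- The element `(1 0; Y 1)` of the opposite radical. -/
lemma isRootIsometry_siegel_down (hδ : δ * δ = 1) {Y : Matrix (Fin m) (Fin m) F}
    (hY : Y ∈ siegelSpace τ (-δ)) : IsRootIsometry τ δ J₀ (rootDown Y 0 0) := by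
  refine isRootIsometry_rootDown (by simp) (by simp) ?_
  simp only [siegelSpace, Set.mem_ofPred_eq, transpose_map] at hY
  simp [hY, smul_smul, hδ]

/-- The upper root element attached to `Z`. -/
def tUp (τ : F ≃+* F) (δ : F) (J₀ : Matrix (Fin k) (Fin k) F) (Z : Matrix (Fin k) (Fin m) F) :
    Matrix ((Fin m ⊕ Fin m) ⊕ Fin k) ((Fin m ⊕ Fin m) ⊕ Fin k) F :=
  rootUp ((-δ / 2) • ((Z.map τ).transpose * J₀ * Z)) ((-δ) • ((Z.map τ).transpose * J₀)) Z

/-- The lower root element attached to `Z`. -/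
def tDown (τ : F ≃+* F) (J₀ : Matrix (Fin k) (Fin k) F) (Z : Matrix (Fin k) (Fin m) F) :
    Matrix ((Fin m ⊕ Fin m) ⊕ Fin k) ((Fin m ⊕ Fin m) ⊕ Fin k) F :=
  rootDown ((-1 / 2 : F) • ((Z.map τ).transpose * J₀ * Z)) (-((Z.map τ).transpose * J₀)) Z

lemma map_smul_mat {a b : Type*} (f : F ≃+* F) (c : F) (A : Matrix a b F) :
    (c • A).map f = f c • A.map f := by
  ext i j; simp

lemma bar_product (hτ : ∀ a, τ (τ a) = a) (hJ : (J₀.map τ).transpose = δ • J₀)
    (Z : Matrix (Fin k) (Fin m) F) :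
    (((Z.map τ).transpose * J₀).map τ).transpose = δ • (J₀ * Z) ∧
      (((Z.map τ).transpose * J₀ * Z).map τ).transpose =
        δ • ((Z.map τ).transpose * J₀ * Z) := by
  have e : (((Z.map τ).transpose).map τ).transpose = Z := by ext i j; simp [hτ]
  have h1 : (((Z.map τ).transpose * J₀).map τ).transpose = δ • (J₀ * Z) := by
    rw [map_mul_transpose, hJ, e, Matrix.smul_mul]
  exact ⟨h1, by rw [map_mul_transpose, h1, Matrix.mul_smul, Matrix.mul_assoc]⟩

lemma isRootIsometry_tUp (hτ : ∀ a, τ (τ a) = a) (hδ : δ = 1 ∨ δ = -1) (h2 : (2 : F) ≠ 0)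
    (hJ : (J₀.map τ).transpose = δ • J₀) (Z : Matrix (Fin k) (Fin m) F) :
    IsRootIsometry τ δ J₀ (tUp τ δ J₀ Z) := by
  obtain ⟨h1, h3⟩ := bar_product hτ hJ Z
  have hδδ : δ * δ = 1 := by rcases hδ with rfl | rfl <;> simp
  have hτδ : τ δ = δ := by rcases hδ with rfl | rfl <;> simp
  refine isRootIsometry_rootUp ?_ ?_ ?_
  · simp [smul_smul, hδδ]
  · rw [map_smul_mat, transpose_smul, h1, smul_smul]
    simp [hτδ, hδδ]
  · rw [map_smul_mat, transpose_smul, h3, smul_smul, smul_smul, ← add_smul]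
    have : δ * (-δ / 2) + τ (-δ / 2) * δ + 1 = 0 := by
      rw [map_div₀, map_neg, hτδ, map_ofNat]
      field_simp
      linear_combination -2 * hδδ
    rw [show δ * (-δ / 2) + τ (-δ / 2) * δ = -1 by linear_combination this]
    simp

lemma isRootIsometry_tDown (hτ : ∀ a, τ (τ a) = a) (hδ : δ = 1 ∨ δ = -1) (h2 : (2 : F) ≠ 0)
    (hJ : (J₀.map τ).transpose = δ • J₀) (Z : Matrix (Fin k) (Fin m) F) :
    IsRootIsometry τ δ J₀ (tDown τ J₀ Z) := by
  obtain ⟨h1, h3⟩ := bar_product hτ hJ Z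
  have hδδ : δ * δ = 1 := by rcases hδ with rfl | rfl <;> simp
  refine isRootIsometry_rootDown ?_ ?_ ?_
  · simp
  · rw [Matrix.map_neg, transpose_neg, h1, smul_neg, smul_smul, hδδ, one_smul, neg_add_cancel]
    · simp
  · rw [map_smul_mat, transpose_smul, h3, smul_smul, smul_smul, ← add_smul]
    have : (-1 / 2 : F) + δ * τ (-1 / 2) * δ = -1 := by
      rw [map_div₀, map_neg, map_one, map_ofNat]
      field_simp
      linear_combination -hδδ
    rw [this]
    simp

end Vale.Agent.P240
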