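import Vale.Agent.P240.ComponentKinds
import Vale.Agent.P240.FormRoots

/-!
# Semilinear maps commuting with the root isometries
-/

open Finset Matrix

namespace Vale.Agent.P240

variable {F : Type*} [Field F] {m k : ℕ} {τ : F ≃+* F} {δ : F}
variable {J₀ : Matrix (Fin k) (Fin k) F}

/-- A basic element of the Siegel space: of rank one if `δ = -1`, of rank two otherwise. -/
def IsBasicRoot (τ : F ≃+* F) (δ : F) (B : Matrix (Fin m) (Fin m) F) : Prop :=
  (δ = -1 ∧ ∃ i, B = single i i 1) ∨ (δ = 1 ∧ ∃ i j, i ≠ j ∧ B = pairRoot τ (-δ) i j 1)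

lemma IsBasicRoot.mem (hτ : ∀ a, τ (τ a) = a) {B : Matrix (Fin m) (Fin m) F}
    (h : IsBasicRoot τ δ B) : B ∈ siegelSpace τ (-δ) := by
  rcases h with ⟨rfl, i, rfl⟩ | ⟨rfl, i, j, -, rfl⟩
  · exact diagRoot_mem (neg_neg 1) i (map_one τ)
  · exact pairRoot_mem hτ (Or.inr rfl) 1

/-- The basic roots annihilate nothing. -/
lemma basicRoot_span (hc : WittParams δ m k) (h2 : (2 : F) ≠ 0) (σ : F ≃+* F) {n : ℕ} :
    (∀ X : Matrix (Fin n) (Fin m) F,
      (∀ B, IsBasicRoot (m := m) τ δ B → X * B.map σ = 0) → X = 0) ∧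
    ∀ X : Matrix (Fin m) (Fin n) F, (∀ B, IsBasicRoot (m := m) τ δ B → B * X = 0) → X = 0 := by
  rcases hc.2.1 with hd | hd
  · -- pairs
    have hm : 2 ≤ m := by
      rcases hc.1 with h | ⟨-, h, -⟩
      · exact h
      · exact absurd (hd ▸ h : (1 : F) = -1) (fun h => h2 (by linear_combination h))
    have : Nontrivial (Fin m) := Fin.nontrivial_iff_two_le.mpr hm
    refine ⟨fun X hX => ?_, fun X hX => ?_⟩ <;> ext a b
    · obtain ⟨j, hj⟩ := exists_ne b
      have h := congrFun₂ (hX _ (Or.inr ⟨hd, b, j, Ne.symm hj, rfl⟩)) a j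
      rw [pairRoot, Matrix.map_add σ (map_add σ), Matrix.mul_add, Matrix.add_apply] at h
      simpa [mul_apply, single_apply, apply_ite σ, Ne.symm hj, hj] using h
    · obtain ⟨j, hj⟩ := exists_ne a
      have h := congrFun₂ (hX _ (Or.inr ⟨hd, j, a, hj, rfl⟩)) j b
      simpa [pairRoot, Matrix.add_mul, mul_apply, single_apply, Ne.symm hj, hj] using h
  · refine ⟨fun X hX => ?_, fun X hX => ?_⟩ <;> ext a b
    · have h := congrFun₂ (hX _ (Or.inl ⟨hd, b, rfl⟩)) a b
      simpa [mul_apply, single_apply, apply_ite σ] using h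
    · have h := congrFun₂ (hX _ (Or.inl ⟨hd, a, rfl⟩)) a b
      simpa [mul_apply, single_apply] using h

/-- The nilpotent part of an upper Siegel element. -/
def upN (B : Matrix (Fin m) (Fin m) F) :
    Matrix ((Fin m ⊕ Fin m) ⊕ Fin k) ((Fin m ⊕ Fin m) ⊕ Fin k) F :=
  fromBlocks (siegelN B) 0 0 0

/-- The nilpotent part of a lower Siegel element. -/
def downN (B : Matrix (Fin m) (Fin m) F) :
    Matrix ((Fin m ⊕ Fin m) ⊕ Fin k) ((Fin m ⊕ Fin m) ⊕ Fin k) F :=
  fromBlocks (fromBlocks 0 0 B 0) 0 0 0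

lemma rootUp_eq (B : Matrix (Fin m) (Fin m) F) :
    rootUp B (0 : Matrix (Fin m) (Fin k) F) 0 = 1 + upN B := by
  ext ((i | i) | i) ((j | j) | j) <;> simp [rootUp, upN, siegelN, one_apply]

lemma rootDown_eq (B : Matrix (Fin m) (Fin m) F) :
    rootDown B (0 : Matrix (Fin m) (Fin k) F) 0 = 1 + downN B := by
  ext ((i | i) | i) ((j | j) | j) <;> simp [rootDown, downN, one_apply]

lemma map_upN (σ : F ≃+* F) (B : Matrix (Fin m) (Fin m) F) :
    (upN (k := k) B).map σ = upN (B.map σ) := by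
  ext ((i | i) | i) ((j | j) | j) <;> simp [upN, siegelN]

variable {A : Matrix ((Fin m ⊕ Fin m) ⊕ Fin k) ((Fin m ⊕ Fin m) ⊕ Fin k) F}

/-- Commuting with the basic upper roots forces triangularity. -/
lemma triangular_of_basic (hc : WittParams δ m k) (h2 : (2 : F) ≠ 0) (σ : F ≃+* F)
    (h : ∀ B, IsBasicRoot (m := m) τ δ B → A * upN (B.map σ) = upN B * A) :
    A.BlockTriangular wittLevel := by
  have key : ∀ B, IsBasicRoot (m := m) τ δ B →
      A.toBlocks₁₁.toBlocks₂₁ * B.map σ = 0 ∧ A.toBlocks₂₁.toCols₁ * B.map σ = 0 ∧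
        B * A.toBlocks₁₂.toRows₂ = 0 := by
    intro B hB
    have h' := h B hB
    rw [← fromBlocks_toBlocks A, ← fromBlocks_toBlocks A.toBlocks₁₁,
      ← fromRows_toRows A.toBlocks₁₂, ← fromCols_toCols A.toBlocks₂₁] at h'
    simp only [upN, siegelN, fromBlocks_multiply, fromBlocks_mul_fromRows, fromCols_mul_fromBlocks,
      Matrix.mul_zero, Matrix.zero_mul, add_zero, zero_add, fromBlocks_inj] at h'
    obtain ⟨h11, h12, h21, -⟩ := h'
    refine ⟨?_, ?_, ?_⟩
    · exact h11.2.2.2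
    · exact congrArg toCols₂ h21
    · exact (congrArg toRows₁ h12).symm
  have hR := (basicRoot_span (τ := τ) hc h2 σ).1 _ fun B hB => (key B hB).1
  have hW := (basicRoot_span (τ := τ) hc h2 σ).1 _ fun B hB => (key B hB).2.1
  have hX := (basicRoot_span (τ := τ) hc h2 σ).2 _ fun B hB => (key B hB).2.2
  rintro ((i | i) | i) ((j | j) | j) hij <;> simp [wittLevel] at hij
  · exact congrFun₂ hR i j
  · exact congrFun₂ hX i j
  · exact congrFun₂ hW i j

/-- Commuting with every upper root isometry, semilinearly, forces a unitriangular matrix up to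
a scalar, and a trivial field automorphism. -/
lemma form_commutant (hc : WittParams δ m k) (hτ : ∀ a, τ (τ a) = a) (h2 : (2 : F) ≠ 0)
    (hJ : (J₀.map τ).transpose = δ • J₀) (hdet : IsUnit J₀.det) (σ : F ≃+* F)
    {Ai : Matrix ((Fin m ⊕ Fin m) ⊕ Fin k) ((Fin m ⊕ Fin m) ⊕ Fin k) F} (hA : Ai * A = 1)
    (h : ∀ g, IsRootIsometry τ δ J₀ g → IsStrict wittLevel (g - 1) → A * g.map σ = g * A) :
    (∀ a, σ a = a) ∧ ∃ t : F, t ≠ 0 ∧ IsStrict wittLevel (A - t • 1) := by
  have hN : ∀ B ∈ siegelSpace (m := m) τ (-δ), A * upN (B.map σ) = upN B * A := by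
    intro B hB
    have h' := h _ (isRootIsometry_siegel_up hB) (isStrict_rootUp _ _ _)
    rw [rootUp_eq, Matrix.map_add σ (map_add σ), Matrix.map_one σ (map_zero σ) (map_one σ),
      map_upN, mul_add, add_mul, mul_one, one_mul] at h'
    exact add_left_cancel h'
  have hT := triangular_of_basic (τ := τ) hc h2 σ fun B hB => hN B (hB.mem hτ)
  obtain ⟨P, Q, R, T, hPQ⟩ : ∃ P Q R T, A.toBlocks₁₁ = fromBlocks P Q R T :=
    ⟨_, _, _, _, (fromBlocks_toBlocks _).symm⟩
  obtain ⟨X, X', hXX⟩ : ∃ X X', A.toBlocks₁₂ = fromRows X X' :=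
    ⟨_, _, (fromRows_toRows _).symm⟩
  obtain ⟨W, W', hWW⟩ : ∃ W W', A.toBlocks₂₁ = fromCols W W' :=
    ⟨_, _, (fromCols_toCols _).symm⟩
  have hAe : A = fromBlocks (fromBlocks P Q R T) (fromRows X X') (fromCols W W') A.toBlocks₂₂ := by
    rw [← hPQ, ← hXX, ← hWW, fromBlocks_toBlocks]
  generalize A.toBlocks₂₂ = M at hAe
  subst hAe
  have hR : R = 0 := by
    ext i j
    simpa using hT (show wittLevel (Sum.inl (Sum.inl j) : (Fin m ⊕ Fin m) ⊕ Fin k) <
      wittLevel (Sum.inl (Sum.inr i)) by simp [wittLevel])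
  have hW : W = 0 := by
    ext i j
    simpa using hT (show wittLevel (Sum.inl (Sum.inl j) : (Fin m ⊕ Fin m) ⊕ Fin k) <
      wittLevel (Sum.inr i) by simp [wittLevel])
  have hX' : X' = 0 := by
    ext i j
    simpa using hT (show wittLevel (Sum.inr j : (Fin m ⊕ Fin m) ⊕ Fin k) <
      wittLevel (Sum.inl (Sum.inr i)) by simp [wittLevel])
  subst hR hW hX'
  suffices key : (∀ a, σ a = a) ∧ ∃ t : F, t ≠ 0 ∧ P = t • 1 ∧ T = t • 1 ∧ M = t • 1 by
    obtain ⟨hσ, t, ht, rfl, rfl, rfl⟩ := key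
    refine ⟨hσ, t, ht, ?_⟩
    rintro ((i | i) | i) ((j | j) | j) hij <;>
      simp [wittLevel, one_apply] at hij ⊢
  rcases Nat.eq_zero_or_pos k with rfl | hk
  · have hm : 2 ≤ m := hc.1.resolve_right (fun h => by omega)
    have hcase : -δ = 1 ∨ 3 ≤ m := by
      rcases hc.2.1 with hd | hd
      · exact Or.inr (hc.2.2 hd rfl)
      · exact Or.inl (by rw [hd, neg_neg])
    have heq : ∀ B ∈ siegelSpace (m := m) τ (-δ),
        fromBlocks P Q 0 T * siegelN (B.map σ) = siegelN B * fromBlocks P Q 0 T := by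
      intro B hB
      have h' := congrArg toBlocks₁₁ (hN B hB)
      simpa [upN, fromBlocks_multiply] using h'
    have hi : Ai.toBlocks₁₁ * fromBlocks P Q 0 T = 1 := by
      have h' := congrArg toBlocks₁₁ hA
      rw [← fromBlocks_toBlocks Ai, fromBlocks_multiply, ← fromBlocks_one,
        toBlocks_fromBlocks₁₁, toBlocks_fromBlocks₁₁] at h'
      rw [← h', Subsingleton.elim Ai.toBlocks₁₂ 0, Matrix.zero_mul, add_zero]
    obtain ⟨hσ, -, t, ht, hP, hT'⟩ := siegel_commutant (τ := τ) hm hcase σ ⟨_, hi⟩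
      (fun i j hij a => heq _ (pairRoot_mem hτ (hc.2.1.symm.imp (fun h => by rw [h, neg_neg])
        (fun h => by rw [h])) a))
      (fun hd i => heq _ (diagRoot_mem hd i (map_one τ)))
    exact ⟨hσ, t, ht, hP, hT', Subsingleton.elim _ _⟩
  have heq : ∀ Z : Matrix (Fin k) (Fin m) F,
      M * Z.map σ = Z * T ∧
        P * ((-δ) • ((Z.map τ).transpose * J₀)).map σ = (-δ) • ((Z.map τ).transpose * J₀) * M := by
    intro Z
    have h' := h _ (isRootIsometry_tUp hτ hc.2.1 h2 hJ Z) (isStrict_rootUp _ _ _)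
    rw [tUp, map_rootUp] at h'
    simp only [rootUp, fromBlocks_multiply, fromBlocks_mul_fromRows, fromCols_mul_fromBlocks,
      fromRows_mul, mul_fromCols, fromRows_mul_fromCols, fromCols_mul_fromRows, Matrix.mul_zero,
      Matrix.zero_mul, Matrix.mul_one, Matrix.one_mul, add_zero, zero_add, fromBlocks_inj] at h'
    obtain ⟨-, h12, h21, -⟩ := h'
    refine ⟨?_, ?_⟩
    · ext i j
      have := congrFun₂ h21 i (Sum.inr j)
      simp at this
      linear_combination this
    · ext i j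
      have := congrFun₂ h12 (Sum.inl i) j
      simp at this ⊢
      linear_combination this
  let a₀ : Fin k := ⟨0, hk⟩
  have hm : 1 ≤ m := by rcases hc.1 with h | ⟨h, -⟩ <;> omega
  let i₀ : Fin m := ⟨0, hm⟩
  have hent : ∀ (a : Fin k) (i : Fin m) (c : F) (b : Fin k) (j : Fin m),
      (if j = i then M b a * σ c else 0) = if b = a then c * T i j else 0 := by
    intro a i c b j
    have := congrFun₂ (heq (single a i c)).1 b j
    simpa [mul_apply, single_apply, apply_ite σ, ite_and, eq_comm] using this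
  have hMoff : ∀ b a, b ≠ a → M b a = 0 := fun b a hba => by
    simpa [hba] using hent a i₀ 1 b i₀
  have hdiag : ∀ a i, M a a = T i i := fun a i => by simpa using hent a i 1 a i
  have hMe : M = M a₀ a₀ • 1 := by
    ext b a
    rw [Matrix.smul_apply, smul_eq_mul]
    rcases eq_or_ne b a with rfl | hba
    · rw [one_apply_eq, mul_one, hdiag b i₀, ← hdiag a₀ i₀]
    · rw [one_apply_ne hba, mul_zero, hMoff b a hba]
  have hTe : T = M a₀ a₀ • 1 := by
    ext i j
    rw [Matrix.smul_apply, smul_eq_mul]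
    rcases eq_or_ne i j with rfl | hij
    · rw [one_apply_eq, mul_one, hdiag a₀ i]
    · rw [one_apply_ne hij, mul_zero]
      simpa [Ne.symm hij] using (hent a₀ i 1 a₀ j).symm
  set t := M a₀ a₀
  have ht : t ≠ 0 := by
    intro h0
    have hAi : (fromBlocks (fromBlocks P Q 0 T) (fromRows X 0) (fromCols 0 W') M) * Ai = 1 :=
      mul_eq_one_comm.mp hA
    have h1 := congrFun₂ hAi (Sum.inl (Sum.inr i₀)) (Sum.inl (Sum.inr i₀))
    rw [one_apply_eq, mul_apply] at h1
    refine one_ne_zero (h1.symm.trans (sum_eq_zero fun u _ => ?_))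
    rcases u with (u | u) | u <;> simp [hTe, h0]
  have hσ : ∀ c, σ c = c := fun c => by
    have := hent a₀ i₀ c a₀ i₀
    rw [if_pos rfl, if_pos rfl, hTe] at this
    simp only [Matrix.smul_apply, one_apply_eq, smul_eq_mul, mul_one] at this
    exact mul_left_cancel₀ ht (this.trans (mul_comm c t))
  refine ⟨hσ, t, ht, ?_, hTe, hMe⟩
  ext i j
  have h' := (heq (single a₀ j 1)).2
  rw [map_smul_mat, Matrix.mul_smul, hσ, Matrix.smul_mul, hMe, Matrix.mul_smul, Matrix.mul_one,
    show ((((single a₀ j (1 : F)).map τ).transpose * J₀).map σ) =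
      (((single a₀ j (1 : F)).map τ).transpose * J₀) by ext u v; simp [hσ]] at h'
  have hne : (-δ : F) ≠ 0 := by rcases hc.2.1 with rfl | rfl <;> simp
  have h'' := congrArg (fun Y => Y * J₀⁻¹) (smul_right_injective _ hne h')
  simp only [Matrix.smul_mul, Matrix.mul_assoc, Matrix.mul_nonsing_inv _ hdet, Matrix.mul_one]
    at h''
  have := congrFun₂ h'' i a₀
  simpa [mul_apply, single_apply, apply_ite τ, ite_and, one_apply, eq_comm] using this

/-- Commuting with every root isometry means scalar. -/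
lemma scalar_of_commute_roots_form (hc : WittParams δ m k) (hτ : ∀ a, τ (τ a) = a)
    (h2 : (2 : F) ≠ 0) (hJ : (J₀.map τ).transpose = δ • J₀) (hdet : IsUnit J₀.det)
    {Ai : Matrix ((Fin m ⊕ Fin m) ⊕ Fin k) ((Fin m ⊕ Fin m) ⊕ Fin k) F} (hA : Ai * A = 1)
    (h : ∀ g, IsRootIsometry τ δ J₀ g → A * g = g * A) : ∃ t : F, A = t • 1 := by
  obtain ⟨-, t, -, hS⟩ := form_commutant hc hτ h2 hJ hdet (RingEquiv.refl F) hA fun g hg _ => by
    simpa using h g hg
  have hδδ : δ * δ = 1 := by rcases hc.2.1 with rfl | rfl <;> simp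
  have key : ∀ B, IsBasicRoot (m := m) τ δ B →
      A.toBlocks₁₁.toBlocks₁₂ * B.map (RingEquiv.refl F) = 0 ∧
      A.toBlocks₂₁.toCols₂ * B.map (RingEquiv.refl F) = 0 ∧ B * A.toBlocks₁₂.toRows₁ = 0 := by
    intro B hB
    have h' := h _ (isRootIsometry_siegel_down hδδ (hB.mem hτ))
    rw [rootDown_eq, mul_add, add_mul, mul_one, one_mul] at h'
    have h'' := add_left_cancel h'
    rw [← fromBlocks_toBlocks A, ← fromBlocks_toBlocks A.toBlocks₁₁,
      ← fromRows_toRows A.toBlocks₁₂, ← fromCols_toCols A.toBlocks₂₁] at h''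
    simp only [downN, fromBlocks_multiply, fromBlocks_mul_fromRows, fromCols_mul_fromBlocks,
      Matrix.mul_zero, Matrix.zero_mul, add_zero, zero_add, fromBlocks_inj] at h''
    obtain ⟨h11, h12, h21, -⟩ := h''
    rw [show B.map (RingEquiv.refl F) = B by ext; simp]
    exact ⟨h11.1, congrArg toCols₁ h21, (congrArg toRows₂ h12).symm⟩
  have hQ := (basicRoot_span (τ := τ) hc h2 _).1 _ fun B hB => (key B hB).1
  have hW := (basicRoot_span (τ := τ) hc h2 _).1 _ fun B hB => (key B hB).2.1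
  have hX := (basicRoot_span (τ := τ) hc h2 (RingEquiv.refl F)).2 _ fun B hB => (key B hB).2.2
  refine ⟨t, sub_eq_zero.mp ?_⟩
  ext i j
  by_cases hij : wittLevel j ≤ wittLevel i
  · exact hS hij
  · rcases i with (i | i) | i <;> rcases j with (j | j) | j <;> simp [wittLevel] at hij
    · exact (by simp [Matrix.sub_apply, one_apply, congrFun₂ hQ i j] <;> exact congrFun₂ hQ i j)
    · exact (by simp [Matrix.sub_apply, one_apply, congrFun₂ hX i j] <;> exact congrFun₂ hX i j)
    · exact (by simp [Matrix.sub_apply, one_apply, congrFun₂ hW i j] <;> exact congrFun₂ hW i j)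

end Vale.Agent.P240
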