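import Vale.Agent.P240.Unitriangular

/-!
# Root isometries of a hermitian, alternating or symmetric form of positive Witt index
-/

open Finset Matrix

namespace Vale.Agent.P240

variable {F : Type*} [Field F] {m k : ℕ}

/-- The form `e_i ⊗ f_i + δ f_i ⊗ e_i + J₀` on `F^m ⊕ F^m ⊕ F^k`. -/
def wittForm (m : ℕ) (δ : F) (J₀ : Matrix (Fin k) (Fin k) F) :
    Matrix ((Fin m ⊕ Fin m) ⊕ Fin k) ((Fin m ⊕ Fin m) ⊕ Fin k) F :=
  fromBlocks (fromBlocks 0 1 (δ • 1) 0) 0 0 J₀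

/-- The levels `0, 2, 1` of the three parts of `F^m ⊕ F^m ⊕ F^k`. -/
def wittLevel : (Fin m ⊕ Fin m) ⊕ Fin k → ℕ :=
  Sum.elim (Sum.elim (fun _ => 0) fun _ => 2) fun _ => 1

/-- The matrix `g` preserves the form and is unitriangular for the flag or for the opposite
flag. -/
def IsRootIsometry (τ : F ≃+* F) (δ : F) (J₀ : Matrix (Fin k) (Fin k) F)
    (g : Matrix ((Fin m ⊕ Fin m) ⊕ Fin k) ((Fin m ⊕ Fin m) ⊕ Fin k) F) : Prop :=
  (g.map τ).transpose * wittForm m δ J₀ * g = wittForm m δ J₀ ∧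
    (IsStrict wittLevel (g - 1) ∨ IsStrict wittLevel (g - 1).transpose)

end Vale.Agent.P240
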