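import Vale.Agent.P240.FormCommutant

/-!
# The local condition at a classical component of positive Witt index
-/

open Finset Matrix

namespace Vale.Agent.P240

variable {F : Type*} [Field F] {m k : ℕ} {τ : F ≃+* F} {δ : F}
variable {J₀ : Matrix (Fin k) (Fin k) F}

lemma wittLevel_le (i : (Fin m ⊕ Fin m) ⊕ Fin k) : wittLevel i ≤ 2 := by
  rcases i with (i | i) | i <;> simp [wittLevel]

/-- A root isometry has order dividing the characteristic. -/
lemma IsRootIsometry.pow_char {r : ℕ} [Fact r.Prime] [CharP F r] (hr : r ≠ 2)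
    {g : Matrix ((Fin m ⊕ Fin m) ⊕ Fin k) ((Fin m ⊕ Fin m) ⊕ Fin k) F}
    (hg : IsRootIsometry τ δ J₀ g) : g ^ r = 1 := by
  rcases hg.2 with h | h
  · simpa using h.pow_char wittLevel_le hr
  · have h' := h.pow_char wittLevel_le hr
    rw [show (1 : Matrix ((Fin m ⊕ Fin m) ⊕ Fin k) ((Fin m ⊕ Fin m) ⊕ Fin k) F) + (g - 1).transpose =
      g.transpose by rw [transpose_sub, transpose_one, add_sub_cancel], ← transpose_pow] at h'
    simpa using congrArg transpose h'

/-- A unitriangular matrix whose square is scalar is the identity. -/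
lemma strict_eq_zero_of_sq [Nonempty ((Fin m ⊕ Fin m) ⊕ Fin k)] {r : ℕ} [Fact r.Prime] [CharP F r]
    (hr : r ≠ 2) {M : Matrix ((Fin m ⊕ Fin m) ⊕ Fin k) ((Fin m ⊕ Fin m) ⊕ Fin k) F}
    (hM : IsStrict wittLevel M) {c : F} (h : (1 + M) * (1 + M) = c • 1) : M = 0 := by
  have hs : IsStrict wittLevel ((c - 1) • (1 : Matrix ((Fin m ⊕ Fin m) ⊕ Fin k) _ F)) := by
    rw [show (c - 1) • (1 : Matrix ((Fin m ⊕ Fin m) ⊕ Fin k) _ F) = M * M + M + M by
      rw [sub_smul, one_smul, ← h]; noncomm_ring]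
    exact ((hM.mul hM).add hM).add hM
  rw [sub_eq_zero.mp hs.smul_one_eq_zero, one_smul, ← sq] at h
  have h' := hM.pow_char wittLevel_le hr
  obtain ⟨e, rfl⟩ := (Fact.out : r.Prime).odd_of_ne_two hr
  rw [pow_succ, pow_mul, h, one_pow, one_mul] at h'
  simpa using h'

/-- A semilinear map with involutive commutators against all upper root isometries. -/
lemma form_sigma_trivial {r : ℕ} [Fact r.Prime] [CharP F r] (hr : r ≠ 2)
    (hc : WittParams δ m k) (hτ : ∀ a, τ (τ a) = a) (hJ : (J₀.map τ).transpose = δ • J₀)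
    (hdet : IsUnit J₀.det) (σ : F ≃+* F)
    {A Ai : Matrix ((Fin m ⊕ Fin m) ⊕ Fin k) ((Fin m ⊕ Fin m) ⊕ Fin k) F} (hAA : Ai * A = 1)
    (hcom : ∀ g, IsRootIsometry τ δ J₀ g → IsStrict wittLevel (g - 1) →
      ∃ gi, gi * g = 1 ∧ IsStrict wittLevel (gi - 1) ∧
        ∃ c : F, g * (A * gi.map σ * Ai) * (g * (A * gi.map σ * Ai)) = c • 1) :
    (∀ a, σ a = a) ∧ ∃ t : F, t ≠ 0 ∧ IsStrict wittLevel (A - t • 1) := by
  have h2 : (2 : F) ≠ 0 := Ring.two_ne_zero ((ringChar.eq F r).trans_ne hr)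
  have hm : 1 ≤ m := by rcases hc.1 with h | ⟨h, -⟩ <;> omega
  have : Nonempty ((Fin m ⊕ Fin m) ⊕ Fin k) := ⟨Sum.inl (Sum.inl ⟨0, hm⟩)⟩
  have hAA' : A * Ai = 1 := mul_eq_one_comm.mp hAA
  -- basic roots
  have hbasic : ∀ B, IsBasicRoot (m := m) τ δ B → A * upN (B.map σ) = upN B * A := by
    intro B hB
    have hroot := isRootIsometry_siegel_up (J₀ := J₀) (hB.mem hτ)
    obtain ⟨gi, hgi, -, c, hc'⟩ := hcom _ hroot (isStrict_rootUp B 0 0)
    have hgi' : gi = 1 - upN B := by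
      have h1 : (1 + upN (k := k) B) * (1 - upN B) = 1 := by
        have : upN (k := k) B * upN B = 0 := by simp [upN, fromBlocks_multiply, siegelN_sq]
        rw [mul_sub, mul_one, add_mul, one_mul, this]; abel
      rw [rootUp_eq] at hgi
      exact left_inv_eq_right_inv hgi h1
    rw [hgi', Matrix.map_sub σ (map_sub σ), Matrix.map_one σ (map_zero σ) (map_one σ), map_upN,
      rootUp_eq, mul_sub A, mul_one, sub_mul, hAA'] at hc'
    have hsqN : ∀ C : Matrix (Fin m) (Fin m) F, upN (k := k) C * upN C = 0 := fun C => by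
      simp [upN, fromBlocks_multiply, siegelN_sq]
    obtain ⟨d, X, X₁, Y, Y₁, hd, hXY, hXY₁⟩ : ∃ (d : ℕ) (X X₁ : Matrix (Fin m) (Fin d) F)
        (Y Y₁ : Matrix (Fin d) (Fin m) F), 2 * d < Fintype.card ((Fin m ⊕ Fin m) ⊕ Fin k) ∧
        B = X * Y ∧ B.map σ = X₁ * Y₁ := by
      rcases hB with ⟨hd, i, rfl⟩ | ⟨hd, i, j, hij, rfl⟩
      · refine ⟨1, single i 0 1, single i 0 1, single 0 i 1, single 0 i 1, ?_, by simp, ?_⟩
        · simp only [Fintype.card_sum, Fintype.card_fin]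
          rcases hc.1 with h | ⟨h, -, h'⟩ <;> omega
        · ext u v
          simp only [Matrix.map_apply, single_mul_single_same, one_mul, single_apply]
          split_ifs <;> simp
      · let X : Matrix (Fin m) (Fin 2) F := single i 0 1 + single j 1 1
        refine ⟨2, X, X, single 0 j 1 + single 1 i (-δ * τ 1),
          single 0 j 1 + single 1 i (σ (-δ * τ 1)), ?_, ?_, ?_⟩
        · simp only [Fintype.card_sum, Fintype.card_fin]
          have h2m : 2 ≤ m := by
            rcases hc.1 with h | ⟨-, h, -⟩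
            · exact h
            · exact absurd (hd ▸ h : (1 : F) = -1) (fun h => h2 (by linear_combination h))
          rcases Nat.eq_zero_or_pos k with h | h
          · have := hc.2.2 hd h; omega
          · omega
        · simp [X, pairRoot, Matrix.add_mul, Matrix.mul_add,
            single_mul_single_of_ne _ _ _ _ (show (0 : Fin 2) ≠ 1 by decide),
            single_mul_single_of_ne _ _ _ _ (show (1 : Fin 2) ≠ 0 by decide)]
        · have : (pairRoot τ (-δ) i j 1).map σ = single i j 1 + single j i (σ (-δ * τ 1)) := by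
            ext u v
            simp only [pairRoot, Matrix.map_apply, Matrix.add_apply, single_apply]
            split_ifs <;> simp
          rw [this]
          simp [X, Matrix.add_mul, Matrix.mul_add,
            single_mul_single_of_ne _ _ _ _ (show (0 : Fin 2) ≠ 1 by decide),
            single_mul_single_of_ne _ _ _ _ (show (1 : Fin 2) ≠ 0 by decide)]
    have hfac : ∀ (C : Matrix (Fin m) (Fin m) F) (U : Matrix (Fin m) (Fin d) F)
        (V : Matrix (Fin d) (Fin m) F), C = U * V →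
        upN (k := k) C = fromRows (fromRows U 0) 0 * fromCols (fromCols 0 V) 0 := by
      intro C U V h
      simp [h, upN, siegelN, fromRows_mul_fromCols, fromRows_mul, mul_fromCols]
      ext ((u | u) | u) ((v | v) | v) <;> simp
    exact semilinear_commute h2 hAA (hsqN B) (hsqN _) _ _ (hfac B X Y hXY) (hfac _ X₁ Y₁ hXY₁) hd
      ⟨c, hc'⟩
  have hT := triangular_of_basic (τ := τ) hc h2 σ hbasic
  have hTi : Ai.BlockTriangular wittLevel := by
    have : Invertible A := invertibleOfLeftInverse _ _ hAA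
    rw [← invOf_eq_left_inv (a := A) hAA, invOf_eq_nonsing_inv]
    exact blockTriangular_inv_of_blockTriangular hT
  refine form_commutant hc hτ h2 hJ hdet σ hAA fun g hg hgs => ?_
  obtain ⟨gi, hgi, hgis, c, hc'⟩ := hcom g hg hgs
  have hS' : IsStrict wittLevel (A * gi.map σ * Ai - 1) := by
    have : A * gi.map σ * Ai - 1 = A * (gi - 1).map σ * Ai := by
      rw [Matrix.map_sub σ (map_sub σ), Matrix.map_one σ (map_zero σ) (map_one σ), mul_sub,
        sub_mul, mul_one, hAA']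
    rw [this]
    exact IsStrict.conj hT hTi fun i j hij => by
      rw [Matrix.map_apply, hgis hij, map_zero]
  have hY : IsStrict wittLevel (g * (A * gi.map σ * Ai) - 1) := by
    rw [show g * (A * gi.map σ * Ai) - 1 = (g - 1) * (A * gi.map σ * Ai - 1) + (g - 1) +
      (A * gi.map σ * Ai - 1) by noncomm_ring]
    exact ((hgs.mul hS').add hgs).add hS'
  have h0 := strict_eq_zero_of_sq hr hY (c := c) (by rw [add_sub_cancel]; exact hc')
  have h1 : g * (A * gi.map σ * Ai) = 1 := sub_eq_zero.mp h0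
  have hgg : gi.map σ * g.map σ = 1 := by
    rw [← Matrix.map_mul, hgi, Matrix.map_one σ (map_zero σ) (map_one σ)]
  calc A * g.map σ = g * (A * gi.map σ * Ai) * (A * g.map σ) := by rw [h1, one_mul]
    _ = g * A * (gi.map σ * ((Ai * A) * g.map σ)) := by simp only [mul_assoc]
    _ = g * A := by rw [hAA, one_mul, hgg, mul_one]

variable {G : Type*} [Group G]

/-- The local condition for a component given by root isometries of a form. -/
theorem localProp_form (r : ℕ) [Fact r.Prime] [CharP F r] (hr : r ≠ 2)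
    (hc : WittParams δ m k) (hτ : ∀ a, τ (τ a) = a) (hJ : (J₀.map τ).transpose = δ • J₀)
    (hdet : IsUnit J₀.det)
    (S : Subgroup (Matrix.SpecialLinearGroup ((Fin m ⊕ Fin m) ⊕ Fin k) F))
    (hS : ∀ g : Matrix.SpecialLinearGroup ((Fin m ⊕ Fin m) ⊕ Fin k) F,
      IsRootIsometry τ δ J₀ (g : Matrix ((Fin m ⊕ Fin m) ⊕ Fin k) ((Fin m ⊕ Fin m) ⊕ Fin k) F) →
        g ∈ S)
    (φ : S →* G) (ν : S →* Matrix ((Fin m ⊕ Fin m) ⊕ Fin k) ((Fin m ⊕ Fin m) ⊕ Fin k) F)
    (hν : ∀ s : S, ν s = ((s : Matrix.SpecialLinearGroup ((Fin m ⊕ Fin m) ⊕ Fin k) F) :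
      Matrix ((Fin m ⊕ Fin m) ⊕ Fin k) ((Fin m ⊕ Fin m) ⊕ Fin k) F))
    (hker : ∀ s ∈ φ.ker, ∃ l : F, ν s = l • 1)
    (haut : ∀ g, g * g = 1 → (∀ y, y ∈ φ.range ↔ g * y * g⁻¹ ∈ φ.range) →
      ∃ (A : GL ((Fin m ⊕ Fin m) ⊕ Fin k) F) (σ : F ≃+* F), ∀ y : S, ∃ y' : S,
        ν y' = (A : Matrix ((Fin m ⊕ Fin m) ⊕ Fin k) ((Fin m ⊕ Fin m) ⊕ Fin k) F) *
          (ν y).map σ * (A⁻¹ : GL ((Fin m ⊕ Fin m) ⊕ Fin k) F) ∧ g * φ y * g⁻¹ = φ y') :
    LocalProp 2 φ.range 1 (((unitriSubgroup wittLevel).comap S.subtype).map φ.rangeRestrict) ∧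
      ∃ t ∈ ((unitriSubgroup wittLevel).comap S.subtype).map φ.rangeRestrict,
        ∃ y : φ.range, t * y ≠ y * t := by
  have h2 : (2 : F) ≠ 0 := Ring.two_ne_zero ((ringChar.eq F r).trans_ne hr)
  have hm : 1 ≤ m := by rcases hc.1 with h | ⟨h, -⟩ <;> omega
  have : Nonempty ((Fin m ⊕ Fin m) ⊕ Fin k) := ⟨Sum.inl (Sum.inl ⟨0, hm⟩)⟩
  have : NeZero m := ⟨by omega⟩
  have hdet1 : ∀ g, IsRootIsometry τ δ J₀ g → (g : Matrix ((Fin m ⊕ Fin m) ⊕ Fin k) _ F).det = 1 := by
    intro g hg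
    have h : g.det ^ r = 1 := by rw [← det_pow, hg.pow_char hr, det_one]
    have h' : (g.det - 1) ^ r = 0 := by rw [sub_pow_char, h, one_pow, sub_self]
    exact sub_eq_zero.mp (eq_zero_of_pow_eq_zero h')
  let mk : ∀ g, IsRootIsometry τ δ J₀ g → S := fun g hg => ⟨⟨g, hdet1 g hg⟩, hS _ hg⟩
  have hmk : ∀ g hg, ν (mk g hg) = g := fun g hg => hν _
  -- central modulo scalars means scalar
  have hscal : ∀ B, (∀ y, φ B * φ y * (φ B)⁻¹ = φ y) → ∃ c : F, ν B = c • 1 := by
    intro B hB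
    refine scalar_of_commute_roots_form hc hτ h2 hJ hdet
      (Ai := ν B⁻¹) (by rw [← map_mul, inv_mul_cancel, map_one]) fun g hg => ?_
    obtain ⟨l, hl⟩ := eq_smul_of_map_eq hker (v := B * mk g hg * B⁻¹) (y := mk g hg)
      (by rw [map_mul, map_mul, map_inv, hB])
    rw [hmk g hg] at hl
    have h1 : ν (B * mk g hg * B⁻¹) ^ r = 1 := by
      rw [← map_pow, conj_pow, map_mul, map_mul, map_pow, hmk g hg, hg.pow_char hr, mul_one, ← map_mul,
        mul_inv_cancel, map_one]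
    have h3 := smul_eq_of_pow_eq_one h1 (hg.pow_char hr) hl
    rw [map_mul, map_mul, hmk g hg] at h3
    calc ν B * g = ν B * g * (ν B⁻¹ * ν B) := by rw [← map_mul, inv_mul_cancel, map_one, mul_one]
      _ = g * ν B := by rw [← mul_assoc, h3]
  refine ⟨?_, ?_⟩
  swap
  · obtain ⟨u, hu, hu1⟩ : ∃ u : S, u ∈ (unitriSubgroup wittLevel).comap S.subtype ∧
        ¬ ∃ c : F, ν u = c • 1 := by
      obtain ⟨B, hB, hB0⟩ : ∃ B, IsBasicRoot (m := m) τ δ B ∧ B ≠ 0 := by
        by_contra hno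
        push Not at hno
        have := (basicRoot_span (τ := τ) hc h2 (RingEquiv.refl F) (n := m)).2 1 fun B hB => by
          rw [hno B hB, Matrix.zero_mul]
        exact one_ne_zero this
      have hroot := isRootIsometry_siegel_up (J₀ := J₀) (hB.mem hτ)
      refine ⟨mk _ hroot, ?_, fun ⟨c, hc'⟩ => hB0 ?_⟩
      · show IsStrict wittLevel _
        exact isStrict_rootUp B 0 0
      · rw [hmk _ hroot] at hc'
        ext i j
        simpa [rootUp] using congrFun₂ hc' (Sum.inl (Sum.inl i)) (Sum.inl (Sum.inr j))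
    refine ⟨φ.rangeRestrict u, ⟨u, hu, rfl⟩, ?_⟩
    by_contra hall
    push Not at hall
    refine hu1 (hscal u fun y => ?_)
    have h := congrArg Subtype.val (hall ⟨φ y, y, rfl⟩)
    change φ u * φ y = φ y * φ u at h
    rw [h, mul_inv_cancel_right]
  intro E hsq _ hnorm hk x hx z hz
  have hxx : x * x = 1 := by rw [← sq]; exact hsq x hx
  obtain ⟨A, σ, himg⟩ := haut x hxx (hnorm x hx)
  set M := fun (B : GL ((Fin m ⊕ Fin m) ⊕ Fin k) F) =>
    (B : Matrix ((Fin m ⊕ Fin m) ⊕ Fin k) ((Fin m ⊕ Fin m) ⊕ Fin k) F)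
  have hAA : M A⁻¹ * M A = 1 := by simp [M]
  have hAA' : M A * M A⁻¹ = 1 := mul_eq_one_comm.mp hAA
  -- the involutive commutator
  have hcom : ∀ g (hg : IsRootIsometry τ δ J₀ g), IsStrict wittLevel (g - 1) →
      ∃ c : F, g * (M A * (ν (mk g hg)⁻¹).map σ * M A⁻¹) *
        (g * (M A * (ν (mk g hg)⁻¹).map σ * M A⁻¹)) = c • 1 := by
    intro g hg hgs
    obtain ⟨t', ht', hxt⟩ := himg (mk g hg)⁻¹
    obtain ⟨e, he, heq⟩ := hk ⟨φ (mk g hg), ⟨_, rfl⟩⟩ (Or.inr ⟨mk g hg, hgs, rfl⟩) x hx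
    obtain ⟨c, hc'⟩ := hscal _ (commutator_square rfl hsq hnorm hx he heq hxt)
    refine ⟨c, ?_⟩
    rw [← hc', map_mul, map_mul, ht', hmk g hg]
  obtain ⟨hσ, t, ht, hAt⟩ := form_sigma_trivial hr hc hτ hJ hdet σ hAA fun g hg hgs =>
    ⟨ν (mk g hg)⁻¹,
      (congrArg (ν (mk g hg)⁻¹ * ·) (hmk g hg)).symm.trans (by
        show ν (mk g hg)⁻¹ * ν (mk g hg) = 1
        rw [← map_mul, inv_mul_cancel, map_one]),
      by rw [hν]; exact (unitriSubgroup wittLevel).inv_mem
          (x := ((mk g hg : S) : Matrix.SpecialLinearGroup ((Fin m ⊕ Fin m) ⊕ Fin k) F)) hgs,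
      hcom g hg hgs⟩
  have himg' : ∀ y, ∃ y', ν y' = M A * ν y * M A⁻¹ ∧ x * φ y * x⁻¹ = φ y' := by
    intro y
    obtain ⟨y', hy', hxy⟩ := himg y
    refine ⟨y', hy'.trans ?_, hxy⟩
    congr 2
    ext; simp [hσ]
  have hAA2 : M A⁻¹ * M A⁻¹ * (M A * M A) = 1 := by
    rw [mul_assoc (M A⁻¹), ← mul_assoc (M A⁻¹) (M A), hAA, one_mul, hAA]
  obtain ⟨d, hd⟩ := scalar_of_commute_roots_form hc hτ h2 hJ hdet (A := M A * M A) hAA2
    fun g hg => by
      obtain ⟨v, hv, hxv⟩ := himg' (mk g hg)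
      obtain ⟨w, hw, hxw⟩ := himg' v
      obtain ⟨l, hl⟩ := eq_smul_of_map_eq hker (v := w) (y := mk g hg) (by
        rw [← hxw, ← hxv]
        calc _ = x * x * φ (mk g hg) * (x * x)⁻¹ := by group
          _ = _ := by rw [hxx]; group)
      rw [hmk g hg] at hl hv
      rw [hw, hv] at hl
      let U : (Matrix ((Fin m ⊕ Fin m) ⊕ Fin k) ((Fin m ⊕ Fin m) ⊕ Fin k) F)ˣ := A * A
      have e : M A * (M A * g * M A⁻¹) * M A⁻¹ = M U * g * M U⁻¹ := by
        simp only [U, M, Units.val_mul, _root_.mul_inv_rev, mul_assoc]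
      rw [e] at hl
      have h3 := smul_eq_of_pow_eq_one (r := r)
        (by rw [Units.conj_pow, hg.pow_char hr]; simp) (hg.pow_char hr) hl
      calc M A * M A * g = M U * g * M U⁻¹ * M U := by
            rw [Units.inv_mul_cancel_right]; simp [U, M]
        _ = g * (M A * M A) := by rw [h3]; simp [U, M]
  have hN : IsStrict wittLevel (t⁻¹ • (M A - t • 1)) := fun i j h => by
    rw [Matrix.smul_apply, hAt h, smul_zero]
  have hN0 := strict_eq_zero_of_sq hr hN (c := t⁻¹ * t⁻¹ * d) (by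
    rw [smul_sub, smul_smul, inv_mul_cancel₀ ht, one_smul, add_sub_cancel, smul_mul, mul_smul_comm,
      smul_smul, hd, smul_smul])
  have hA1 : M A = t • 1 :=
    sub_eq_zero.mp ((smul_eq_zero.mp hN0).resolve_left (inv_ne_zero ht))
  obtain ⟨b, rfl⟩ := hz
  obtain ⟨b', hb', hxb⟩ := himg' b
  have hbb : b' = b := Subtype.ext (Subtype.ext (by
    have e : ν b' = ν b := by
      rw [hb', hA1, smul_mul, one_mul, smul_mul]
      have h1 : t • M A⁻¹ = 1 := by
        have := hAA; rw [hA1, mul_smul_comm, mul_one] at this; exact this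
      rw [← mul_smul_comm, h1, mul_one]
    rwa [hν, hν] at e))
  rw [hbb] at hxb
  calc x * φ b = x * φ b * x⁻¹ * x := by group
    _ = φ b * x := by rw [hxb]

end Vale.Agent.P240
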