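import Vale.Agent.P240.Linear
import Vale.Agent.P240.Local

/-!
# Components `PSL n`, all automorphisms allowed
-/

open Finset Matrix

namespace Vale.Agent.P240

variable {F : Type*} [Field F] {n : ℕ}

/-- No semilinear map takes the lower root subgroups to the upper ones by commutation. -/
lemma no_graph (hn : 3 ≤ n) {A Ai : Matrix (Fin n) (Fin n) F} (hA : Ai * A = 1) (σ : F ≃+* F)
    (h : ∀ p q : Fin n, p < q → A * single q p (-σ 1) = single p q 1 * A) : False := by
  let o : Fin n := ⟨0, by omega⟩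
  have hcol : ∀ q, o < q → ∀ i, i ≠ o → A i q = 0 := fun q hq i hi => by
    have := congrFun₂ (h o q hq) i o
    rw [mul_single_apply_same, single_mul_apply_of_ne _ _ _ _ _ hi, map_one, mul_neg, mul_one,
      neg_eq_zero] at this
    exact this
  let a : Fin n := ⟨1, by omega⟩
  let b : Fin n := ⟨2, by omega⟩
  have ha : o < a := Fin.mk_lt_mk.mpr one_pos
  have hb : o < b := Fin.mk_lt_mk.mpr two_pos
  have hab : a ≠ b := fun h => absurd (congrArg Fin.val h) (show (1 : ℕ) ≠ 2 by omega)
  have key : ∀ i q, o < q → (Ai * A) i q = Ai i o * A o q := fun i q hq => by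
    rw [mul_apply, Finset.sum_eq_single o]
    · intro l _ hl; rw [hcol q hq l hl, mul_zero]
    · simp
  have h1 := key a a ha
  have h2 := key b a ha
  have h3 := key b b hb
  rw [hA, one_apply_eq] at h1 h3
  rw [hA, one_apply_ne (Ne.symm hab)] at h2
  rcases mul_eq_zero.mp h2.symm with h | h
  · rw [h, zero_mul] at h3; exact one_ne_zero h3
  · rw [h, mul_zero] at h1; exact one_ne_zero h1

variable {G : Type*} [Group G]

/-- The local condition for a linear component. -/
theorem localProp_linear (r : ℕ) [Fact r.Prime] [CharP F r] (hr : r ≠ 2) [NeZero n] (hn : 2 ≤ n)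
    (hF : n = 2 → ∃ a : F, a ≠ 0 ∧ a ≠ 1 ∧ a ≠ -1)
    (φ : Matrix.SpecialLinearGroup (Fin n) F →* G) (hker : φ.ker ≤ Subgroup.center _)
    (haut : ∀ g, g * g = 1 → (∀ y, y ∈ φ.range ↔ g * y * g⁻¹ ∈ φ.range) →
      ∃ (A : GL (Fin n) F) (σ : F ≃+* F),
        (∀ y : Matrix.SpecialLinearGroup (Fin n) F, ∃ y' : Matrix.SpecialLinearGroup (Fin n) F, (y' : Matrix (Fin n) (Fin n) F) =
          (A : Matrix (Fin n) (Fin n) F) * (y : Matrix (Fin n) (Fin n) F).map σ *
            (A⁻¹ : GL (Fin n) F) ∧ g * φ y * g⁻¹ = φ y') ∨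
        (3 ≤ n ∧ ∀ y : Matrix.SpecialLinearGroup (Fin n) F, ∃ y' : Matrix.SpecialLinearGroup (Fin n) F,
          (y' : Matrix (Fin n) (Fin n) F) = (A : Matrix (Fin n) (Fin n) F) *
            ((y⁻¹ : Matrix.SpecialLinearGroup (Fin n) F) : Matrix (Fin n) (Fin n) F).transpose.map σ *
            (A⁻¹ : GL (Fin n) F) ∧ g * φ y * g⁻¹ = φ y')) :
    LocalProp 2 φ.range 1 ((unipotent r).map φ.rangeRestrict) := by
  intro E hsq _ hnorm hk x hx z hz
  have h2 : (2 : F) ≠ 0 := Ring.two_ne_zero ((ringChar.eq F r).trans_ne hr)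
  let ν : Matrix.SpecialLinearGroup (Fin n) F →* Matrix (Fin n) (Fin n) F :=
    { toFun := fun s => s
      map_one' := rfl
      map_mul' := fun _ _ => rfl }
  have hker' : ∀ s ∈ φ.ker, ∃ l : F, ν s = l • 1 := fun s hs => by
    obtain ⟨l, -, hl⟩ := Matrix.SpecialLinearGroup.mem_center_iff.mp (hker hs)
    exact ⟨l, by rw [smul_one_eq_diagonal]; exact hl.symm⟩
  have hscal : ∀ B, (∀ y, φ B * φ y * (φ B)⁻¹ = φ y) → ∃ m : F, ν B = m • 1 := by
    intro B hB
    obtain ⟨m, hm⟩ := mem_range_scalar_of_commute_single (M := ν B) fun i j hij =>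
      (commute_of_centralises hker' hB (u := Matrix.SpecialLinearGroup.transvection hij 1)
        (Matrix.SpecialLinearGroup.transvection_coe hij 1)
        (single_mul_single_of_ne _ _ _ _ hij.symm _)).symm
    exact ⟨m, by rw [← hm, smul_one_eq_diagonal]; rfl⟩
  obtain ⟨A, σ, hcases⟩ := haut x (by rw [← sq]; exact hsq x hx) (hnorm x hx)
  set M := fun (B : GL (Fin n) F) => (B : Matrix (Fin n) (Fin n) F)
  have hAA : M A⁻¹ * M A = 1 := by simp [M]
  have hAA' : M A * M A⁻¹ = 1 := mul_eq_one_comm.mp hAA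
  have hinvolution : ∀ (p q : Fin n) (hpq : p < q) (a : F) (N₁ : Matrix (Fin n) (Fin n) F) t',
      ν t' = 1 - M A * N₁ * M A⁻¹ →
      x * φ (Matrix.SpecialLinearGroup.transvection hpq.ne a)⁻¹ * x⁻¹ = φ t' →
      ∃ m : F, (1 + single p q a) * (1 - M A * N₁ * M A⁻¹) *
        ((1 + single p q a) * (1 - M A * N₁ * M A⁻¹)) = m • 1 := by
    intro p q hpq a N₁ t' ht' hxt
    obtain ⟨e, he, heq⟩ := hk ⟨φ (Matrix.SpecialLinearGroup.transvection hpq.ne a), ⟨_, rfl⟩⟩
      (Or.inr ⟨_, transvection_mem_unipotent r hpq a, rfl⟩) x hx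
    obtain ⟨m, hm⟩ := hscal _ (commutator_square rfl hsq hnorm hx he heq hxt)
    refine ⟨m, ?_⟩
    rw [← hm, map_mul, map_mul, ← ht']
    rfl
  have hbig : n ≠ 2 → 2 * 1 < Fintype.card (Fin n) := fun h => by rw [Fintype.card_fin]; omega
  have hfac : ∀ (p q : Fin n) (c : F),
      single p q c = single p (0 : Fin 1) c * single (0 : Fin 1) q (1 : F) := fun p q c => by
    rw [single_mul_single_same, mul_one]
  rcases hcases with himg | ⟨hn3, himg⟩
  · have hroot : ∀ p q : Fin n, p < q → ∀ a : F,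
        M A * single p q (σ a) = single p q a * M A := by
      intro p q hpq
      have hsq' : ∀ a : F, ∃ m : F, (1 + single p q a) * (1 - M A * single p q (σ a) * M A⁻¹) *
          ((1 + single p q a) * (1 - M A * single p q (σ a) * M A⁻¹)) = m • 1 := by
        intro a
        obtain ⟨t', ht', hxt⟩ := himg (Matrix.SpecialLinearGroup.transvection hpq.ne a)⁻¹
        refine hinvolution p q hpq a _ t' ?_ hxt
        change (t' : Matrix (Fin n) (Fin n) F) = _
        rw [ht', Matrix.SpecialLinearGroup.transvection_inv,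
          Matrix.SpecialLinearGroup.transvection_coe]
        have e1 : ((1 : Matrix (Fin n) (Fin n) F) + single p q (-a)).map σ =
            1 - single p q (σ a) := by
          ext u v
          simp only [Matrix.map_apply, Matrix.add_apply, Matrix.sub_apply, one_apply, single_apply]
          split_ifs <;> simp [sub_eq_add_neg]
        rw [e1, mul_sub, sub_mul, mul_one]
        exact congrArg (fun X => X - _) hAA'
      intro a
      rcases eq_or_ne n 2 with h | h
      · exact commute_root h2 hAA σ hpq.ne (Or.inr (hF h)) hsq' a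
      · exact semilinear_commute h2 hAA (single_mul_single_of_ne _ _ _ _ hpq.ne' _)
          (single_mul_single_of_ne _ _ _ _ hpq.ne' _) _ _ (hfac p q a) (hfac p q (σ a)) (hbig h)
          (hsq' a)
    obtain ⟨hσ, hA⟩ := scalar_of_commute_roots hn h2 hAA σ hroot
    have himg' : ∀ y, ∃ y', ν y' = M A * ν y * M A⁻¹ ∧ x * φ y * x⁻¹ = φ y' := by
      intro y
      obtain ⟨y', hy', hxy⟩ := himg y
      refine ⟨y', ?_, hxy⟩
      change (y' : Matrix (Fin n) (Fin n) F) = _
      rw [hy']
      congr 2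
      ext; simp [hσ, ν]
    have hxx : x * x = 1 := by rw [← sq]; exact hsq x hx
    obtain ⟨m, hm⟩ := mem_range_scalar_of_commute_single (M := M A * M A) fun i j hij =>
      (sq_commute hker' hxx hAA himg' (u := Matrix.SpecialLinearGroup.transvection hij 1)
        (Matrix.SpecialLinearGroup.transvection_coe hij 1)
        (single_mul_single_of_ne _ _ _ _ hij.symm _)).symm
    obtain ⟨a, ha⟩ := hA ⟨m, by rw [← hm, smul_one_eq_diagonal]; rfl⟩
    obtain ⟨b, rfl⟩ := hz
    obtain ⟨b', hb', hxb⟩ := himg' b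
    have hbb : b' = b := Subtype.ext (by
      change ν b' = ν b
      rw [hb', ha, smul_mul, one_mul, smul_mul]
      have h1 : a • M A⁻¹ = 1 := by
        have := hAA; rw [ha, mul_smul_comm, mul_one] at this; exact this
      rw [← mul_smul_comm, h1, mul_one])
    rw [hbb] at hxb
    calc x * φ b = x * φ b * x⁻¹ * x := by group
      _ = φ b * x := by rw [hxb]
  · exfalso
    refine no_graph hn3 hAA σ fun p q hpq => ?_
    obtain ⟨t', ht', hxt⟩ := himg (Matrix.SpecialLinearGroup.transvection hpq.ne (1 : F))⁻¹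
    refine semilinear_commute h2 hAA (single_mul_single_of_ne _ _ _ _ hpq.ne' _)
      (single_mul_single_of_ne _ _ _ _ hpq.ne _) _ _ (hfac p q 1) (hfac q p (-σ 1))
      (hbig (by omega)) (hinvolution p q hpq 1 _ t' ?_ hxt)
    change (t' : Matrix (Fin n) (Fin n) F) = _
    rw [ht', inv_inv, Matrix.SpecialLinearGroup.transvection_coe]
    have e1 : ((1 : Matrix (Fin n) (Fin n) F) + single p q 1).transpose.map σ =
        1 - single q p (-σ 1) := by
      ext u v
      simp only [Matrix.map_apply, Matrix.transpose_apply, Matrix.add_apply, Matrix.sub_apply,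
        one_apply, single_apply, eq_comm (a := u) (b := v), and_comm]
      split_ifs <;> simp [sub_eq_add_neg]
    rw [e1, mul_sub, sub_mul, mul_one]
    exact congrArg (fun X => X - _) hAA'

end Vale.Agent.P240
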