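import Vale.Agent.P240.AlternatingLocal
import Vale.Agent.P240.ExtendedComponents
import Vale.Agent.P240.FormLocal
import Vale.Agent.P240.LinearLocal

/-!
# Alternating and classical components in one odd characteristic, with odd-order normal part
-/

open Finset Matrix

namespace Vale.Agent.P240

/-- The data needed at one component. -/
def HasComponentData {G : Type} [Group G] (r : ℕ) (L : Subgroup G) (single : Prop) : Prop :=
  ∃ (c : L) (Q : Subgroup L), IsPGroup r Q ∧ (∀ t ∈ Q, Commute c t) ∧ LocalProp 2 L c Q ∧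
    ((∃ t ∈ Q, ∃ y : L, t * y ≠ y * t) ∨ single)

variable {G : Type} [Group G] [Finite G] {r : ℕ}

lemma componentData_alternating {I : Type} {L : I → Subgroup G} {i : I} [Fact r.Prime]
    (h : IsAltComponent r L i) :
    HasComponentData r (L i) (∀ j, Nonempty (L i ≃* L j) → j = i) := by
  obtain ⟨n, φ, hn, hinj, hrange, haut, hrule⟩ := h
  have haut' : ∀ g, g * g = 1 → (∀ y, y ∈ φ.range ↔ g * y * g⁻¹ ∈ φ.range) → _ :=
    fun g h1 h2 => haut g ⟨h1, h2⟩
  suffices key : ∀ P : Prop, ((r = 3 ∧ n ≠ 5 ∧ n ≠ 7) ∨ n = r ∨ P) →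
      HasComponentData r φ.range P by
    have := key _ hrule
    rwa [hrange] at this
  intro P hP
  have hnc : ∀ Q : Subgroup φ.range, Q ≠ ⊥ → ∃ t ∈ Q, ∃ y : φ.range, t * y ≠ y * t := by
    intro Q hQ
    by_contra hall
    push Not at hall
    refine hQ ((Subgroup.eq_bot_iff_forall _).mpr fun t ht => ?_)
    obtain ⟨u, hu⟩ := t.2
    have hu1 : (u : Equiv.Perm (Fin n)) = 1 := eq_one_of_commute_even (by omega) fun y hy => by
      have h1 := congrArg Subtype.val (hall t ht
        (φ.rangeRestrict ⟨y, Equiv.Perm.mem_alternatingGroup.mpr hy⟩))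
      change (t : G) * φ _ = φ _ * (t : G) at h1
      rw [← hu, ← map_mul, ← map_mul] at h1
      exact congrArg Subtype.val (hinj h1)
    refine Subtype.ext ?_
    rw [← hu, show u = 1 from Subtype.ext hu1, map_one]
    rfl
  rcases hP with ⟨rfl, h5, h7⟩ | rfl | hP
  · obtain ⟨c, T, hd, hT⟩ := exists_fibreData (m := n) (Or.inr hn)
    obtain ⟨c', Q, h1, h2, h3, h4⟩ := exists_alternating_local hn φ hinj haut' hd
    exact ⟨c', Q, h1, h2, h3, Or.inl (hnc Q (h4 ((hT.resolve_left h5).resolve_left h7)))⟩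
  · have hodd : Odd n := (Fact.out : n.Prime).odd_of_ne_two (by omega)
    have hd := fibreData_cycle (q := n) hodd {finRotate n} (fun t ht => ⟨ht, rfl⟩)
    obtain ⟨c', Q, h1, h2, h3, h4⟩ := exists_alternating_local hn φ hinj haut' hd
    refine ⟨c', Q, h1, h2, h3, Or.inl (hnc Q (h4 ⟨_, rfl, fun h => ?_⟩))⟩
    have h' : (finRotate n).support = univ := support_finRotate_of_le (by omega)
    rw [h, Equiv.Perm.support_one] at h'
    have h'' := congrArg Finset.card h'
    rw [card_empty, card_univ, Fintype.card_fin] at h''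
    omega
  · obtain ⟨c, hd⟩ := exists_cyclicData hn r
    obtain ⟨c', Q, h1, h2, h3, -⟩ := exists_alternating_local hn φ hinj haut' hd
    exact ⟨c', Q, h1, h2, h3, Or.inr hP⟩

omit [Finite G] in
lemma qData_linear {L : Subgroup G} [Fact r.Prime] (hr : r ≠ 2) (h : IsSLComponent r L) :
    ∃ Q : Subgroup L, IsPGroup r Q ∧ LocalProp 2 L 1 Q ∧ ∃ t ∈ Q, ∃ y : L, t * y ≠ y * t := by
  obtain ⟨F, _, _, n, φ, hn, hF, hker, rfl, haut⟩ := h
  have : NeZero n := ⟨by omega⟩
  refine ⟨(unipotent r).map φ.rangeRestrict, (isPGroup_unipotent r).map _,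
    localProp_linear r hr hn hF φ hker (fun g h1 h2 => haut g ⟨h1, h2⟩), ?_⟩
  have hpq : (⟨0, by omega⟩ : Fin n) < ⟨1, by omega⟩ := Fin.mk_lt_mk.mpr one_pos
  refine ⟨_, ⟨_, transvection_mem_unipotent r hpq (1 : F), rfl⟩, ?_⟩
  by_contra hall
  push Not at hall
  let ν : Matrix.SpecialLinearGroup (Fin n) F →* Matrix (Fin n) (Fin n) F :=
    { toFun := fun s => s
      map_one' := rfl
      map_mul' := fun _ _ => rfl }
  have hker' : ∀ s ∈ φ.ker, ∃ l : F, ν s = l • 1 := fun s hs => by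
    obtain ⟨l, -, hl⟩ := Matrix.SpecialLinearGroup.mem_center_iff.mp (hker hs)
    exact ⟨l, by rw [smul_one_eq_diagonal]; exact hl.symm⟩
  obtain ⟨m, hm⟩ := mem_range_scalar_of_commute_single
    (M := ν (Matrix.SpecialLinearGroup.transvection hpq.ne (1 : F))) fun i j hij => by
      refine (commute_of_centralises hker' (fun y => ?_)
        (u := Matrix.SpecialLinearGroup.transvection hij 1)
        (Matrix.SpecialLinearGroup.transvection_coe hij 1)
        (single_mul_single_of_ne _ _ _ _ hij.symm _)).symm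
      have h1 := congrArg Subtype.val (hall ⟨φ y, y, rfl⟩)
      change φ _ * φ y = φ y * φ _ at h1
      rw [h1, mul_inv_cancel_right]
  have h1 := congrFun₂ hm (⟨0, by omega⟩ : Fin n) ⟨1, by omega⟩
  change _ = (Matrix.SpecialLinearGroup.transvection hpq.ne (1 : F) : Matrix (Fin n) (Fin n) F) _ _ at h1
  rw [Matrix.SpecialLinearGroup.transvection_coe, Matrix.scalar_apply, diagonal_apply_ne _ hpq.ne,
    Matrix.add_apply, one_apply_ne hpq.ne, zero_add, single_apply_same] at h1
  exact zero_ne_one h1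

omit [Finite G] in
lemma qData_form {L : Subgroup G} [Fact r.Prime] (hr : r ≠ 2) (h : IsFormComponent r L) :
    ∃ Q : Subgroup L, IsPGroup r Q ∧ LocalProp 2 L 1 Q ∧ ∃ t ∈ Q, ∃ y : L, t * y ≠ y * t := by
  obtain ⟨F, _, _, m, k, τ, δ, J₀, S, φ, hc, ⟨hτ, hJ, hdet⟩, hS, hker, rfl, haut⟩ := h
  let ν : S →* Matrix ((Fin m ⊕ Fin m) ⊕ Fin k) ((Fin m ⊕ Fin m) ⊕ Fin k) F :=
    { toFun := fun s => matrixOf s
      map_one' := rfl
      map_mul' := fun _ _ => rfl }
  obtain ⟨h1, t, ht, y, hty⟩ := localProp_form r hr hc hτ hJ hdet S hS φ ν (fun _ => rfl) hker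
    fun g h1 h2 => haut g ⟨h1, h2⟩
  have hU : IsPGroup r ((unitriSubgroup wittLevel).comap S.subtype) := fun ⟨s, hs⟩ => by
    refine ⟨1, Subtype.ext (Subtype.ext (Subtype.ext ?_))⟩
    have h2 := IsStrict.pow_char (r := r) wittLevel_le hr hs
    rw [pow_one, SubmonoidClass.coe_pow, SubmonoidClass.coe_pow, Matrix.SpecialLinearGroup.coe_pow]
    simpa using h2
  exact ⟨_, hU.map _, h1, t, ht, y, hty⟩

omit [Finite G] in
lemma componentData_linear {L : Subgroup G} {P : Prop} [Fact r.Prime] (hr : r ≠ 2)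
    (h : IsSLComponent r L) : HasComponentData r L P := by
  obtain ⟨Q, hQ, hloc, hnc⟩ := qData_linear hr h
  exact ⟨1, Q, hQ, fun t _ => Commute.one_left t, hloc, Or.inl hnc⟩

omit [Finite G] in
lemma componentData_form {L : Subgroup G} {P : Prop} [Fact r.Prime] (hr : r ≠ 2)
    (h : IsFormComponent r L) : HasComponentData r L P := by
  obtain ⟨Q, hQ, hloc, hnc⟩ := qData_form hr h
  exact ⟨1, Q, hQ, fun t _ => Commute.one_left t, hloc, Or.inl hnc⟩

/-- **Alternating and classical components in one odd characteristic.** -/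
theorem hasHomology_general {I : Type} [Fintype I] (hr : r.Prime) (hr2 : r ≠ 2)
    (L : I → Subgroup G) (K R : Subgroup G) (z : G) (hK : K.Normal) (hKodd : Odd (Nat.card K))
    (hR : IsPGroup r R) (hRK : R ≤ K) (hz : z ∈ K) (hzR : ∀ u ∈ R, z * u = u * z)
    (hKL : ∀ i, ∀ y ∈ L i, ∀ u ∈ K, y * u = u * y)
    (hcomm : ∀ i j, i ≠ j → ∀ x ∈ L i, ∀ y ∈ L j, x * y = y * x)
    (hperm : ∀ g i, ∃ j, ∀ y, y ∈ L i ↔ g * y * g⁻¹ ∈ L j)
    (hcent : ∀ g, g * g = 1 → (∀ i, ∀ y ∈ L i, g * y = y * g) → (∀ u ∈ R, g * u = u * g) →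
      g * z = z * g → g = 1)
    (htype : ∀ i, IsAltComponent r L i ∨ IsSLComponent r (L i) ∨ IsFormComponent r (L i)) :
    (∀ N : Subgroup G, N.Normal → IsPGroup 2 N → N = ⊥) ∧ HasHomology (ElemAbelian 2 G) := by
  have : Fact r.Prime := ⟨hr⟩
  have hdata : ∀ i, HasComponentData r (L i) (∀ j, Nonempty (L i ≃* L j) → j = i) := fun i => by
    rcases htype i with h | h | h
    · exact componentData_alternating h
    · exact componentData_linear hr2 h
    · exact componentData_form hr2 h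
  choose c Q hQ hcQ hloc hsep using hdata
  have hmain := hasHomology_of_components_and_odd (p := 2) hr L K R
    (Nat.coprime_two_right.mpr hKodd) hKL hR hRK z hz hzR
    (fun i j hij x y hx hy => hcomm i j hij x hx y hy) hperm
    (fun g hg => hcent g (by rw [← sq]; exact hg)) c Q hQ hcQ hloc hsep
  exact ⟨fun N hN hp => hmain.1 N hN hp Nat.prime_two, hmain.2⟩

end Vale.Agent.P240
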