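import Mathlib

/-!
# Semilinear involutions normalising the root subgroups
-/

open Finset Matrix

namespace Vale.Agent.P240

variable {F : Type*} [Field F] {ι : Type*} [Fintype ι] [DecidableEq ι]

/-- Conjugating a transvection to a multiple of itself means commuting with it. -/
lemma commute_of_conj_smul {B B' : Matrix ι ι F} (hB : B' * B = 1) {p q : ι} (hpq : p ≠ q) {l : F}
    (h : B * (1 + single p q 1) * B' = l • (1 + single p q (1 : F))) :
    B * single p q 1 = single p q 1 * B := by
  have hB' : B * B' = 1 := mul_eq_one_comm.mp hB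
  have hS : (single p q (1 : F)) * single p q 1 = 0 := single_mul_single_of_ne _ _ _ _ hpq.symm _
  have hconj : B * single p q 1 * B' = (l - 1) • (1 : Matrix ι ι F) + l • single p q 1 := by
    rw [mul_add, add_mul, mul_one, hB', smul_add] at h
    rw [sub_smul, one_smul, sub_add_eq_add_sub, eq_sub_iff_add_eq', h]
  have hsq : (B * single p q 1 * B') * (B * single p q 1 * B') = 0 := by
    have : (B * single p q 1 * B') * (B * single p q 1 * B') =
        B * (single p q 1 * (B' * B) * single p q 1) * B' := by simp only [mul_assoc]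
    rw [this, hB, mul_one, hS, mul_zero, zero_mul]
  have h1 := congrArg (fun X => single p q (1 : F) * X) hsq
  rw [hconj] at h1
  simp only [add_mul, mul_add, smul_mul, mul_smul_comm, smul_smul, mul_one, one_mul, hS, smul_zero,
    add_zero, mul_zero] at h1
  have hl : l = 1 := by
    have h2 := congrFun₂ h1 p q
    simp at h2
    exact sub_eq_zero.mp h2
  rw [hl, sub_self, zero_smul, zero_add, one_smul] at hconj
  calc B * single p q 1 = B * single p q 1 * (B' * B) := by rw [hB, mul_one]
    _ = single p q 1 * B := by rw [← mul_assoc, hconj]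

/-- A matrix conjugating every transvection to a multiple of itself is scalar. -/
lemma scalar_of_conj_smul {B B' : Matrix ι ι F} (hB : B' * B = 1)
    (h : ∀ p q, p ≠ q → ∃ l : F, B * (1 + single p q 1) * B' = l • (1 + single p q (1 : F))) :
    ∃ m : F, B = m • 1 := by
  obtain ⟨m, hm⟩ := mem_range_scalar_of_commute_single (M := B) fun i j hij => by
    obtain ⟨l, hl⟩ := h i j hij
    exact (commute_of_conj_smul hB hij hl).symm
  exact ⟨m, by rw [← hm, smul_one_eq_diagonal]; rfl⟩

/-- One root: the alternative left by an involutive commutator. -/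
lemma root_alternative {S S' : Matrix ι ι F} (hS : S * S = 0) (hS' : S' * S' = 0) (hne : S ≠ 0)
    {k : F} (hk : S * S' * S = k • S) (h2 : (2 : F) ≠ 0) {m : F}
    (hsq : (1 + S) * (1 - S') * ((1 + S) * (1 - S')) = m • 1) :
    S' = S ∨ (m = -1 ∧ k = 2) := by
  have hinv : (1 + S) * (1 - S') * ((1 + S') * (1 - S)) = 1 := by
    have : (1 + S) * (1 - S') * ((1 + S') * (1 - S)) =
        1 - (1 + S) * (S' * S') * (1 - S) - S * S := by noncomm_ring
    rw [this, hS, hS']; simp
  have heq : (1 + S) * (1 - S') = m • ((1 + S') * (1 - S)) := by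
    have h := congrArg (fun X => X * ((1 + S') * (1 - S))) hsq
    rwa [mul_assoc, hinv, mul_one, smul_mul, one_mul] at h
  have hL : S - S * S' = m • (S + S * S' - k • S) := by
    have h := congrArg (fun X => S * X) heq
    simp only [mul_smul_comm] at h
    have e1 : S * ((1 + S) * (1 - S')) = S - S * S' + S * S * (1 - S') := by noncomm_ring
    have e2 : S * ((1 + S') * (1 - S)) = S + S * S' - S * S' * S - S * S := by noncomm_ring
    rwa [e1, e2, hS, hk, zero_mul, add_zero, sub_zero] at h
  have hR : S - S' * S - k • S = m • (S + S' * S) := by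
    have h := congrArg (fun X => X * S) heq
    simp only [smul_mul] at h
    have e1 : (1 + S) * (1 - S') * S = S - S' * S - S * S' * S + S * S := by noncomm_ring
    have e2 : (1 + S') * (1 - S) * S = S + S' * S - (1 + S') * (S * S) := by noncomm_ring
    rwa [e1, e2, hS, hk, mul_zero, add_zero, sub_zero] at h
  have hB : ((1 + m) * k) • S = 0 := by
    have h := congrArg (fun X => X * S) hL
    simp only [sub_mul, add_mul, smul_mul, hS, hk, smul_zero, zero_sub, sub_zero, zero_add,
      smul_smul] at h
    rw [add_mul, one_mul, add_smul, ← h, add_neg_cancel]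
  rcases mul_eq_zero.mp (smul_eq_zero.mp hB |>.resolve_right hne) with hm | hk0
  · right
    have hm' : m = -1 := by linear_combination hm
    refine ⟨hm', ?_⟩
    subst hm'
    have h : (2 - k) • S = 0 := by
      rw [neg_smul, one_smul] at hL
      rw [sub_smul, two_smul]
      calc S + S - k • S = (S - S * S') + (S + S * S' - k • S) := by abel
        _ = 0 := by rw [hL]; abel
    exact (sub_eq_zero.mp (smul_eq_zero.mp h |>.resolve_right hne)).symm
  · left
    subst hk0
    rw [zero_smul, sub_zero] at hL hR
    have hc : (1 + m) • (S * S') = (1 - m) • S := by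
      rw [add_smul, sub_smul, one_smul, one_smul, eq_sub_iff_add_eq, add_assoc, ← smul_add,
        add_comm (S * S') S, ← hL, add_sub_cancel]
    have hSS : (1 - m) • (S * S') = 0 := by
      have h := congrArg (fun X => X * S') hc
      simp only [smul_mul, mul_assoc, hS', mul_zero, smul_zero] at h
      exact h.symm
    have hm1 : m = 1 := by
      have h : ((1 - m) * (1 - m)) • S = 0 := by
        rw [mul_smul, ← hc, smul_comm, hSS, smul_zero]
      have := mul_self_eq_zero.mp (smul_eq_zero.mp h |>.resolve_right hne)
      linear_combination -this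
    subst hm1
    have hSS0 : S * S' = 0 := by
      rw [sub_self, zero_smul] at hc
      exact (smul_eq_zero.mp hc).resolve_left (by norm_num; exact h2)
    have hS'S : S' * S = 0 := by
      rw [one_smul] at hR
      have h : (2 : F) • (S' * S) = 0 := by
        rw [two_smul]
        calc S' * S + S' * S = (S + S' * S) - (S - S' * S) := by abel
          _ = 0 := by rw [hR, sub_self]
      exact (smul_eq_zero.mp h).resolve_left h2
    rw [one_smul] at heq
    have e1 : (1 + S) * (1 - S') = 1 + S - S' - S * S' := by noncomm_ring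
    have e2 : (1 + S') * (1 - S) = 1 + S' - S - S' * S := by noncomm_ring
    rw [e1, e2, hSS0, hS'S, sub_zero, sub_zero] at heq
    have h : (2 : F) • (S' - S) = 0 := by
      rw [two_smul]
      calc S' - S + (S' - S) = (1 + S' - S) - (1 + S - S') := by abel
        _ = 0 := by rw [heq, sub_self]
    exact sub_eq_zero.mp ((smul_eq_zero.mp h).resolve_left h2)

/-- An involutive commutator with a whole root subgroup means centralising it. -/
lemma commute_root (h2 : (2 : F) ≠ 0) {A Ai : Matrix ι ι F} (hA : Ai * A = 1) (σ : F ≃+* F)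
    {p q : ι} (hpq : p ≠ q)
    (hbig : (∃ i, i ≠ p ∧ i ≠ q) ∨ ∃ a : F, a ≠ 0 ∧ a ≠ 1 ∧ a ≠ -1)
    (hsq : ∀ a : F, ∃ m : F, (1 + single p q a) * (1 - A * single p q (σ a) * Ai) *
      ((1 + single p q a) * (1 - A * single p q (σ a) * Ai)) = m • 1) (a : F) :
    A * single p q (σ a) = single p q a * A := by
  suffices h : ∀ a : F, A * single p q (σ a) * Ai = single p q a by
    calc A * single p q (σ a) = A * single p q (σ a) * (Ai * A) := by rw [hA, mul_one]
      _ = single p q a * A := by rw [← mul_assoc, h]
  set k : F := A q p * Ai q p with hk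
  have halt : ∀ a : F, a ≠ 0 → A * single p q (σ a) * Ai = single p q a ∨
      ((∀ i, i = p ∨ i = q) ∧ a * σ a * k = 2) := by
    intro a ha
    obtain ⟨m, hm⟩ := hsq a
    set S := single p q a
    set S' := A * single p q (σ a) * Ai with hS'
    have hSS : S * S = 0 := single_mul_single_of_ne _ _ _ _ hpq.symm _
    have hS'S' : S' * S' = 0 := by
      have : S' * S' = A * (single p q (σ a) * (Ai * A) * single p q (σ a)) * Ai := by
        simp only [hS', mul_assoc]
      rw [this, hA, mul_one, single_mul_single_of_ne _ _ _ _ hpq.symm, mul_zero, zero_mul]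
    have hent : ∀ i j, S' i j = A i p * σ a * Ai q j := by
      intro i j
      rw [hS', mul_apply, Finset.sum_eq_single q]
      · rw [mul_single_apply_same]
      · intro l _ hl; rw [mul_single_apply_of_ne _ _ _ _ _ hl, zero_mul]
      · simp
    have hkS : S * S' * S = (a * σ a * k) • S := by
      rw [single_mul_mul_single, hent, smul_single, smul_eq_mul, hk]
      congr 1; ring
    have hne : S ≠ 0 := fun h => ha (by simpa [S] using congrFun₂ h p q)
    rcases root_alternative hSS hS'S' hne hkS h2 hm with h | ⟨hm1, hk2⟩
    · exact Or.inl h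
    refine Or.inr ⟨fun i => ?_, hk2⟩
    by_contra hi
    simp only [not_or] at hi
    have h := congrFun₂ hm i i
    have hinv : (1 + S) * (1 - S') * ((1 + S') * (1 - S)) = 1 := by
      have : (1 + S) * (1 - S') * ((1 + S') * (1 - S)) =
          1 - (1 + S) * (S' * S') * (1 - S) - S * S := by noncomm_ring
      rw [this, hSS, hS'S']; simp
    have heq : (1 + S) * (1 - S') + (1 + S') * (1 - S) = 0 := by
      have h' := congrArg (fun X => X * ((1 + S') * (1 - S))) hm
      rw [mul_assoc, hinv, mul_one, smul_mul, one_mul, hm1, neg_smul, one_smul] at h'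
      rw [h', neg_add_cancel]
    have e : (1 + S) * (1 - S') + (1 + S') * (1 - S) = 1 + 1 - S * S' - S' * S := by noncomm_ring
    rw [e] at heq
    have h' := congrFun₂ heq i i
    rw [Matrix.sub_apply, Matrix.sub_apply, Matrix.add_apply, one_apply_eq,
      single_mul_apply_of_ne _ _ _ _ _ hi.1, mul_single_apply_of_ne _ _ _ _ _ hi.2, Matrix.zero_apply,
      sub_zero, sub_zero] at h'
    exact h2 (by rw [← h']; norm_num)
  intro a
  rcases eq_or_ne a 0 with rfl | ha
  · simp
  rcases halt a ha with h | ⟨hall, hka⟩
  · exact h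
  exfalso
  have hb : ∃ b : F, b ≠ 0 ∧ b ≠ 1 ∧ b ≠ -1 := hbig.resolve_left fun ⟨i, h1, h2'⟩ =>
    (hall i).elim h1 h2'
  have hk0 : k ≠ 0 := fun h => h2 (by rw [← hka, h, mul_zero])
  have hall2 : ∀ b : F, b ≠ 0 → b * σ b * k = 2 := by
    intro b hb
    rcases halt b hb with h | h
    · exfalso
      have h' := congrFun₂ h q p
      rw [single_apply_of_ne _ _ _ _ _ (by simp [hpq]), mul_apply, Finset.sum_eq_single q,
        mul_single_apply_same] at h'
      · have : σ b * k = 0 := by rw [hk]; linear_combination h'
        rcases mul_eq_zero.mp this with h3 | h3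
        · exact hb (by simpa using h3)
        · exact hk0 h3
      · intro l _ hl; rw [mul_single_apply_of_ne _ _ _ _ _ hl, zero_mul]
      · simp
    · exact h.2
  have hk2 : k = 2 := by simpa using hall2 1 one_ne_zero
  have hone : ∀ b : F, b ≠ 0 → b * σ b = 1 := fun b hb =>
    mul_right_cancel₀ h2 (by rw [one_mul]; exact hk2 ▸ hall2 b hb)
  have hq : ∀ b : F, b ≠ 0 → b ≠ -1 → b * b + b + 1 = 0 := by
    intro b hb hb1
    have h := hone (1 + b) (fun h => hb1 (by linear_combination h))
    rw [map_add, map_one] at h
    have := hone b hb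
    linear_combination b * h - (b + 1) * this
  obtain ⟨b, hb0, hb1, hbm⟩ := hb
  have h3 : (3 : F) = 0 := by
    have := hq 1 one_ne_zero (fun h => h2 (by linear_combination h))
    linear_combination this
  have : (b - 1) * (b - 1) = 0 := by linear_combination hq b hb0 hbm - b * h3
  exact hb1 (sub_eq_zero.mp (mul_self_eq_zero.mp this))

/-- A semilinear map centralising the upper root subgroups is a scalar, a transvection apart. -/
lemma scalar_of_commute_roots {n : ℕ} (hn : 2 ≤ n) (h2 : (2 : F) ≠ 0)
    {A Ai : Matrix (Fin n) (Fin n) F} (hA : Ai * A = 1) (σ : F ≃+* F)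
    (h : ∀ p q : Fin n, p < q → ∀ a : F, A * single p q (σ a) = single p q a * A) :
    (∀ a, σ a = a) ∧ ((∃ m : F, A * A = m • 1) → ∃ m : F, A = m • 1) := by
  let o : Fin n := ⟨0, by omega⟩
  let z : Fin n := ⟨n - 1, by omega⟩
  have hoz : o < z := Fin.mk_lt_mk.mpr (by omega)
  have hcol : ∀ i p : Fin n, p ≠ z → i ≠ p → A i p = 0 := by
    intro i p hp hi
    have hpz : p < z := by
      rw [Fin.lt_def]
      have : (p : ℕ) ≠ n - 1 := fun e => hp (Fin.ext e)
      show (p : ℕ) < n - 1
      omega
    have := congrFun₂ (h p z hpz 1) i z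
    rw [map_one, mul_single_apply_same, single_mul_apply_of_ne _ _ _ _ _ hi, mul_one] at this
    exact this
  have hrow : ∀ q j : Fin n, q ≠ o → q ≠ j → A q j = 0 := by
    intro q j hq hj
    have hoq : o < q := by
      rw [Fin.lt_def]
      have : (q : ℕ) ≠ 0 := fun e => hq (Fin.ext e)
      show 0 < (q : ℕ)
      omega
    have := congrFun₂ (h o q hoq 1) o j
    rw [map_one, mul_single_apply_of_ne _ _ _ _ _ (Ne.symm hj), single_mul_apply_same,
      one_mul] at this
    exact this.symm
  have hdiag : ∀ p q : Fin n, p < q → ∀ a, A p p * σ a = a * A q q := by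
    intro p q hpq a
    have := congrFun₂ (h p q hpq a) p q
    rwa [mul_single_apply_same, single_mul_apply_same] at this
  have hoo : A o o ≠ 0 := by
    intro h0
    have h1 : (Ai * A) o o = 0 := by
      rw [mul_apply]
      refine sum_eq_zero fun l _ => ?_
      rcases eq_or_ne l o with rfl | hl
      · rw [h0, mul_zero]
      · rw [hcol l o (ne_of_lt hoz) hl, mul_zero]
    rw [hA, one_apply_eq] at h1
    exact one_ne_zero h1
  have heq : ∀ q, A q q = A o o := by
    intro q
    rcases eq_or_ne q o with rfl | hq
    · rfl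
    · have hoq : o < q := by
        rw [Fin.lt_def]
        have : (q : ℕ) ≠ 0 := fun e => hq (Fin.ext e)
        show 0 < (q : ℕ)
        omega
      simpa using (hdiag o q hoq 1).symm
  refine ⟨fun a => ?_, fun ⟨m, hm⟩ => ⟨A o o, ?_⟩⟩
  · have := hdiag o z hoz a
    rw [heq z, mul_comm a] at this
    exact mul_left_cancel₀ hoo this
  · have hbeta : A o z = 0 := by
      have h1 := congrFun₂ hm o z
      rw [Matrix.smul_apply, one_apply_ne (ne_of_lt hoz), smul_zero, mul_apply,
        Finset.sum_eq_add o z (ne_of_lt hoz) (fun l _ hl => by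
          rw [hcol o l hl.2 (Ne.symm hl.1), zero_mul]) (by simp) (by simp), heq z] at h1
      have : (2 : F) * (A o o * A o z) = 0 := by linear_combination h1
      exact (mul_eq_zero.mp ((mul_eq_zero.mp this).resolve_left h2)).resolve_left hoo
    ext i j
    rw [Matrix.smul_apply, smul_eq_mul]
    rcases eq_or_ne i j with rfl | hij
    · rw [one_apply_eq, mul_one, heq]
    · rw [one_apply_ne hij, mul_zero]
      rcases eq_or_ne j z with rfl | hj
      · rcases eq_or_ne i o with rfl | hi
        · exact hbeta
        · exact hrow i z hi hij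
      · exact hcol i j hj hij

end Vale.Agent.P240
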