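import Vale.Agent.P240.Components
import Vale.Agent.P240.Root

/-!
# Components of type `PSL n` in one odd characteristic, at the prime 2
-/

open Finset Matrix

namespace Vale.Agent.P240

section Unitriangular

variable {n : ℕ} {F : Type*} [Field F]

/-- Entries on or below the `k`-th diagonal above the main one vanish. -/
def Band (k : ℕ) (N : Matrix (Fin n) (Fin n) F) : Prop :=
  ∀ i j : Fin n, (j : ℕ) < (i : ℕ) + k → N i j = 0

lemma Band.mul {k l : ℕ} {M N : Matrix (Fin n) (Fin n) F} (hM : Band k M) (hN : Band l N) :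
    Band (k + l) (M * N) := by
  intro i j hij
  rw [mul_apply]
  refine sum_eq_zero fun a _ => ?_
  by_cases h : (a : ℕ) < (i : ℕ) + k
  · rw [hM i a h, zero_mul]
  · rw [hN a j (by omega), mul_zero]

lemma Band.mono {k l : ℕ} {M : Matrix (Fin n) (Fin n) F} (h : Band l M) (hkl : k ≤ l) : Band k M :=
  fun i j hij => h i j (by omega)

lemma Band.add {k : ℕ} {M N : Matrix (Fin n) (Fin n) F} (hM : Band k M) (hN : Band k N) :
    Band k (M + N) := fun i j h => by rw [Matrix.add_apply, hM i j h, hN i j h, add_zero]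

lemma Band.pow {M : Matrix (Fin n) (Fin n) F} (hM : Band 1 M) : ∀ m : ℕ, Band m (M ^ m)
  | 0 => fun i j h => by rw [pow_zero, one_apply_ne (by intro e; subst e; omega)]
  | m + 1 => by rw [pow_succ]; exact (hM.pow m).mul hM

/-- The upper unitriangular matrices have `r`-power order in characteristic `r`. -/
lemma pow_char_of_band [NeZero n] {r : ℕ} [Fact r.Prime] [CharP F r]
    {A : Matrix (Fin n) (Fin n) F} (hA : Band 1 (A - 1)) : A ^ r ^ n = 1 := by
  have h1 : A = 1 + (A - 1) := by abel
  rw [h1, add_pow_char_pow_of_commute _ _ (Commute.one_left _), one_pow]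
  have hle : n ≤ r ^ n := (Nat.lt_pow_self (Fact.out : r.Prime).one_lt).le
  have h2 : (A - 1) ^ r ^ n = 0 := by
    ext i j
    exact hA.pow _ i j (by omega)
  rw [h2, add_zero]

/-- The upper unitriangular subgroup of `SL n F`. -/
def unipotent (r : ℕ) [Fact r.Prime] [CharP F r] [NeZero n] :
    Subgroup (Matrix.SpecialLinearGroup (Fin n) F) :=
  Subgroup.copy
    { carrier := {A | Band 1 ((A : Matrix (Fin n) (Fin n) F) - 1)}
      one_mem' := fun i j _ => by simp
      mul_mem' := fun {a b} ha hb => by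
        have h : ((a * b : Matrix.SpecialLinearGroup (Fin n) F) : Matrix (Fin n) (Fin n) F) - 1 =
            ((a : Matrix (Fin n) (Fin n) F) - 1) * ((b : Matrix (Fin n) (Fin n) F) - 1) +
              ((a : Matrix (Fin n) (Fin n) F) - 1) + ((b : Matrix (Fin n) (Fin n) F) - 1) := by
          rw [Matrix.SpecialLinearGroup.coe_mul]; noncomm_ring
        show Band 1 _
        rw [h]
        exact (((Band.mul ha hb).mono (by omega)).add ha).add hb
      inv_mem' := fun {a} ha => by
        have hone : a ^ r ^ n = 1 := Subtype.ext (by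
          rw [Matrix.SpecialLinearGroup.coe_pow, pow_char_of_band ha]; rfl)
        have hpos : 0 < r ^ n := pow_pos (Fact.out : r.Prime).pos n
        rw [inv_eq_of_mul_eq_one_right (show a * a ^ (r ^ n - 1) = 1 by
          rw [← pow_succ', Nat.sub_add_cancel hpos, hone])]
        generalize r ^ n - 1 = m
        induction m with
        | zero => intro i j _; simp
        | succ m ih =>
          have h : ((a ^ (m + 1) : Matrix.SpecialLinearGroup (Fin n) F) : Matrix (Fin n) (Fin n) F) - 1 =
              (((a ^ m : Matrix.SpecialLinearGroup (Fin n) F) : Matrix (Fin n) (Fin n) F) - 1) *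
                ((a : Matrix (Fin n) (Fin n) F) - 1) +
              (((a ^ m : Matrix.SpecialLinearGroup (Fin n) F) : Matrix (Fin n) (Fin n) F) - 1) +
                ((a : Matrix (Fin n) (Fin n) F) - 1) := by
            rw [pow_succ, Matrix.SpecialLinearGroup.coe_mul]; noncomm_ring
          show Band 1 _
          rw [h]
          exact (((Band.mul ih ha).mono (by omega)).add ih).add ha }
    _ rfl

lemma isPGroup_unipotent (r : ℕ) [Fact r.Prime] [CharP F r] [NeZero n] :
    IsPGroup r (unipotent (n := n) (F := F) r) := fun a =>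
  ⟨n, Subtype.ext (Subtype.ext (by
    rw [SubmonoidClass.coe_pow, Matrix.SpecialLinearGroup.coe_pow, pow_char_of_band a.2]; rfl))⟩

lemma transvection_mem_unipotent (r : ℕ) [Fact r.Prime] [CharP F r] [NeZero n] {p q : Fin n}
    (h : p < q) (a : F) : Matrix.SpecialLinearGroup.transvection h.ne a ∈ unipotent (F := F) r := by
  show Band 1 _
  intro i j hij
  rw [Matrix.SpecialLinearGroup.transvection_coe, add_sub_cancel_left, single_apply]
  refine if_neg ?_
  rintro ⟨rfl, rfl⟩
  exact absurd h (by rw [Fin.lt_def]; omega)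

end Unitriangular

variable {G : Type*} [Group G] [Finite G] {I : Type*} [Fintype I]

/-- **Linear components.** -/
theorem hasHomology_linear (r : ℕ) [Fact r.Prime] (hr : r ≠ 2) (n : I → ℕ) (F : I → Type*)
    [∀ i, Field (F i)] [∀ i, CharP (F i) r]
    (φ : ∀ i, Matrix.SpecialLinearGroup (Fin (n i)) (F i) →* G)
    (hn : ∀ i, 2 ≤ n i) (hF : ∀ i, n i = 2 → ∃ a : F i, a ≠ 0 ∧ a ≠ 1 ∧ a ≠ -1)
    (hker : ∀ i, (φ i).ker ≤ Subgroup.center _)
    (hcomm : ∀ i j, i ≠ j → ∀ x y, Commute (φ i x) (φ j y))
    (hinter : ∀ i j, i ≠ j → ∀ x, x ∈ (φ i).range → x ∈ (φ j).range → x = 1)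
    (hperm : ∀ g i, ∃ j, ∀ y, y ∈ (φ i).range ↔ g * y * g⁻¹ ∈ (φ j).range)
    (haut : ∀ i g, (∀ y, y ∈ (φ i).range ↔ g * y * g⁻¹ ∈ (φ i).range) →
      ∃ (A : GL (Fin (n i)) (F i)) (σ : F i ≃+* F i), ∀ y y' : Matrix.SpecialLinearGroup (Fin (n i)) (F i),
        (y' : Matrix (Fin (n i)) (Fin (n i)) (F i)) =
          (A : Matrix (Fin (n i)) (Fin (n i)) (F i)) *
            (y : Matrix (Fin (n i)) (Fin (n i)) (F i)).map σ *
            (A⁻¹ : GL (Fin (n i)) (F i)) → g * φ i y * g⁻¹ = φ i y')
    (hcent : ∀ g, (∀ i y, g * φ i y = φ i y * g) → g = 1) :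
    (∀ N : Subgroup G, N.Normal → IsPGroup 2 N → N = ⊥) ∧ HasHomology (ElemAbelian 2 G) := by
  classical
  have : ∀ i, NeZero (n i) := fun i => ⟨by have := hn i; omega⟩
  have h2 : ∀ i, (2 : F i) ≠ 0 := fun i => Ring.two_ne_zero ((ringChar.eq (F i) r).trans_ne hr)
  let Q : ∀ i, Subgroup (φ i).range := fun i => (unipotent r).map (φ i).rangeRestrict
  -- elements of SL commuting with the image up to the kernel are scalar
  have hscal : ∀ i (B : Matrix.SpecialLinearGroup (Fin (n i)) (F i)),
      (∀ y, φ i B * φ i y * (φ i B)⁻¹ = φ i y) →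
      ∃ m : F i, (B : Matrix (Fin (n i)) (Fin (n i)) (F i)) = m • 1 := by
    intro i B hB
    refine scalar_of_conj_smul (B := (B : Matrix (Fin (n i)) (Fin (n i)) (F i)))
      (B' := ((B⁻¹ : Matrix.SpecialLinearGroup (Fin (n i)) (F i)) : Matrix (Fin (n i)) (Fin (n i)) (F i)))
      (by rw [← Matrix.SpecialLinearGroup.coe_mul, inv_mul_cancel, Matrix.SpecialLinearGroup.coe_one]) ?_
    intro p q hpq
    set t := Matrix.SpecialLinearGroup.transvection hpq (1 : F i) with ht
    have hmem : B * t * B⁻¹ * t⁻¹ ∈ (φ i).ker := by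
      rw [MonoidHom.mem_ker, map_mul, map_mul, map_mul, map_inv, map_inv, hB t, mul_inv_cancel]
    obtain ⟨l, -, hl⟩ := Matrix.SpecialLinearGroup.mem_center_iff.mp (hker i hmem)
    refine ⟨l, ?_⟩
    have h : B * t * B⁻¹ = (B * t * B⁻¹ * t⁻¹) * t := by group
    have h' := congrArg (fun x : Matrix.SpecialLinearGroup (Fin (n i)) (F i) =>
      (x : Matrix (Fin (n i)) (Fin (n i)) (F i))) h
    simp only [Matrix.SpecialLinearGroup.coe_mul] at h' hl
    rw [← hl] at h'
    rw [ht, Matrix.SpecialLinearGroup.transvection_coe] at h'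
    simpa [smul_eq_diagonal_mul, mul_add] using h'
  suffices hmain : (∀ N : Subgroup G, N.Normal → IsPGroup 2 N → (2 : ℕ).Prime → N = ⊥) ∧
      HasHomology (ElemAbelian 2 G) from
    ⟨fun N hN hp => hmain.1 N hN hp Nat.prime_two, hmain.2⟩
  refine hasHomology_of_components (Fact.out : r.Prime) (fun i => (φ i).range)
    (fun i j hij x y hx hy => ?_) hinter hperm (fun g hg => hcent g fun i y => hg i _ ⟨y, rfl⟩)
    (fun i => 1) Q (fun i => (isPGroup_unipotent r).map _) (fun i t _ => Commute.one_left t)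
    (fun i E hsq _ hnorm hk x hx => ?_) (fun i => Or.inl ?_)
  · obtain ⟨a, rfl⟩ := hx
    obtain ⟨b, rfl⟩ := hy
    exact hcomm i j hij a b
  · obtain ⟨A, σ, hAσ⟩ := haut i x (hnorm x hx)
    set M := fun (B : GL (Fin (n i)) (F i)) => (B : Matrix (Fin (n i)) (Fin (n i)) (F i))
    have hAA : M A⁻¹ * M A = 1 := by simp [M]
    -- the image of any element
    have himg : ∀ y : Matrix.SpecialLinearGroup (Fin (n i)) (F i), ∃ y' : Matrix.SpecialLinearGroup (Fin (n i)) (F i),
        (y' : Matrix (Fin (n i)) (Fin (n i)) (F i)) =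
          M A * (y : Matrix (Fin (n i)) (Fin (n i)) (F i)).map σ * M A⁻¹ ∧
        x * φ i y * x⁻¹ = φ i y' := by
      intro y
      have hdet : (M A * (y : Matrix (Fin (n i)) (Fin (n i)) (F i)).map σ * M A⁻¹).det = 1 := by
        have hy : ((y : Matrix (Fin (n i)) (Fin (n i)) (F i)).map σ).det = 1 := by
          have := (RingHom.map_det σ.toRingHom (y : Matrix (Fin (n i)) (Fin (n i)) (F i))).symm
          rw [y.2, map_one] at this
          exact this
        have h1 := congrArg Matrix.det hAA
        rw [det_mul, det_one] at h1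
        rw [det_mul, det_mul, hy, mul_one, mul_comm]
        exact h1
      exact ⟨⟨_, hdet⟩, rfl, hAσ y ⟨_, hdet⟩ rfl⟩
    -- root elements: the commutator is an involution on the component
    have hroot : ∀ p q : Fin (n i), p < q → ∀ a : F i,
        M A * single p q (σ a) = single p q a * M A := by
      intro p q hpq
      refine commute_root (h2 i) hAA σ hpq.ne ?_ fun a => ?_
      · rcases eq_or_ne (n i) 2 with h | h
        · exact Or.inr (hF i h)
        · refine Or.inl ?_
          have hc : 3 ≤ #(univ : Finset (Fin (n i))) := by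
            have := hn i; rw [card_univ, Fintype.card_fin]; omega
          obtain ⟨l, hl⟩ : ∃ l, l ∈ (univ \ {p, q} : Finset (Fin (n i))) := by
            refine card_pos.mp ?_
            have := card_le_two (a := p) (b := q)
            have := le_card_sdiff {p, q} (univ : Finset (Fin (n i)))
            omega
          simp only [mem_sdiff, mem_univ, true_and, mem_insert, mem_singleton, not_or] at hl
          exact ⟨l, hl⟩
      set t := Matrix.SpecialLinearGroup.transvection hpq.ne a with ht
      obtain ⟨e, he, heq⟩ := hk (⟨φ i t, ⟨t, rfl⟩⟩)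
        (Or.inr ⟨t, transvection_mem_unipotent r hpq a, rfl⟩) x hx
      obtain ⟨t', ht', hxt⟩ := himg t⁻¹
      have hxx : x * x = 1 := by rw [← sq]; exact hsq x hx
      have hxi : x⁻¹ = x := inv_eq_of_mul_eq_one_right hxx
      -- `e * x` acts as `φ (t * t')`
      have hact : ∀ y, (e * x) * φ i y * (e * x)⁻¹ = φ i (t * t') * φ i y * (φ i (t * t'))⁻¹ := by
        intro y
        have h1 := heq (x * φ i y * x⁻¹) ((hnorm x hx _).mp ⟨y, rfl⟩)
        have h3 : φ i t * x * (φ i t)⁻¹ * x = φ i (t * t') := by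
          rw [map_mul, ← hxt, map_inv, hxi]
          simp only [mul_assoc]
        calc (e * x) * φ i y * (e * x)⁻¹ = e * (x * φ i y * x⁻¹) * e⁻¹ := by group
          _ = φ i t * x * (φ i t)⁻¹ * (x * φ i y * x⁻¹) * (φ i t * x * (φ i t)⁻¹)⁻¹ := h1.symm
          _ = φ i t * x * (φ i t)⁻¹ * x * φ i y * (φ i t * x * (φ i t)⁻¹ * x)⁻¹ := by group
          _ = φ i (t * t') * φ i y * (φ i (t * t'))⁻¹ := by rw [h3]
      obtain ⟨m, hm⟩ := hscal i (t * t' * (t * t')) fun y => by
        have hee : (e * x) * (e * x) = 1 := by rw [← sq]; exact hsq _ (mul_mem he hx)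
        have h1 := hact (t * t' * y * (t * t')⁻¹)
        rw [map_mul (φ i) (t * t' * y), map_mul (φ i) (t * t'), map_inv] at h1
        rw [← hact y] at h1
        have h4 : (e * x) * ((e * x) * φ i y * (e * x)⁻¹) * (e * x)⁻¹ = φ i y := by
          calc _ = (e * x) * (e * x) * φ i y * ((e * x) * (e * x))⁻¹ := by group
            _ = φ i y := by rw [hee]; group
        rw [h4, hact y] at h1
        rw [map_mul (φ i) (t * t') (t * t')]
        calc _ = φ i (t * t') * (φ i (t * t') * φ i y * (φ i (t * t'))⁻¹) *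
            (φ i (t * t'))⁻¹ := by group
          _ = φ i y := h1.symm
      refine ⟨m, ?_⟩
      rw [← hm]
      have hS : (t' : Matrix (Fin (n i)) (Fin (n i)) (F i)) =
          1 - M A * single p q (σ a) * M A⁻¹ := by
        rw [ht', ht, Matrix.SpecialLinearGroup.transvection_inv, Matrix.SpecialLinearGroup.transvection_coe]
        have e1 : ((1 : Matrix (Fin (n i)) (Fin (n i)) (F i)) + single p q (-a)).map σ =
            1 - single p q (σ a) := by
          ext u v
          simp only [Matrix.map_apply, Matrix.add_apply, Matrix.sub_apply, one_apply, single_apply]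
          split_ifs <;> simp [sub_eq_add_neg]
        have hAA' : M A * M A⁻¹ = 1 := mul_eq_one_comm.mp hAA
        rw [e1, mul_sub, sub_mul, mul_one, hAA']
      simp only [Matrix.SpecialLinearGroup.coe_mul, hS, ht, Matrix.SpecialLinearGroup.transvection_coe]
    obtain ⟨hσ, hA⟩ := scalar_of_commute_roots (hn i) (h2 i) hAA σ hroot
    have hmap : ∀ N : Matrix (Fin (n i)) (Fin (n i)) (F i), N.map σ = N := fun N => by
      ext; simp [hσ]
    obtain ⟨m, hm⟩ : ∃ m : F i, M A * M A = m • 1 := by
      refine scalar_of_conj_smul (B' := M A⁻¹ * M A⁻¹) ?_ fun p q hpq => ⟨1, ?_⟩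
      · rw [mul_assoc (M A⁻¹), ← mul_assoc (M A⁻¹) (M A), hAA, one_mul, hAA]
      · obtain ⟨u, hu, hxu⟩ := himg (Matrix.SpecialLinearGroup.transvection hpq 1)
        obtain ⟨v, hv, hxv⟩ := himg u
        have hvu : φ i v = φ i (Matrix.SpecialLinearGroup.transvection hpq 1) := by
          rw [← hxv, ← hxu]
          have hxx : x * x = 1 := by rw [← sq]; exact hsq x hx
          calc _ = x * x * φ i (Matrix.SpecialLinearGroup.transvection hpq 1) * (x * x)⁻¹ := by group
            _ = _ := by rw [hxx]; group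
        have hker' : v * (Matrix.SpecialLinearGroup.transvection hpq (1 : F i))⁻¹ ∈ (φ i).ker := by
          rw [MonoidHom.mem_ker, map_mul, map_inv, hvu, mul_inv_cancel]
        obtain ⟨l, -, hl⟩ := Matrix.SpecialLinearGroup.mem_center_iff.mp (hker i hker')
        set T := Matrix.SpecialLinearGroup.transvection hpq (1 : F i)
        have hvT : (v : Matrix (Fin (n i)) (Fin (n i)) (F i)) =
            l • (T : Matrix (Fin (n i)) (Fin (n i)) (F i)) := by
          have : v = v * T⁻¹ * T := by group
          rw [this, Matrix.SpecialLinearGroup.coe_mul, ← hl, smul_eq_diagonal_mul]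
          rfl
        have hB : M A * M A * (1 + single p q 1) * (M A⁻¹ * M A⁻¹) = l • (1 + single p q (1 : F i)) := by
          rw [← Matrix.SpecialLinearGroup.transvection_coe hpq, ← hvT, hv, hu, hmap, hmap]
          simp only [mul_assoc]
          rfl
        -- the factor is one
        have hc := commute_of_conj_smul (B := M A * M A) (B' := M A⁻¹ * M A⁻¹)
          (by rw [mul_assoc (M A⁻¹), ← mul_assoc (M A⁻¹) (M A), hAA, one_mul, hAA]) hpq hB
        have hAA2 : M A * M A * (M A⁻¹ * M A⁻¹) = 1 := mul_eq_one_comm.mp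
          (by rw [mul_assoc (M A⁻¹), ← mul_assoc (M A⁻¹) (M A), hAA, one_mul, hAA])
        rw [one_smul, mul_add, mul_one, add_mul, hc, mul_assoc (single p q (1 : F i)), hAA2, mul_one]
    obtain ⟨a, ha⟩ := hA ⟨m, hm⟩
    intro y hy
    obtain ⟨b, rfl⟩ := hy
    obtain ⟨b', hb', hxb⟩ := himg b
    have hbb : b' = b := Subtype.ext (by
      rw [hb', hmap, ha, smul_mul, one_mul, smul_mul]
      have h1 : a • M A⁻¹ = 1 := by
        have := hAA; rw [ha, mul_smul_comm, mul_one] at this; exact this
      rw [← mul_smul_comm, h1, mul_one])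
    rw [hbb] at hxb
    calc x * φ i b = x * φ i b * x⁻¹ * x := by group
      _ = φ i b * x := by rw [hxb]
  · have hpq : (⟨0, by have := hn i; omega⟩ : Fin (n i)) < ⟨1, by have := hn i; omega⟩ :=
      Fin.mk_lt_mk.mpr one_pos
    intro hbot
    have h := (Subgroup.eq_bot_iff_forall _).mp hbot _
      ⟨_, transvection_mem_unipotent r hpq (1 : F i), rfl⟩
    exact one_ne_zero ((Matrix.SpecialLinearGroup.transvection_mem_center_iff hpq.ne (1 : F i)).mp
      (hker i (MonoidHom.mem_ker.mpr (congrArg Subtype.val h))))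

end Vale.Agent.P240
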