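import Vale.Agent.P240.Criterion

/-!
# The augmented order complex over a finite prime field
-/

open Finset

namespace Vale.Agent.P240

variable {α : Type*} [PartialOrder α]

/-- The position sign of a vertex in a chain, in the field with `q` elements. -/
noncomputable def Chain.modSign (q : ℕ) (σ : Chain α) (v : α) : ZMod q :=
  haveI := Classical.decPred fun u : α => u < v
  (-1) ^ #(σ.1.filter fun u => u < v)

/-- The augmented boundary of the order complex with coefficients modulo `q`. -/
noncomputable def modBoundary (q : ℕ) (α : Type*) [PartialOrder α] :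
    (Chain α →₀ ZMod q) →ₗ[ZMod q] (Chain α →₀ ZMod q) :=
  Finsupp.linearCombination (ZMod q) fun σ =>
    ∑ v ∈ σ.1, σ.modSign q v • Finsupp.single (σ.remove v) 1

variable (q : ℕ)

lemma modBoundary_single (σ : Chain α) :
    modBoundary q α (Finsupp.single σ 1) =
      ∑ v ∈ σ.1, σ.modSign q v • Finsupp.single (σ.remove v) 1 := by
  simp [modBoundary]

lemma modSign_remove_of_lt {σ : Chain α} {v w : α} (hv : v ∈ σ.1) (h : v < w) :
    (σ.remove v).modSign q w = -σ.modSign q w := by
  classical
  have h2 : #(σ.1.filter fun u => u < w) = #((σ.1.erase v).filter fun u => u < w) + 1 := by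
    rw [filter_erase, card_erase_add_one (mem_filter.mpr ⟨hv, h⟩)]
  simp only [Chain.modSign, Chain.remove]
  rw [filter_congr_decidable, filter_congr_decidable] at *
  convert (show (-1 : ZMod q) ^ #((σ.1.erase v).filter fun u => u < w) =
    -(-1) ^ #(σ.1.filter fun u => u < w) by rw [h2, pow_succ]; ring) using 4

lemma modSign_remove_of_not_lt {σ : Chain α} {v w : α} (h : ¬ v < w) :
    (σ.remove v).modSign q w = σ.modSign q w := by
  classical
  simp only [Chain.modSign, Chain.remove]
  congr 2
  ext u
  simp only [mem_filter, mem_erase]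
  constructor
  · rintro ⟨⟨-, hu⟩, hlt⟩; exact ⟨hu, hlt⟩
  · rintro ⟨hu, hlt⟩; exact ⟨⟨fun e => h (e ▸ hlt), hu⟩, hlt⟩

/-- It is a differential. -/
theorem modBoundary_modBoundary : modBoundary q α ∘ₗ modBoundary q α = 0 := by
  classical
  refine Finsupp.lhom_ext fun σ b => ?_
  rw [← Finsupp.smul_single_one, map_smul, LinearMap.comp_apply, modBoundary_single]
  simp only [map_sum, map_smul, modBoundary_single, LinearMap.zero_apply, smul_sum, smul_smul]
  have key : ∑ x ∈ σ.1.sigma (fun v => (σ.remove v).1),
      (b * (σ.modSign q x.1 * (σ.remove x.1).modSign q x.2)) •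
        Finsupp.single ((σ.remove x.1).remove x.2) (1 : ZMod q) = 0 := by
    refine sum_involution (fun x _ => ⟨x.2, x.1⟩) (fun x hx => ?_) (fun x hx _ he => ?_)
      (fun x hx => ?_) fun x _ => rfl
    · obtain ⟨v, w⟩ := x
      simp only [mem_sigma, Chain.remove, mem_erase] at hx
      obtain ⟨hv, hwv, hw⟩ := hx
      have hsw : (σ.remove w).remove v = (σ.remove v).remove w :=
        Subtype.ext (by simp only [Chain.remove]; ext; simp; tauto)
      rw [hsw, ← add_smul]
      rcases σ.2 hv hw (Ne.symm hwv) with h | h
      · have h' : v < w := lt_of_le_of_ne h (Ne.symm hwv)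
        rw [modSign_remove_of_lt q hv h', modSign_remove_of_not_lt q (lt_asymm h'),
          show b * (σ.modSign q v * -σ.modSign q w) + b * (σ.modSign q w * σ.modSign q v) = 0
            by ring, zero_smul]
      · have h' : w < v := lt_of_le_of_ne h hwv
        rw [modSign_remove_of_lt q hw h', modSign_remove_of_not_lt q (lt_asymm h'),
          show b * (σ.modSign q v * σ.modSign q w) + b * (σ.modSign q w * -σ.modSign q v) = 0
            by ring, zero_smul]
    · obtain ⟨v, w⟩ := x
      simp only [mem_sigma, Chain.remove, mem_erase] at hx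
      exact hx.2.1 (congrArg Sigma.fst he)
    · obtain ⟨v, w⟩ := x
      simp only [mem_sigma, Chain.remove, mem_erase] at hx ⊢
      exact ⟨hx.2.2, Ne.symm hx.2.1, hx.1⟩
  rw [sum_sigma] at key
  rw [smul_zero]
  exact key

lemma modBoundary_modBoundary_apply (x : Chain α →₀ ZMod q) :
    modBoundary q α (modBoundary q α x) = 0 :=
  LinearMap.congr_fun (modBoundary_modBoundary q) x

end Vale.Agent.P240
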