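import Vale.Agent.P240.Apartment
import Vale.Agent.P240.Coprime

/-!
# The reduction: components with a `q`-subgroup normalising no `p`-subgroup

By Smith theory it is enough to treat the centraliser of the components, which acts faithfully on
a nilpotent group of coprime order, and there a frame gives a cycle of top degree.
-/

open Finset

namespace Vale.Agent.P240

variable {G : Type*} [Group G] [Finite G] {I : Type*} [Fintype I]

/-- The `q`-subgroup `Q` of `L` normalises no nontrivial elementary abelian `p`-subgroup of the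
automiser of `L`, and is not central in `L`. -/
def HasLocalQSubgroup (p q : ℕ) (L : Subgroup G) : Prop :=
  ∃ Q : Subgroup G, Q ≤ L ∧ IsPGroup q Q ∧ (∃ t ∈ Q, ∃ y ∈ L, t * y ≠ y * t) ∧
    ∀ E : Subgroup G, (∀ x ∈ E, x ^ p = 1) → (∀ x ∈ E, ∀ y ∈ E, x * y = y * x) →
      (∀ x ∈ E, ∀ y, y ∈ L ↔ x * y * x⁻¹ ∈ L) →
      (∀ t ∈ Q, ∀ x ∈ E, t * x * t⁻¹ ∈ E) → ∀ x ∈ E, ∀ y ∈ L, x * y = y * x

/-- **The fixed points.** If `A_p(G)` is acyclic modulo `q` then so is the part inside the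
centraliser of the components. -/
theorem acyclicOn_centralizer {p q : ℕ} [hp : Fact p.Prime] [hq : Fact q.Prime] (L : I → Subgroup G)
    (hcomm : Pairwise fun i j => ∀ x y, x ∈ L i → y ∈ L j → Commute x y)
    (hperm : ∀ g i, ∃ j, ∀ y, y ∈ L i ↔ g * y * g⁻¹ ∈ L j)
    (hloc : ∀ i, HasLocalQSubgroup p q (L i))
    (hex : LinearMap.ker (modBoundary q (ElemAbelian p G)) ≤
      LinearMap.range (modBoundary q (ElemAbelian p G))) :
    IsAcyclicOn q {E : ElemAbelian p G | E.1 ≤ Subgroup.centralizer {y | ∃ i, y ∈ L i}} := by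
  classical
  choose Q hQL hQ hnc hQE using hloc
  let f : (∀ i, Q i) →* G := Subgroup.noncommPiCoprod
    (hcomm.mono fun i j h x y hx hy => h x y (hQL i hx) (hQL j hy))
  have hf : ∀ i (y : Q i), f (Pi.mulSingle i y) = y := fun i y =>
    Subgroup.noncommPiCoprod_mulSingle (hcomm := hcomm.mono fun i j h x y hx hy =>
      h x y (hQL i hx) (hQL j hy)) i y
  have hP : IsPGroup q (∀ i, Q i) := fun y => by
    choose k hk using fun i => hQ i (y i)
    refine ⟨∑ i, k i, funext fun i => ?_⟩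
    obtain ⟨d, hd⟩ := pow_dvd_pow q (single_le_sum (fun j _ => Nat.zero_le (k j)) (mem_univ i))
    rw [Pi.pow_apply, hd, pow_mul, hk i, one_pow]
    rfl
  let M : Subgroup G := Subgroup.centralizer {y | ∃ i, y ∈ L i}
  have hMiff : ∀ {x}, x ∈ M ↔ ∀ i, ∀ y ∈ L i, x * y = y * x := fun {x} =>
    Subgroup.mem_centralizer_iff.trans
      ⟨fun h i y hy => (h y ⟨i, hy⟩).symm, fun h y ⟨i, hy⟩ => (h i y hy).symm⟩
  have hfixed := isAcyclicOn_fixedPoints q hP ((conjEA p G).comp f)
    (fun y a b => Subgroup.map_le_map_iff_of_injective (MulEquiv.injective (MulAut.conj (f y))))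
    (isAcyclicOn_univ q hex)
  have hset : {E : ElemAbelian p G | ∀ y, (conjEA p G).comp f y E = E} = {E | E.1 ≤ M} := by
    ext E
    constructor
    · intro hE
      have hnorm : ∀ i, ∀ t ∈ Q i, ∀ x ∈ E.1, t * x * t⁻¹ ∈ E.1 := by
        intro i t ht x hx
        have h1 := congrArg Subtype.val (hE (Pi.mulSingle i ⟨t, ht⟩))
        change E.1.map (MulAut.conj (f (Pi.mulSingle i ⟨t, ht⟩))).toMonoidHom = E.1 at h1
        rw [hf] at h1
        rw [← h1]
        exact ⟨x, hx, rfl⟩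
      let N₀ : Subgroup G :=
        { carrier := {x | ∀ i y, y ∈ L i ↔ x * y * x⁻¹ ∈ L i}
          one_mem' := fun i y => by simp
          mul_mem' := fun {a b} ha hb i y => by
            rw [hb i y, ha i]; simp [mul_assoc]
          inv_mem' := fun {a} ha i y => by
            rw [ha i (a⁻¹ * y * a⁻¹⁻¹)]; simp [mul_assoc] }
      have hLN : ∀ i, L i ≤ N₀ := by
        intro i t ht l y
        rcases eq_or_ne l i with rfl | hne
        · exact ⟨fun hy => mul_mem (mul_mem ht hy) (inv_mem ht), fun hy => by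
            simpa [mul_assoc] using mul_mem (mul_mem (inv_mem ht) hy) ht⟩
        · constructor
          · intro hy
            rw [(hcomm hne y t hy ht).symm.eq, mul_inv_cancel_right]
            exact hy
          · intro hy
            have h1 : t * y * t⁻¹ * t = t * (t * y * t⁻¹) := (hcomm hne _ t hy ht).eq
            rw [inv_mul_cancel_right] at h1
            rwa [mul_left_cancel h1]
      have hN₀ : ∀ g, ∀ x ∈ N₀, g * x * g⁻¹ ∈ N₀ := by
        intro g x hx i y
        obtain ⟨j, hj⟩ := hperm g⁻¹ i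
        rw [hj, hx j, hj (g * x * g⁻¹ * y * _)]
        simp [mul_assoc]
      have hE₀ : ∀ x ∈ E.1 ⊓ N₀, x ∈ M := fun x hx => hMiff.mpr fun i y hy =>
        hQE i (E.1 ⊓ N₀) (fun a ha => E.2.2.1 a ha.1) (fun a ha b hb => E.2.2.2 a ha.1 b hb.1)
          (fun a ha => ha.2 i) (fun t ht a ha => ⟨hnorm i t ht a ha.1, hN₀ t a ha.2⟩) x hx y hy
      intro x hx
      refine hE₀ x ⟨hx, fun i => ?_⟩
      obtain ⟨j, hj⟩ := hperm x i
      suffices j = i by subst this; exact hj
      by_contra hne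
      obtain ⟨t, ht, y, hy, hty⟩ := hnc i
      have htL := hQL i ht
      have hm : x * t * x⁻¹ * t⁻¹ ∈ M := by
        refine hE₀ _ (Subgroup.mem_inf.mpr ⟨?_, mul_mem (hN₀ x t (hLN i htL)) (inv_mem (hLN i htL))⟩)
        have : x * t * x⁻¹ * t⁻¹ = x * (t * x⁻¹ * t⁻¹) := by group
        rw [this]
        exact mul_mem hx (hnorm i t ht _ (inv_mem hx))
      have h1 : Commute (x * t * x⁻¹) y := (hcomm hne (x * t * x⁻¹) y ((hj t).mp htL) hy)
      have h2 : Commute (x * t * x⁻¹ * t⁻¹) y := hMiff.mp hm i y hy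
      have h3 : t = (x * t * x⁻¹ * t⁻¹)⁻¹ * (x * t * x⁻¹) := by group
      exact hty (h3 ▸ (h2.inv_left.mul_left h1).eq)
    · intro hE y
      refine Subtype.ext ?_
      show E.1.map (MulAut.conj (f y)).toMonoidHom = E.1
      have hcomm' : ∀ x ∈ E.1, f y * x * (f y)⁻¹ = x := by
        have hle : f.range ≤ Subgroup.centralizer (E.1 : Set G) := by
          show (Subgroup.noncommPiCoprod _).range ≤ _
          rw [Subgroup.noncommPiCoprod_range]
          exact iSup_le fun i t ht => Subgroup.mem_centralizer_iff.mpr fun x hx =>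
            hMiff.mp (hE hx) i t (hQL i ht)
        intro x hx
        rw [← Subgroup.mem_centralizer_iff.mp (hle ⟨y, rfl⟩) x hx, mul_inv_cancel_right]
      refine SetLike.ext fun z => ⟨?_, fun hz => Subgroup.mem_map.mpr ⟨z, hz, hcomm' z hz⟩⟩
      rintro ⟨x, hx, rfl⟩
      show f y * x * (f y)⁻¹ ∈ E.1
      rw [hcomm' x hx]
      exact hx
  rwa [hset] at hfixed

/-- **The reduction.** -/
theorem not_acyclic_of_local {p q : ℕ} [hp : Fact p.Prime] [hq : Fact q.Prime] (L : I → Subgroup G)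
    (K : Subgroup G) [K.Normal] (hKn : Group.IsNilpotent K) (hKp : (Nat.card K).Coprime p)
    (hKL : ∀ i, ∀ y ∈ L i, ∀ u ∈ K, y * u = u * y)
    (hcomm : Pairwise fun i j => ∀ x y, x ∈ L i → y ∈ L j → Commute x y)
    (hperm : ∀ g i, ∃ j, ∀ y, y ∈ L i ↔ g * y * g⁻¹ ∈ L j)
    (hfaith : ∀ g, g ^ p = 1 → (∀ i, ∀ y ∈ L i, g * y = y * g) → (∀ u ∈ K, g * u = u * g) → g = 1)
    (hloc : ∀ i, HasLocalQSubgroup p q (L i)) :
    ¬ LinearMap.ker (modBoundary q (ElemAbelian p G)) ≤
      LinearMap.range (modBoundary q (ElemAbelian p G)) := by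
  classical
  intro hex
  have hfixed := acyclicOn_centralizer L hcomm hperm hloc hex
  set M : Subgroup G := Subgroup.centralizer {y | ∃ i, y ∈ L i}
  have hMiff : ∀ {x}, x ∈ M ↔ ∀ i, ∀ y ∈ L i, x * y = y * x := fun {x} =>
    Subgroup.mem_centralizer_iff.trans
      ⟨fun h i y hy => (h y ⟨i, hy⟩).symm, fun h y ⟨i, hy⟩ => (h i y hy).symm⟩
  obtain ⟨E₀, ⟨hE₀M, hE₀p, hE₀c⟩, hmax⟩ := Set.exists_max_image
    {E : Subgroup G | E ≤ M ∧ (∀ x ∈ E, x ^ p = 1) ∧ ∀ x ∈ E, ∀ y ∈ E, x * y = y * x}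
    (fun E : Subgroup G => Nat.card E) (Set.toFinite _)
    ⟨⊥, bot_le, fun x hx => by simp [Subgroup.mem_bot.mp hx],
      fun x hx y hy => by simp [Subgroup.mem_bot.mp hx]⟩
  obtain ⟨m, e, hm, he, hec, hen⟩ := exists_frame (p := p) (Nat.card E₀) K E₀ le_rfl hKn hKp hE₀p
    hE₀c (fun a _ y hy => Subgroup.Normal.conj_mem inferInstance y hy a)
    fun a ha hau => hfaith a (hE₀p a ha) (hMiff.mp (hE₀M ha)) hau
  have hKM : K ≤ M := fun u hu => hMiff.mpr fun i y hy => (hKL i y hy u hu).symm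
  obtain ⟨z, hz, hz0, hzne⟩ := exists_frame_cycle hec hen (fun i s => (he i s).2) q M
    fun i s => sup_le hKM hE₀M (he i s).1
  refine not_isAcyclicOn_of_cycle q (fun σ hσ => ?_) z hz hz0 hzne hfixed
  exact card_chain_le hp.out σ fun E hE =>
    (hmax E.1 ⟨hσ hE, E.2.2.1, E.2.2.2⟩).trans hm

end Vale.Agent.P240
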