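import Vale.Agent.P240.General
import Vale.Agent.P240.Reduction

/-!
# Components covered by the reduction at the prime 2
-/

open Finset Equiv

namespace Vale.Agent.P240

/-- The subgroup `L` is `A_n`, involutions act on it through `S_n`, and `n` is a power of `r`, or
`r = 3` divides `n`. -/
def IsAltQComponent {G : Type} [Group G] (r : ℕ) (L : Subgroup G) : Prop :=
  ∃ (n : ℕ) (φ : alternatingGroup (Fin n) →* G), 5 ≤ n ∧ Function.Injective φ ∧ φ.range = L ∧
    (∀ g, IsNormalisingInvolution φ g →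
      ∃ π : Equiv.Perm (Fin n), ActsLike φ (fun y => (y : Equiv.Perm (Fin n)))
        (fun y => π * (y : Equiv.Perm (Fin n)) * π⁻¹) g) ∧
    ((∃ k, n = r ^ k) ∨ (r = 3 ∧ 3 ∣ n))

variable {G : Type} [Group G] [Finite G] {r : ℕ}

/-- Data given by a commuting element and subgroup become one `q`-subgroup. -/
lemma hasLocalQSubgroup_of_data {q : ℕ} {L : Subgroup G} {c : L} {Q : Subgroup L}
    (hQ : IsPGroup q Q) (hc : ∃ j : ℕ, c ^ q ^ j = 1) (hcQ : ∀ t ∈ Q, Commute c t)
    (hloc : LocalProp 2 L c Q)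
    (hnc : (∃ t ∈ Q, ∃ y : L, t * y ≠ y * t) ∨ ∃ y : L, c * y ≠ y * c) :
    HasLocalQSubgroup 2 q L := by
  obtain ⟨j, hj⟩ := hc
  have hzc : ∀ z ∈ Subgroup.zpowers c, z ^ q ^ j = 1 := by
    rintro _ ⟨i, rfl⟩
    show (c ^ i) ^ q ^ j = 1
    rw [← zpow_natCast, ← zpow_mul, mul_comm, zpow_mul, zpow_natCast, hj, one_zpow]
  have hcomm : ∀ (a : Q) (z : Subgroup.zpowers c), Commute (a : L) (z : L) := by
    rintro ⟨a, ha⟩ ⟨_, i, rfl⟩
    exact (hcQ a ha).symm.zpow_right i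
  let f : Q × Subgroup.zpowers c →* L := Q.subtype.noncommCoprod (Subgroup.zpowers c).subtype hcomm
  have hP : IsPGroup q (Q × Subgroup.zpowers c) := by
    rintro ⟨a, z⟩
    obtain ⟨i, hi⟩ := hQ a
    refine ⟨i + j, Prod.ext ?_ ?_⟩
    · show a ^ q ^ (i + j) = 1
      rw [pow_add, pow_mul, hi, one_pow]
    · refine Subtype.ext ?_
      show (z : L) ^ q ^ (i + j) = 1
      rw [pow_add, mul_comm, pow_mul, hzc z z.2, one_pow]
  have hc' : ∃ a, f a = c := ⟨(1, ⟨c, Subgroup.mem_zpowers c⟩), one_mul c⟩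
  have hQ' : ∀ t ∈ Q, ∃ a, f a = t := fun t ht => ⟨(⟨t, ht⟩, 1), mul_one t⟩
  refine ⟨(L.subtype.comp f).range, ?_, hP.of_surjective _ (MonoidHom.rangeRestrict_surjective _),
    ?_, fun E hsq hab hnorm hQE x hx y hy =>
      hloc E hsq hab hnorm (fun k hk x hx => ⟨_, hQE (k : G) ?_ x hx, fun _ _ => rfl⟩) x hx y hy⟩
  · rintro _ ⟨a, rfl⟩
    exact (f a).2
  · rcases hnc with ⟨t, ht, y, hty⟩ | ⟨y, hty⟩
    · obtain ⟨a, rfl⟩ := hQ' t ht
      exact ⟨_, ⟨a, rfl⟩, y, y.2, fun h => hty (Subtype.ext h)⟩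
    · obtain ⟨a, ha⟩ := hc'
      exact ⟨_, ⟨a, congrArg Subtype.val ha⟩, y, y.2, fun h => hty (Subtype.ext h)⟩
  · rcases hk with rfl | hk
    · obtain ⟨a, ha⟩ := hc'
      exact ⟨a, congrArg Subtype.val ha⟩
    · obtain ⟨a, ha⟩ := hQ' k hk
      exact ⟨a, congrArg Subtype.val ha⟩

lemma hasLocalQSubgroup_linear [Fact r.Prime] (hr : r ≠ 2) {L : Subgroup G}
    (h : IsSLComponent r L) : HasLocalQSubgroup 2 r L := by
  obtain ⟨Q, hQ, hloc, hnc⟩ := qData_linear hr h
  exact hasLocalQSubgroup_of_data hQ ⟨0, one_pow _⟩ (fun t _ => Commute.one_left t) hloc (Or.inl hnc)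

lemma hasLocalQSubgroup_form [Fact r.Prime] (hr : r ≠ 2) {L : Subgroup G}
    (h : IsFormComponent r L) : HasLocalQSubgroup 2 r L := by
  obtain ⟨Q, hQ, hloc, hnc⟩ := qData_form hr h
  exact hasLocalQSubgroup_of_data hQ ⟨0, one_pow _⟩ (fun t _ => Commute.one_left t) hloc (Or.inl hnc)

lemma hasLocalQSubgroup_alternating [hr : Fact r.Prime] (hr2 : r ≠ 2) {L : Subgroup G}
    (h : IsAltQComponent r L) : HasLocalQSubgroup 2 r L := by
  obtain ⟨n, φ, hn, hinj, hrange, haut, hrule⟩ := h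
  subst hrange
  obtain ⟨c, T, hd, hc, hc1⟩ : ∃ (c : Perm (Fin n)) (T : Set (Perm (Fin n))),
      FibreData r c T ∧ (∃ j, c ^ r ^ j = 1) ∧ c ≠ 1 := by
    rcases hrule with ⟨k, rfl⟩ | ⟨rfl, h3⟩
    · refine ⟨finRotate (r ^ k), ∅, fibreData_cycle ((hr.out.odd_of_ne_two hr2).pow) ∅ (by simp),
        ⟨k, finRotate_pow_self _⟩, fun h => ?_⟩
      have h1 := congrArg (fun π : Perm (Fin (r ^ k)) => π.support) h
      simp only [Perm.support_one, support_finRotate_of_le (show 2 ≤ r ^ k by omega)] at h1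
      exact (univ_nonempty_iff.mpr (Fin.pos_iff_nonempty.mp (by omega))).ne_empty h1
    · obtain ⟨a, rfl⟩ := h3
      let e : ((Σ _ : Fin (a - 1), Fin 3) ⊕ Fin 3) ≃ Fin (3 * a) :=
        Fintype.equivFinOfCardEq (by simp; omega)
      refine ⟨_, _, (fibreData_triples (k := a - 1) (L := 3) (by decide) (by decide)).transport e,
        ⟨1, ?_⟩, fun h => ?_⟩
      · rw [pow_one, ← map_pow]
        have : Perm.sumCongr (1 : Perm (Σ _ : Fin (a - 1), Fin 3)) (finRotate 3) ^ 3 = 1 := by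
          refine Equiv.ext fun x => ?_
          rcases x with x | x
          · rfl
          · show Sum.inr ((finRotate 3 * (finRotate 3 * finRotate 3)) x) = Sum.inr x
            rw [show finRotate 3 * (finRotate 3 * finRotate 3) = 1 by decide]
            rfl
        rw [this, map_one]
      · have h1 := e.permCongrHom.injective (h.trans (map_one _).symm)
        have h2 := Equiv.congr_fun h1 (Sum.inr 0)
        simp at h2
  obtain ⟨c', Q, hQ, hcQ, hloc, -, hpow, hne⟩ := exists_alternating_local' hn φ hinj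
    (fun g h1 h2 => haut g ⟨h1, h2⟩) hd
  obtain ⟨j, hj⟩ := hc
  refine hasLocalQSubgroup_of_data hQ ⟨j, hpow _ hj⟩ hcQ hloc (Or.inr ?_)
  by_contra hno
  push Not at hno
  refine hne hc1 ?_
  obtain ⟨u, hu⟩ := c'.2
  have hu1 : (u : Perm (Fin n)) = 1 := eq_one_of_commute_even (by omega) fun y hy => by
    have h1 := congrArg Subtype.val (hno (φ.rangeRestrict ⟨y, Perm.mem_alternatingGroup.mpr hy⟩))
    change (c' : G) * φ _ = φ _ * (c' : G) at h1
    rw [← hu, ← map_mul, ← map_mul] at h1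
    exact congrArg Subtype.val (hinj h1)
  exact Subtype.ext (by rw [← hu, show u = 1 from Subtype.ext hu1, map_one]; rfl)

/-- A nilpotent normal subgroup has order prime to `p` when `O_p(G) = 1`. -/
lemma coprime_of_nilpotent {p : ℕ} [hp : Fact p.Prime] (K : Subgroup G) [K.Normal]
    (hK : Group.IsNilpotent K) (hO : ∀ N : Subgroup G, N.Normal → IsPGroup p N → N = ⊥) :
    (Nat.card K).Coprime p := by
  obtain ⟨P⟩ := (inferInstance : Nonempty (Sylow p K))
  have hn : (P : Subgroup K).Normal :=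
    Sylow.normal_of_normalizerCondition Group.normalizerCondition_of_isNilpotent P
  have hc : (P : Subgroup K).Characteristic := Sylow.characteristic_of_normal P hn
  have hbot := hO ((P : Subgroup K).map K.subtype) ConjAct.normal_of_characteristic_of_normal
    (P.2.map _)
  rw [Subgroup.map_eq_bot_iff_of_injective _ K.subtype_injective] at hbot
  rw [Nat.coprime_comm, hp.out.coprime_iff_not_dvd]
  exact fun hdvd => Sylow.ne_bot_of_dvd_card P hdvd hbot

/-- The reduction in terms of `O_p(G) = 1`. -/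
theorem not_acyclic_of_Op {p q : ℕ} [Fact p.Prime] [Fact q.Prime] {I : Type} [Fintype I]
    (L : I → Subgroup G) (K : Subgroup G) [K.Normal] (hKn : Group.IsNilpotent K)
    (hO : ∀ N : Subgroup G, N.Normal → IsPGroup p N → N = ⊥)
    (hKL : ∀ i, ∀ y ∈ L i, ∀ u ∈ K, y * u = u * y)
    (hcomm : ∀ i j, i ≠ j → ∀ x ∈ L i, ∀ y ∈ L j, x * y = y * x)
    (hperm : ∀ g i, ∃ j, ∀ y, y ∈ L i ↔ g * y * g⁻¹ ∈ L j)
    (hcent : ∀ g, (∀ i, ∀ y ∈ L i, g * y = y * g) → (∀ u ∈ K, g * u = u * g) → g ∈ K)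
    (hloc : ∀ i, HasLocalQSubgroup p q (L i)) :
    ¬ LinearMap.ker (modBoundary q (ElemAbelian p G)) ≤
      LinearMap.range (modBoundary q (ElemAbelian p G)) := by
  have hKp := coprime_of_nilpotent K hKn hO
  exact not_acyclic_of_local L K hKn hKp hKL (fun i j hij x y hx hy => hcomm i j hij x hx y hy)
    hperm (fun g hg h1 h2 => eq_one_of_pow_eq_one hKp (hcent g h1 h2) hg) hloc

end Vale.Agent.P240
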