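import Vale.Agent.P240.Smith

/-!
# Transfer of acyclicity: along embeddings of posets, and from a finite field to the rationals
-/

open Finset Module

namespace Vale.Agent.P240

variable {α β : Type*} [PartialOrder α] [PartialOrder β]

/-- A chain moved along an embedding. -/
def Chain.mapEmb (e : α ↪o β) (σ : Chain α) : Chain β :=
  ⟨σ.1.map e.toEmbedding, by
    rw [coe_map]
    intro a ha b hb hab
    obtain ⟨a, ha', rfl⟩ := ha
    obtain ⟨b, hb', rfl⟩ := hb
    exact (σ.2 ha' hb' fun h => hab (h ▸ rfl)).imp e.monotone.imp e.monotone.imp⟩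

lemma Chain.mapEmb_injective (e : α ↪o β) : Function.Injective (Chain.mapEmb e) := fun σ τ h =>
  Subtype.ext (Finset.map_injective e.toEmbedding (congrArg Subtype.val h))

variable (q : ℕ)

lemma modBoundary_mapEmb (e : α ↪o β) (x : Chain α →₀ ZMod q) :
    modBoundary q β (Finsupp.lmapDomain (ZMod q) (ZMod q) (Chain.mapEmb e) x) =
      Finsupp.lmapDomain (ZMod q) (ZMod q) (Chain.mapEmb e) (modBoundary q α x) := by
  classical
  suffices modBoundary q β ∘ₗ Finsupp.lmapDomain (ZMod q) (ZMod q) (Chain.mapEmb e) =
      Finsupp.lmapDomain (ZMod q) (ZMod q) (Chain.mapEmb e) ∘ₗ modBoundary q α from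
    LinearMap.congr_fun this x
  refine Finsupp.lhom_ext fun σ b => ?_
  rw [← Finsupp.smul_single_one, map_smul, map_smul]
  congr 1
  simp only [LinearMap.comp_apply, modBoundary_single, map_sum, map_smul, Finsupp.lmapDomain_apply,
    Finsupp.mapDomain_single]
  rw [show (σ.mapEmb e).1 = σ.1.map e.toEmbedding from rfl, sum_map]
  refine sum_congr rfl fun v hv => ?_
  have hs : (σ.mapEmb e).modSign q (e.toEmbedding v) = σ.modSign q v := by
    simp only [Chain.modSign, Chain.mapEmb, filter_map, card_map]
    congr 2
    exact filter_congr fun u _ => by simp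
  have hr : (σ.mapEmb e).remove (e.toEmbedding v) = (σ.remove v).mapEmb e :=
    Subtype.ext (by simp [Chain.remove, Chain.mapEmb, map_erase])
  rw [hs, hr]

variable [hq : Fact q.Prime]

/-- Acyclicity on the image of an embedding is acyclicity. -/
theorem exact_of_isAcyclicOn [Finite β] (e : α ↪o β) {S : Set β} (hS : Set.range e = S)
    (h : IsAcyclicOn q S) :
    LinearMap.ker (modBoundary q α) ≤ LinearMap.range (modBoundary q α) := by
  classical
  intro x hx
  set f := Finsupp.lmapDomain (ZMod q) (ZMod q) (Chain.mapEmb e)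
  have hmem : ∀ z, f z ∈ chainsIn q S := fun z => (Finsupp.mem_supported _ _).mpr fun σ hσ => by
    obtain ⟨τ, -, rfl⟩ := mem_image.mp (Finsupp.mapDomain_support hσ)
    intro a ha
    obtain ⟨b, -, rfl⟩ := mem_map.mp ha
    rw [← hS]
    exact Set.mem_range_self b
  have h1 : f x ∈ chainsIn q S ⊓ LinearMap.ker (modBoundary q β) :=
    ⟨hmem x, by rw [SetLike.mem_coe, LinearMap.mem_ker, modBoundary_mapEmb, hx, map_zero]⟩
  rw [← map_eq_inf_ker _ (modBoundary_modBoundary_apply q) (map_chainsIn_le q S) h] at h1
  obtain ⟨y, hy, hyx⟩ := h1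
  refine ⟨Finsupp.comapDomain (Chain.mapEmb e) y (Chain.mapEmb_injective e).injOn, ?_⟩
  refine Finsupp.mapDomain_injective (Chain.mapEmb_injective e) ?_
  change f _ = f x
  rw [← modBoundary_mapEmb, ← hyx]
  congr 1
  refine Finsupp.mapDomain_comapDomain _ (Chain.mapEmb_injective e) y fun σ hσ => ?_
  have hsub : (σ.1 : Set β) ⊆ Set.range e := hS ▸ (Finsupp.mem_supported _ y).mp hy hσ
  let τ : Finset α := σ.1.preimage e e.injective.injOn
  refine ⟨⟨τ, fun a ha b hb hab => ?_⟩, Subtype.ext (Finset.ext fun c => ?_)⟩
  · have ha' : e a ∈ σ.1 := mem_preimage.mp (show a ∈ τ from ha)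
    have hb' : e b ∈ σ.1 := mem_preimage.mp (show b ∈ τ from hb)
    exact (σ.2 ha' hb' fun h => hab (e.injective h)).imp e.le_iff_le.mp e.le_iff_le.mp
  · refine ⟨fun hc => ?_, fun hc => ?_⟩
    · obtain ⟨a, ha, rfl⟩ := mem_map.mp hc
      exact (Finset.mem_preimage (hf := e.injective.injOn)).mp ha
    · obtain ⟨a, rfl⟩ := hsub hc
      exact mem_map.mpr ⟨a, (Finset.mem_preimage (hf := e.injective.injOn)).mpr hc, rfl⟩

/-- The boundary with integer coefficients. -/
noncomputable def intBoundary (σ : Chain α) : Chain α →₀ ℤ :=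
  haveI := Classical.decRel fun u v : α => u < v
  ∑ v ∈ σ.1, (-1 : ℤ) ^ #(σ.1.filter fun u => u < v) • Finsupp.single (σ.remove v) 1

lemma mapRange_intBoundary_rat (σ : Chain α) :
    Finsupp.mapRange.addMonoidHom (Int.castAddHom ℚ) (intBoundary σ) =
      boundary α (Finsupp.single σ 1) := by
  classical
  rw [boundary_single, intBoundary, map_sum]
  refine sum_congr rfl fun v _ => ?_
  rw [Finsupp.smul_single, Finsupp.smul_single, smul_eq_mul, smul_eq_mul, mul_one, mul_one,
    Finsupp.mapRange.addMonoidHom_apply, Finsupp.mapRange_single]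
  simp only [Chain.sign, Int.coe_castAddHom, Int.cast_pow, Int.cast_neg, Int.cast_one]

lemma mapRange_intBoundary_mod (σ : Chain α) :
    Finsupp.mapRange.addMonoidHom (Int.castAddHom (ZMod q)) (intBoundary σ) =
      modBoundary q α (Finsupp.single σ 1) := by
  classical
  rw [modBoundary_single, intBoundary, map_sum]
  refine sum_congr rfl fun v _ => ?_
  rw [Finsupp.smul_single, Finsupp.smul_single, smul_eq_mul, smul_eq_mul, mul_one, mul_one,
    Finsupp.mapRange.addMonoidHom_apply, Finsupp.mapRange_single]
  simp only [Chain.modSign, Int.coe_castAddHom, Int.cast_pow, Int.cast_neg, Int.cast_one]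

/-- Independence modulo `q` gives independence over the integers. -/
lemma eq_zero_of_mod_independent {ι : Type*} [Fintype ι] {γ : Type*} (v : ι → γ →₀ ℤ)
    (h : LinearIndependent (ZMod q) fun i =>
      Finsupp.mapRange.addMonoidHom (Int.castAddHom (ZMod q)) (v i)) :
    ∀ (n : ℕ) (a : ι → ℤ), ∑ i, (a i).natAbs ≤ n → ∑ i, a i • v i = 0 → ∀ i, a i = 0 := by
  intro n
  induction n with
  | zero =>
    intro a ha _ i
    simpa using Nat.le_zero.mp ((single_le_sum (fun j _ => Nat.zero_le _) (mem_univ i)).trans ha)
  | succ n ih =>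
    intro a ha hsum
    have hmod : ∀ i, (a i : ZMod q) = 0 := by
      refine Fintype.linearIndependent_iff.mp h (fun i => (a i : ZMod q)) ?_
      have h1 := congrArg (Finsupp.mapRange.addMonoidHom (Int.castAddHom (ZMod q))) hsum
      rw [map_sum, map_zero] at h1
      rw [← h1]
      exact sum_congr rfl fun i _ => by rw [map_zsmul, ← Int.cast_smul_eq_zsmul (ZMod q)]
    choose b hb using fun i => (ZMod.intCast_zmod_eq_zero_iff_dvd (a i) q).mp (hmod i)
    by_contra hne
    push Not at hne
    obtain ⟨i₀, hi₀⟩ := hne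
    have hb0 : ∀ i, b i = 0 := by
      refine ih b ?_ ?_
      · have hlt : ∑ i, (b i).natAbs < ∑ i, (a i).natAbs := by
          refine sum_lt_sum (fun i _ => ?_) ⟨i₀, mem_univ _, ?_⟩
          · rw [hb i, Int.natAbs_mul, Int.natAbs_natCast]
            exact Nat.le_mul_of_pos_left _ hq.out.pos
          · have hbne : (b i₀).natAbs ≠ 0 := fun h0 => hi₀ (by
              rw [hb i₀, Int.natAbs_eq_zero.mp h0, mul_zero])
            rw [hb i₀, Int.natAbs_mul, Int.natAbs_natCast]
            exact lt_mul_of_one_lt_left (Nat.pos_of_ne_zero hbne) hq.out.one_lt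
        omega
      · have h2 : (q : ℤ) • ∑ i, b i • v i = 0 := by
          rw [smul_sum, ← hsum]
          exact sum_congr rfl fun i _ => by rw [smul_smul, ← hb i]
        exact (smul_eq_zero.mp h2).resolve_left (by exact_mod_cast hq.out.ne_zero)
    exact hi₀ (by rw [hb i₀, hb0 i₀, mul_zero])

/-- **Exactness modulo `q` gives exactness over the rationals.** -/
theorem exact_rat_of_exact_mod [Finite α]
    (h : LinearMap.ker (modBoundary q α) ≤ LinearMap.range (modBoundary q α)) :
    LinearMap.ker (boundary α) ≤ LinearMap.range (boundary α) := by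
  classical
  have := Fintype.ofFinite (Chain α)
  have e : LinearMap.range (modBoundary q α) = LinearMap.ker (modBoundary q α) :=
    le_antisymm (by rintro _ ⟨x, rfl⟩; exact modBoundary_modBoundary_apply q x) h
  have hN := LinearMap.finrank_range_add_finrank_ker (modBoundary q α)
  rw [← e] at hN
  -- a maximal independent family of boundaries
  set w : Chain α → (Chain α →₀ ZMod q) := fun σ => modBoundary q α (Finsupp.single σ 1)
  have hspan : Submodule.span (ZMod q) (Set.range w) = LinearMap.range (modBoundary q α) := by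
    rw [LinearMap.range_eq_map, ← (Finsupp.basisSingleOne (R := ZMod q) (ι := Chain α)).span_eq,
      Submodule.map_span, ← Set.range_comp]
    rfl
  obtain ⟨κ, a, ha, hsp, hli⟩ := exists_linearIndependent' (ZMod q) w
  have := Fintype.ofInjective a ha
  have hcard : Fintype.card κ = finrank (ZMod q) (LinearMap.range (modBoundary q α)) := by
    rw [← hspan, ← hsp]
    exact (finrank_span_eq_card hli).symm
  have hint : LinearIndependent ℤ fun k => intBoundary (a k) := by
    rw [Fintype.linearIndependent_iff]
    intro c hc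
    refine eq_zero_of_mod_independent q (fun k => intBoundary (a k)) ?_ _ c le_rfl hc
    simpa only [mapRange_intBoundary_mod, w, Function.comp_def] using hli
  have hrat : LinearIndependent ℚ fun k => boundary α (Finsupp.single (a k) 1) := by
    rw [← LinearIndependent.iff_fractionRing (R := ℤ) (K := ℚ)]
    have hinj : Function.Injective
        (Finsupp.mapRange.addMonoidHom (ι := Chain α) (Int.castAddHom ℚ)) :=
      Finsupp.mapRange_injective _ (by simp) Int.cast_injective
    have := hint.map' (Finsupp.mapRange.addMonoidHom (ι := Chain α) (Int.castAddHom ℚ)).toIntLinearMap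
      (LinearMap.ker_eq_bot.mpr hinj)
    simpa only [Function.comp_def, AddMonoidHom.coe_toIntLinearMap, mapRange_intBoundary_rat]
      using this
  have hle : Fintype.card κ ≤ finrank ℚ (LinearMap.range (boundary α)) := by
    rw [← finrank_span_eq_card hrat]
    refine Submodule.finrank_mono (Submodule.span_le.mpr ?_)
    rintro _ ⟨k, rfl⟩
    exact LinearMap.mem_range_self _ _
  have hNQ := LinearMap.finrank_range_add_finrank_ker (boundary α)
  rw [finrank_finsupp_self] at hN hNQ
  have hsub : LinearMap.range (boundary α) ≤ LinearMap.ker (boundary α) := by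
    rintro _ ⟨x, rfl⟩
    exact LinearMap.congr_fun boundary_boundary x
  exact (Submodule.eq_of_le_of_finrank_le hsub (by omega)).ge

end Vale.Agent.P240
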