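import Vale.Agent.P240.ReductionKinds
import Vale.Agent.P240.Transfer

/-!
# Two odd characteristics at once

Smith theory for the prime `q` leaves the centraliser of the components of that characteristic and
of a normal `q`-subgroup; there the rational criterion for the prime `r` applies, and rational
homology gives homology modulo `q`.
-/

open Finset

namespace Vale.Agent.P240

section Embedding

variable {G : Type*} [Group G] {p : ℕ}

/-- The elementary abelian subgroups of a subgroup inside those of the group. -/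
def elemEmb (p : ℕ) (M : Subgroup G) : ElemAbelian p M ↪o ElemAbelian p G :=
  OrderEmbedding.ofMapLEIff
    (fun E => ⟨E.1.map M.subtype,
      fun h => E.2.1 ((Subgroup.map_eq_bot_iff_of_injective _ M.subtype_injective).mp h),
      by rintro _ ⟨x, hx, rfl⟩; rw [← map_pow, E.2.2.1 x hx, map_one],
      by rintro _ ⟨x, hx, rfl⟩ _ ⟨y, hy, rfl⟩; rw [← map_mul, ← map_mul, E.2.2.2 x hx y hy]⟩)
    fun _ _ => Subgroup.map_le_map_iff_of_injective M.subtype_injective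

lemma range_elemEmb (M : Subgroup G) :
    Set.range (elemEmb p M) = {E : ElemAbelian p G | E.1 ≤ M} := by
  ext E
  refine ⟨?_, fun hE => ?_⟩
  · rintro ⟨E, rfl⟩
    rintro _ ⟨x, -, rfl⟩
    exact x.2
  · have he : (E.1.subgroupOf M).map M.subtype = E.1 :=
      Subgroup.map_subgroupOf_eq_of_le hE
    refine ⟨⟨E.1.subgroupOf M, fun h => E.2.1 ?_, fun x hx => Subtype.ext ?_,
      fun x hx y hy => Subtype.ext (E.2.2.2 x hx y hy)⟩, Subtype.ext he⟩
    · rw [← he, h, Subgroup.map_bot]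
    · rw [SubmonoidClass.coe_pow]; exact E.2.2.1 x hx

end Embedding

variable {G : Type} [Group G] [Finite G] {r : ℕ}

omit [Finite G] in
/-- The property passes to conjugates. -/
lemma HasLocalQSubgroup.conj {p q : ℕ} {L L' : Subgroup G} {g : G}
    (hg : ∀ y, y ∈ L ↔ g * y * g⁻¹ ∈ L') (h : HasLocalQSubgroup p q L) :
    HasLocalQSubgroup p q L' := by
  obtain ⟨Q, hQL, hQ, ⟨t, ht, y, hy, hty⟩, hloc⟩ := h
  let c : G →* G := (MulAut.conj g).toMonoidHom
  have hc : Function.Injective c := (MulAut.conj g).injective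
  refine ⟨Q.map c, ?_, hQ.map c, ⟨c t, ⟨t, ht, rfl⟩, c y, (hg y).mp hy, fun h => hty (hc ?_)⟩,
    fun E hsq hab hnorm hQE x hx z hz => ?_⟩
  · rintro _ ⟨t, ht, rfl⟩
    exact (hg t).mp (hQL ht)
  · rw [map_mul, map_mul, h]
  · obtain ⟨x', hx'⟩ : ∃ x', c x' = x := (MulAut.conj g).surjective x
    obtain ⟨z', hz'⟩ : ∃ z', c z' = z := (MulAut.conj g).surjective z
    have hL : ∀ y, y ∈ L ↔ c y ∈ L' := hg
    have key := hloc (E.comap c) (fun a ha => hc (by rw [map_pow, map_one]; exact hsq _ ha))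
      (fun a ha b hb => hc (by rw [map_mul, map_mul]; exact hab _ ha _ hb))
      (fun a ha w => by
        rw [hL, hL (a * w * a⁻¹), map_mul, map_mul, map_inv]
        exact hnorm _ ha _)
      (fun s hs a ha => by
        rw [Subgroup.mem_comap, map_mul, map_mul, map_inv]
        exact hQE _ ⟨s, hs, rfl⟩ _ ha)
      x' (by rw [Subgroup.mem_comap, hx']; exact hx) z' ((hL z').mpr (hz'.symm ▸ hz))
    rw [← hx', ← hz', ← map_mul, ← map_mul, key]

omit [Finite G] in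
lemma IsSLComponent.subgroupOf {L M : Subgroup G} (hLM : L ≤ M) (h : IsSLComponent r L) :
    IsSLComponent r (L.subgroupOf M) := by
  obtain ⟨F, i1, i2, n, φ, hn, hF, hker, rfl, haut⟩ := h
  refine ⟨F, i1, i2, n, φ.codRestrict M fun y => hLM ⟨y, rfl⟩, hn, hF,
    fun s hs => hker (congrArg Subtype.val hs : φ s = 1), ?_, fun g hg => ?_⟩
  · ext x
    exact ⟨fun ⟨y, hy⟩ => ⟨y, congrArg Subtype.val hy⟩, fun ⟨y, hy⟩ => ⟨y, Subtype.ext hy⟩⟩
  · obtain ⟨A, σ, hA⟩ := haut (g : G) ⟨congrArg Subtype.val hg.1, fun y => by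
      constructor
      · rintro ⟨s, rfl⟩
        obtain ⟨t, ht⟩ := (hg.2 _).mp ⟨s, rfl⟩
        exact ⟨t, congrArg Subtype.val ht⟩
      · rintro ⟨s, hs⟩
        have hy : y ∈ M := by
          have : y = (g : G)⁻¹ * φ s * g := by rw [hs]; group
          rw [this]
          exact mul_mem (mul_mem (inv_mem g.2) (hLM ⟨s, rfl⟩)) g.2
        obtain ⟨t, ht⟩ := (hg.2 ⟨y, hy⟩).mpr ⟨s, Subtype.ext hs⟩
        exact ⟨t, congrArg Subtype.val ht⟩⟩
    refine ⟨A, σ, hA.imp (fun h y => ?_) fun ⟨h3, h⟩ => ⟨h3, fun y => ?_⟩⟩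
    all_goals
      obtain ⟨y', h1, h2⟩ := h y
      exact ⟨y', h1, Subtype.ext h2⟩

omit [Finite G] in
lemma normalising_coe {S : Type} [Group S] {φ : S →* G} {M : Subgroup G} (hφ : ∀ y, φ y ∈ M)
    {g : M} (hg : IsNormalisingInvolution (φ.codRestrict M hφ) g) :
    IsNormalisingInvolution φ (g : G) := by
  refine ⟨congrArg Subtype.val hg.1, fun y => ⟨?_, ?_⟩⟩
  · rintro ⟨s, rfl⟩
    obtain ⟨t, ht⟩ := (hg.2 _).mp ⟨s, rfl⟩
    exact ⟨t, congrArg Subtype.val ht⟩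
  · rintro ⟨s, hs⟩
    have hy : y ∈ M := by
      have : y = (g : G)⁻¹ * φ s * g := by rw [hs]; group
      rw [this]
      exact mul_mem (mul_mem (inv_mem g.2) (hφ s)) g.2
    obtain ⟨t, ht⟩ := (hg.2 ⟨y, hy⟩).mpr ⟨s, Subtype.ext hs⟩
    exact ⟨t, congrArg Subtype.val ht⟩

omit [Finite G] in
lemma IsFormComponent.subgroupOf {L M : Subgroup G} (hLM : L ≤ M) (h : IsFormComponent r L) :
    IsFormComponent r (L.subgroupOf M) := by
  obtain ⟨F, i1, i2, m, k, τ, δ, J₀, S, φ, hc, hJ, hS, hker, rfl, haut⟩ := h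
  refine ⟨F, i1, i2, m, k, τ, δ, J₀, S, φ.codRestrict M fun y => hLM ⟨y, rfl⟩, hc, hJ, hS,
    fun s hs => hker s (congrArg Subtype.val hs : φ s = 1), ?_, fun g hg => ?_⟩
  · ext x
    exact ⟨fun ⟨y, hy⟩ => ⟨y, congrArg Subtype.val hy⟩, fun ⟨y, hy⟩ => ⟨y, Subtype.ext hy⟩⟩
  · obtain ⟨A, σ, hA⟩ := haut (g : G) (normalising_coe (fun y => hLM ⟨y, rfl⟩) hg)
    refine ⟨A, σ, fun y => ?_⟩
    obtain ⟨y', h1, h2⟩ := hA y
    exact ⟨y', h1, Subtype.ext h2⟩

omit [Finite G] in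
lemma IsAltComponent.subgroupOf {I J : Type} {L : I → Subgroup G} {M : Subgroup G} (e : J → I)
    (he : Function.Injective e) (hLM : ∀ j, L (e j) ≤ M) {j : J}
    (h : IsAltComponent r L (e j)) :
    IsAltComponent r (fun j => (L (e j)).subgroupOf M) j := by
  obtain ⟨n, φ, hn, hinj, hrange, haut, hrule⟩ := h
  have hmem : ∀ y, φ y ∈ M := fun y => hLM j (hrange.le ⟨y, rfl⟩)
  refine ⟨n, φ.codRestrict M hmem, hn, fun a b hab => hinj (congrArg Subtype.val hab), ?_,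
    fun g hg => ?_, ?_⟩
  · ext x
    constructor
    · rintro ⟨y, rfl⟩
      exact hrange.le ⟨y, rfl⟩
    · intro hx
      obtain ⟨y, hy⟩ := hrange.ge (show (x : G) ∈ L (e j) from hx)
      exact ⟨y, Subtype.ext hy⟩
  · obtain ⟨π, hπ⟩ := haut (g : G) (normalising_coe hmem hg)
    refine ⟨π, fun y => ?_⟩
    obtain ⟨y', h1, h2⟩ := hπ y
    exact ⟨y', h1, Subtype.ext h2⟩
  · rcases hrule with h | h | h
    · exact Or.inl h
    · exact Or.inr (Or.inl h)
    · refine Or.inr (Or.inr fun l hl => he (h (e l) ?_))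
      obtain ⟨f⟩ := hl
      exact ⟨(Subgroup.subgroupOfEquivOfLe (hLM j)).symm.trans
        (f.trans (Subgroup.subgroupOfEquivOfLe (hLM l)))⟩

/-- The component is of a kind handled by Smith theory for the prime `q`, or by the rational
criterion for the prime `r`. -/
def IsAdmissibleComponent {I : Type} (q r : ℕ) (L : I → Subgroup G) (i : I) : Prop :=
  (IsSLComponent q (L i) ∨ IsFormComponent q (L i) ∨ IsAltQComponent q (L i)) ∨
    (IsSLComponent r (L i) ∨ IsFormComponent r (L i) ∨ IsAltComponent r L i)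

/-- **Two odd characteristics.** -/
theorem not_acyclic_two_primes {q : ℕ} [hq : Fact q.Prime] (hq2 : q ≠ 2) (hr : r.Prime)
    (hr2 : r ≠ 2) {I : Type} [Fintype I] (L : I → Subgroup G) (K Q₀ R : Subgroup G) (z : G)
    (hK : K.Normal) (hKodd : Odd (Nat.card K)) (hQn : Q₀.Normal) (hQ₀ : IsPGroup q Q₀)
    (hQK : Q₀ ≤ K) (hR : IsPGroup r R) (hRK : R ≤ K) (hz : z ∈ K)
    (hzR : ∀ u ∈ R, z * u = u * z) (hzQ : ∀ t ∈ Q₀, z * t = t * z)
    (hRQ : ∀ u ∈ R, ∀ t ∈ Q₀, u * t = t * u)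
    (hKL : ∀ i, ∀ y ∈ L i, ∀ u ∈ K, y * u = u * y)
    (hcomm : ∀ i j, i ≠ j → ∀ x ∈ L i, ∀ y ∈ L j, x * y = y * x)
    (hperm : ∀ g i, ∃ j, ∀ y, y ∈ L i ↔ g * y * g⁻¹ ∈ L j)
    (hcent : ∀ g, g * g = 1 → (∀ i, ∀ y ∈ L i, g * y = y * g) → (∀ t ∈ Q₀, g * t = t * g) →
      (∀ u ∈ R, g * u = u * g) → g * z = z * g → g = 1)
    (htype : ∀ i, IsAdmissibleComponent q r L i) :
    ¬ LinearMap.ker (modBoundary q (ElemAbelian 2 G)) ≤
      LinearMap.range (modBoundary q (ElemAbelian 2 G)) := by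
  classical
  intro hex
  have : Fact (Nat.Prime 2) := ⟨Nat.prime_two⟩
  let I₁ := {i : I // HasLocalQSubgroup 2 q (L i)}
  let J := {i : I // ¬ HasLocalQSubgroup 2 q (L i)}
  have hinv : ∀ g i j, (∀ y, y ∈ L i ↔ g * y * g⁻¹ ∈ L j) →
      HasLocalQSubgroup 2 q (L j) → HasLocalQSubgroup 2 q (L i) := by
    intro g i j hj h
    refine h.conj (g := g⁻¹) fun y => ?_
    rw [hj (g⁻¹ * y * g⁻¹⁻¹)]
    simp [mul_assoc]
  have hfixed := acyclicOn_centralizer (p := 2) (q := q) (fun i : I₁ => L i.1)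
    (fun i j hij x y hx hy => hcomm i.1 j.1 (fun h => hij (Subtype.ext h)) x hx y hy)
    (fun g i => by
      obtain ⟨j, hj⟩ := hperm g i.1
      exact ⟨⟨j, i.2.conj hj⟩, hj⟩)
    (fun i => i.2) hex
  set M₁ : Subgroup G := Subgroup.centralizer {y | ∃ i : I₁, y ∈ L i.1}
  set M : Subgroup G := M₁ ⊓ Subgroup.centralizer (Q₀ : Set G)
  have hQM₁ : Q₀ ≤ M₁ := fun t ht => Subgroup.mem_centralizer_iff.mpr fun y ⟨i, hy⟩ =>
    hKL i.1 y hy t (hQK ht)
  have hstep := isAcyclicOn_fixedPoints_of_invariant q hQ₀ ((conjEA 2 G).comp Q₀.subtype)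
    (fun y a b => Subgroup.map_le_map_iff_of_injective
      (MulEquiv.injective (MulAut.conj (y : G))))
    (S₀ := {E : ElemAbelian 2 G | E.1 ≤ M₁}) (fun y E hE => by
      rintro _ ⟨x, hx, rfl⟩
      exact mul_mem (mul_mem (hQM₁ y.2) (hE hx)) (inv_mem (hQM₁ y.2))) hfixed
  have hset : {E : ElemAbelian 2 G | E.1 ≤ M₁} ∩
      {E | ∀ y, (conjEA 2 G).comp Q₀.subtype y E = E} = {E | E.1 ≤ M} := by
    ext E
    constructor
    · rintro ⟨hE, hfix⟩ x hx
      refine Subgroup.mem_inf.mpr ⟨hE hx, Subgroup.mem_centralizer_iff.mpr fun t ht => ?_⟩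
      have h1 := congrArg Subtype.val (hfix ⟨t, ht⟩)
      change E.1.map (MulAut.conj t).toMonoidHom = E.1 at h1
      have hc1 : t * x * t⁻¹ * x⁻¹ ∈ E.1 := mul_mem (h1 ▸ ⟨x, hx, rfl⟩) (inv_mem hx)
      have hc2 : t * x * t⁻¹ * x⁻¹ ∈ Q₀ := by
        have : t * x * t⁻¹ * x⁻¹ = t * (x * t⁻¹ * x⁻¹) := by group
        rw [this]
        exact mul_mem ht (hQn.conj_mem _ (inv_mem ht) x)
      have hone : t * x * t⁻¹ * x⁻¹ = 1 := by
        refine eq_one_of_pow_eq_one (p := 2) ?_ hc2 (E.2.2.1 _ hc1)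
        exact Nat.coprime_two_right.mpr (hKodd.of_dvd_nat (Subgroup.card_dvd_of_le hQK))
      rw [mul_inv_eq_one, mul_inv_eq_iff_eq_mul] at hone
      exact hone
    · intro hE
      refine ⟨fun x hx => (Subgroup.mem_inf.mp (hE hx)).1, fun y => Subtype.ext ?_⟩
      show E.1.map (MulAut.conj (y : G)).toMonoidHom = E.1
      have hfix : ∀ x ∈ E.1, (y : G) * x * (y : G)⁻¹ = x := fun x hx => by
        rw [Subgroup.mem_centralizer_iff.mp (Subgroup.mem_inf.mp (hE hx)).2 y y.2,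
          mul_inv_cancel_right]
      refine SetLike.ext fun w => ⟨?_, fun hw => Subgroup.mem_map.mpr ⟨w, hw, hfix w hw⟩⟩
      rintro ⟨x, hx, rfl⟩
      show (y : G) * x * (y : G)⁻¹ ∈ E.1
      rw [hfix x hx]
      exact hx
  rw [hset] at hstep
  have hrat := exact_rat_of_exact_mod q (exact_of_isAcyclicOn q (elemEmb 2 M) (range_elemEmb M) hstep)
  have hmemM : ∀ {x}, (∀ i : I₁, ∀ y ∈ L i.1, x * y = y * x) → (∀ t ∈ Q₀, x * t = t * x) → x ∈ M :=
    fun {x} h1 h2 => Subgroup.mem_inf.mpr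
      ⟨Subgroup.mem_centralizer_iff.mpr fun y ⟨i, hy⟩ => (h1 i y hy).symm,
        Subgroup.mem_centralizer_iff.mpr fun t ht => (h2 t ht).symm⟩
  have hJM : ∀ j : J, L j.1 ≤ M := fun j x hx => hmemM
    (fun i y hy => hcomm j.1 i.1 (fun h => j.2 (h ▸ i.2)) x hx y hy)
    fun t ht => hKL j.1 x hx t (hQK ht)
  have hKM : ∀ u ∈ K, (∀ t ∈ Q₀, u * t = t * u) → u ∈ M := fun u hu h =>
    hmemM (fun i y hy => (hKL i.1 y hy u hu).symm) h
  have hzM : z ∈ M := hKM z hz hzQ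
  have hRM : R ≤ M := fun u hu => hKM u (hRK hu) (hRQ u hu)
  have hK' : Odd (Nat.card (K.subgroupOf M)) :=
    hKodd.of_dvd_nat (Subgroup.card_comap_dvd_of_injective K M.subtype M.subtype_injective)
  refine (hasHomology_general hr hr2 (fun j : J => (L j.1).subgroupOf M) (K.subgroupOf M)
    (R.subgroupOf M) ⟨z, hzM⟩ (hK.subgroupOf M) hK'
    (hR.comap_of_injective _ M.subtype_injective) (fun u hu => hRK hu) hz
    (fun u hu => Subtype.ext (hzR u hu))
    (fun j y hy u hu => Subtype.ext (hKL j.1 y hy u hu))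
    (fun i j hij x hx y hy => Subtype.ext (hcomm i.1 j.1 (fun h => hij (Subtype.ext h)) x hx y hy))
    (fun g i => ?_) (fun g hg hgL hgR hgz => Subtype.ext ?_) (fun j => ?_)).2 hrat
  · obtain ⟨j, hj⟩ := hperm g i.1
    exact ⟨⟨j, fun h => i.2 (hinv g i.1 j hj h)⟩, fun y => hj y⟩
  · obtain ⟨hg1, hg2⟩ := Subgroup.mem_inf.mp g.2
    refine hcent g (congrArg Subtype.val hg) (fun i y hy => ?_)
      (fun t ht => (Subgroup.mem_centralizer_iff.mp hg2 t ht).symm)
      (fun u hu => congrArg Subtype.val (hgR ⟨u, hRM hu⟩ hu)) (congrArg Subtype.val hgz)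
    by_cases hi : HasLocalQSubgroup 2 q (L i)
    · exact (Subgroup.mem_centralizer_iff.mp hg1 y ⟨⟨i, hi⟩, hy⟩).symm
    · exact congrArg Subtype.val (hgL ⟨i, hi⟩ ⟨y, hJM ⟨i, hi⟩ hy⟩ hy)
  · rcases htype j.1 with (h | h | h) | h | h | h
    · exact absurd (hasLocalQSubgroup_linear hq2 h) j.2
    · exact absurd (hasLocalQSubgroup_form hq2 h) j.2
    · exact absurd (hasLocalQSubgroup_alternating hq2 h) j.2
    · exact Or.inr (Or.inl (h.subgroupOf (hJM j)))
    · exact Or.inr (Or.inr (h.subgroupOf (hJM j)))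
    · exact Or.inl (h.subgroupOf Subtype.val Subtype.val_injective hJM)

end Vale.Agent.P240
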