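import Mathlib

/-!
# Unitriangular matrices with three levels
-/

open Finset Matrix

namespace Vale.Agent.P240

variable {F : Type*} [Field F] {ι : Type*} [Fintype ι] [DecidableEq ι]

/-- All entries of `N` go strictly upwards for the level function `b`. -/
def IsStrict (b : ι → ℕ) (N : Matrix ι ι F) : Prop :=
  ∀ ⦃i j⦄, b j ≤ b i → N i j = 0

variable {b : ι → ℕ} {A M N : Matrix ι ι F}

omit [Fintype ι] [DecidableEq ι] in
lemma IsStrict.zero : IsStrict b (0 : Matrix ι ι F) := fun _ _ _ => rfl

omit [Fintype ι] [DecidableEq ι] in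
lemma IsStrict.add (hM : IsStrict b M) (hN : IsStrict b N) : IsStrict b (M + N) :=
  fun i j h => by rw [Matrix.add_apply, hM h, hN h, add_zero]

omit [Fintype ι] [DecidableEq ι] in
lemma IsStrict.neg (hM : IsStrict b M) : IsStrict b (-M) :=
  fun i j h => by rw [Matrix.neg_apply, hM h, neg_zero]

omit [DecidableEq ι] in
lemma IsStrict.mul (hM : IsStrict b M) (hN : IsStrict b N) : IsStrict b (M * N) := by
  intro i j h
  rw [Matrix.mul_apply]; refine sum_eq_zero fun l _ => ?_
  rcases le_or_gt (b l) (b i) with hl | hl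
  · rw [hM hl, zero_mul]
  · rw [hN (h.trans hl.le), mul_zero]

omit [DecidableEq ι] in
lemma IsStrict.conj {A' : Matrix ι ι F} (hA : A.BlockTriangular b) (hA' : A'.BlockTriangular b)
    (hN : IsStrict b N) : IsStrict b (A * N * A') := by
  intro i j h
  rw [Matrix.mul_apply]; refine sum_eq_zero fun l _ => ?_
  rcases lt_or_ge (b j) (b l) with hl | hl
  · rw [hA' hl, mul_zero]
  · refine mul_eq_zero_of_left ?_ _
    rw [Matrix.mul_apply]; refine sum_eq_zero fun u _ => ?_
    rcases lt_or_ge (b u) (b i) with hu | hu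
    · rw [hA hu, zero_mul]
    · rw [hN ((hl.trans h).trans hu), mul_zero]

omit [DecidableEq ι] in
/-- With at most three levels, three strict factors multiply to zero. -/
lemma IsStrict.cube (hb : ∀ i, b i ≤ 2) (hM : IsStrict b M) : M * M * M = 0 := by
  ext i j
  rw [Matrix.zero_apply, Matrix.mul_apply]; refine sum_eq_zero fun l _ => ?_
  rcases le_or_gt (b j) (b l) with hl | hl
  · rw [hM hl, mul_zero]
  rcases le_or_gt (b l) 1 with hl1 | hl1
  · refine mul_eq_zero_of_left ?_ _
    rw [Matrix.mul_apply]; refine sum_eq_zero fun u _ => ?_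
    rcases le_or_gt (b l) (b u) with hu | hu
    · rw [hM hu, mul_zero]
    · rw [hM (show b u ≤ b i by omega), zero_mul]
  · have := hb j; omega

omit [Fintype ι] in
lemma IsStrict.smul_one_eq_zero [Nonempty ι] {c : F} (h : IsStrict b (c • (1 : Matrix ι ι F))) :
    c = 0 := by
  obtain ⟨i⟩ := ‹Nonempty ι›
  simpa using h (le_refl (b i))

/-- Strictly triangular perturbations of the identity are torsion of exponent `r`. -/
lemma IsStrict.pow_char (hb : ∀ i, b i ≤ 2) {r : ℕ} [Fact r.Prime] [CharP F r] (hr : r ≠ 2)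
    (hM : IsStrict b M) : (1 + M) ^ r = 1 := by
  rcases isEmpty_or_nonempty ι with h | h
  · exact Subsingleton.elim _ _
  have h3 : 3 ≤ r := by have := (Fact.out : r.Prime).two_le; omega
  rw [add_pow_char_of_commute (p := r) (Commute.one_left M), one_pow,
    ← Nat.sub_add_cancel h3, pow_add, show M ^ 3 = M * M * M by rw [pow_succ, sq], hM.cube hb,
    mul_zero, add_zero]

/-- An element of order dividing the characteristic is never conjugate to a proper multiple. -/
lemma smul_eq_of_pow_eq_one [Nonempty ι] {r : ℕ} [Fact r.Prime] [CharP F r] {U V : Matrix ι ι F}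
    {l : F} (hU : U ^ r = 1) (hV : V ^ r = 1) (h : U = l • V) : U = V := by
  rw [h, smul_pow, hV] at hU
  obtain ⟨i⟩ := ‹Nonempty ι›
  have h1 : l ^ r = 1 := by simpa using congrFun₂ hU i i
  have h2 : (l - 1) ^ r = 0 := by rw [sub_pow_char, h1, one_pow, sub_self]
  rw [h, sub_eq_zero.mp (eq_zero_of_pow_eq_zero h2), one_smul]

variable (b) in
/-- The unitriangular part of a group of matrices of determinant one. -/
def unitriSubgroup : Subgroup (Matrix.SpecialLinearGroup ι F) where
  carrier := {g | IsStrict b ((g : Matrix ι ι F) - 1)}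
  one_mem' := by simpa using (IsStrict.zero (b := b) (F := F))
  mul_mem' := by
    intro g h hg hh
    have e : ((g * h : Matrix.SpecialLinearGroup ι F) : Matrix ι ι F) - 1 =
        ((g : Matrix ι ι F) - 1) * ((h : Matrix ι ι F) - 1) + ((g : Matrix ι ι F) - 1) +
          ((h : Matrix ι ι F) - 1) := by
      rw [Matrix.SpecialLinearGroup.coe_mul]; noncomm_ring
    show IsStrict b _
    rw [e]
    exact ((hg.mul hh).add hg).add hh
  inv_mem' := by
    intro g hg
    have hT : (g : Matrix ι ι F).BlockTriangular b := fun i j h => by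
      have := hg h.le
      rwa [Matrix.sub_apply, one_apply_ne (fun e : i = j => absurd (e ▸ h) (lt_irrefl _)),
        sub_zero] at this
    have hinv : ((g⁻¹ : Matrix.SpecialLinearGroup ι F) : Matrix ι ι F) * g = 1 := by
      rw [← Matrix.SpecialLinearGroup.coe_mul, inv_mul_cancel, Matrix.SpecialLinearGroup.coe_one]
    have : Invertible (g : Matrix ι ι F) :=
      invertibleOfLeftInverse _ _ hinv
    have hTi : ((g⁻¹ : Matrix.SpecialLinearGroup ι F) : Matrix ι ι F).BlockTriangular b := by
      rw [← invOf_eq_left_inv (a := (g : Matrix ι ι F)) hinv, invOf_eq_nonsing_inv]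
      exact blockTriangular_inv_of_blockTriangular hT
    have e : ((g⁻¹ : Matrix.SpecialLinearGroup ι F) : Matrix ι ι F) - 1 =
        -(((g⁻¹ : Matrix.SpecialLinearGroup ι F) : Matrix ι ι F) * ((g : Matrix ι ι F) - 1) * 1) := by
      rw [mul_one, mul_sub, hinv, mul_one, neg_sub]
    show IsStrict b _
    rw [e]
    exact (hg.conj hTi blockTriangular_one).neg

end Vale.Agent.P240
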